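import Vale.Agent.P073.H73.K2A
import Vale.Agent.P073.AB.Part86
import Vale.Agent.P073.AB.Graph907
import Vale.Agent.P073.ConicalBody

/-!
# P073, block A15: relative interior and relative boundary of dyadic squares
-/

open Set Metric Topology

namespace Vale.Agent.P073.H83

open Vale.Agent.P073.St (V)
open Vale.Agent.P073.SQ (ev)
open Vale.Agent.P073.AB (Idx Part pt edge eInt squ FaceOf EdgeOf EdgeOfSq MinSq)
open Vale.Agent.P073.AB.P86
open _root_.P073 (ConHomeo)
open _root_.P073.Net (dyc dyo len)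

/-! ### Boxes -/

/-- boxes are intersections of half spaces -/
theorem half_Icc (lo hi : V) : ∃ (n : ℕ) (ν : Fin n → V →L[ℝ] ℝ) (t : Fin n → ℝ),
    Icc lo hi = {x | ∀ i, ν i x ≤ t i} := by
  classical
  let e := Fintype.equivFin (Fin 3 × Bool)
  refine ⟨Fintype.card (Fin 3 × Bool), fun i => if (e.symm i).2 then
    ContinuousLinearMap.proj (R := ℝ) (φ := fun _ : Fin 3 => ℝ) (e.symm i).1
    else -ContinuousLinearMap.proj (R := ℝ) (φ := fun _ : Fin 3 => ℝ) (e.symm i).1,
    fun i => if (e.symm i).2 then hi (e.symm i).1 else - lo (e.symm i).1, ?_⟩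
  ext x
  constructor
  · rintro ⟨h1, h2⟩ i
    by_cases h : (e.symm i).2
    · simp only [h, if_true, ContinuousLinearMap.proj_apply]
      exact h2 _
    · simp only [h, Bool.false_eq_true, if_false, ContinuousLinearMap.neg_apply,
        ContinuousLinearMap.proj_apply, neg_le_neg_iff]
      exact h1 _
  · intro h
    constructor
    · intro k
      have := h (e (k, false))
      simpa using this
    · intro k
      have := h (e (k, true))
      simpa using this

theorem dyc_eq_Icc (v : V) (m : ℕ) (z : Fin 3 → ℤ) :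
    dyc v m z = Icc (fun k => v k + z k / 2 ^ m) (fun k => v k + (z k + 1) / 2 ^ m) := by
  ext x
  exact ⟨fun h => ⟨fun k => (h k).1, fun k => (h k).2⟩, fun h k => ⟨h.1 k, h.2 k⟩⟩

theorem squ_eq_Icc (v : V) (s : Idx × Fin 3) :
    squ v s = Icc (fun k => v k + s.1.2 k / 2 ^ s.1.1)
      (fun k => if k = s.2 then v k + s.1.2 k / 2 ^ s.1.1 else
        v k + (s.1.2 k + 1) / 2 ^ s.1.1) := by
  ext x
  constructor
  · rintro ⟨h1, h2⟩
    constructor
    · intro k
      by_cases hk : k = s.2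
      · subst hk; exact h1.ge
      · exact (h2 k hk).1
    · intro k
      by_cases hk : k = s.2
      · subst hk; simp only [if_true]; exact h1.le
      · simp only [if_neg hk]; exact (h2 k hk).2
  · rintro ⟨h1, h2⟩
    refine ⟨le_antisymm ?_ (h1 s.2), fun k hk => ⟨h1 k, ?_⟩⟩
    · have := h2 s.2
      simpa using this
    · have := h2 k
      simpa only [if_neg hk] using this

theorem interior_dyc (v : V) (m : ℕ) (z : Fin 3 → ℤ) : interior (dyc v m z) = dyo v m z := by
  have h1 : dyc v m z = univ.pi fun k => Icc (v k + z k / 2 ^ m) (v k + (z k + 1) / 2 ^ m) := by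
    ext x; simp only [dyc, mem_setOf_eq, mem_univ_pi, mem_Icc]
  rw [h1, interior_pi_set finite_univ]
  ext x
  simp [dyo, interior_Icc]

theorem isOpen_dyo' (v : V) (m : ℕ) (z : Fin 3 → ℤ) : IsOpen (dyo v m z) := by
  rw [← interior_dyc]; exact isOpen_interior

theorem poly_dyc (v : V) (m : ℕ) (z : Fin 3 → ℤ) : H73.Poly (dyc v m z) where
  cpt := isCompact_dyc v m z
  int := by rw [interior_dyc]; exact ⟨_, cen_mem v m z⟩
  half := by rw [dyc_eq_Icc]; exact half_Icc _ _

/-- the boundary of a cube -/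
theorem frontier_dyc {v : V} {m : ℕ} {z : Fin 3 → ℤ} {x : V} (hx : x ∈ frontier (dyc v m z)) :
    x ∈ dyc v m z ∧ ∃ l, x l = v l + z l / 2 ^ m ∨ x l = v l + (z l + 1) / 2 ^ m := by
  rw [frontier, (isCompact_dyc v m z).isClosed.closure_eq, interior_dyc] at hx
  refine ⟨hx.1, ?_⟩
  by_contra hcon
  push Not at hcon
  refine hx.2 fun k => ⟨lt_of_le_of_ne (hx.1 k).1 (hcon k).1.symm,
    lt_of_le_of_ne (hx.1 k).2 (hcon k).2⟩

/-! ### Relative interior of squares -/

theorem plane_squ (v : V) (s : Idx × Fin 3) :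
    (affineSpan ℝ (squ v s) : Set V) ⊆ {x | x s.2 = v s.2 + s.1.2 s.2 / 2 ^ s.1.1} := by
  let A : AffineSubspace ℝ V := (AffineSubspace.mk' (pt v s.1.1 s.1.2)
    (LinearMap.ker (LinearMap.proj (R := ℝ) (φ := fun _ : Fin 3 => ℝ) s.2)))
  have hA : ∀ x, x ∈ A ↔ x s.2 = v s.2 + s.1.2 s.2 / 2 ^ s.1.1 := by
    intro x
    rw [AffineSubspace.mem_mk']
    simp [pt, sub_eq_zero]
  have h1 : affineSpan ℝ (squ v s) ≤ A := by
    rw [affineSpan_le]
    intro x hx
    exact (hA x).2 hx.1
  intro x hx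
  exact (hA x).1 (h1 hx)

theorem add_mem_span {v : V} {s : Idx × Fin 3} {k : Fin 3} (hk : k ≠ s.2) {y : V}
    (hy : y ∈ affineSpan ℝ (squ v s)) (t : ℝ) : y + t • ev k ∈ affineSpan ℝ (squ v s) := by
  have hp : (0:ℝ) < 1 / 2 ^ s.1.1 := by positivity
  have h1 : pt v s.1.1 s.1.2 ∈ squ v s :=
    ⟨rfl, fun j _ => ⟨le_rfl, by show v j + s.1.2 j / 2 ^ s.1.1 ≤ _; rw [div_add_one]; linarith⟩⟩
  have h2 : pt v s.1.1 s.1.2 + (1 / 2 ^ s.1.1 : ℝ) • ev k ∈ squ v s := by
    refine ⟨by simp [pt, ev, hk.symm], fun j _ => ?_⟩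
    by_cases hj : j = k
    · subst hj
      simp only [pt, Pi.add_apply, Pi.smul_apply, ev, Pi.single_eq_same, smul_eq_mul, mul_one]
      rw [div_add_one]
      constructor <;> linarith
    · simp only [pt, Pi.add_apply, Pi.smul_apply, ev, Pi.single_eq_of_ne hj, smul_eq_mul, mul_zero,
        add_zero]
      rw [div_add_one]
      constructor <;> linarith
  have h3 := AffineSubspace.vsub_mem_direction (subset_affineSpan ℝ _ h2)
    (subset_affineSpan ℝ _ h1)
  rw [vsub_eq_sub, add_sub_cancel_left] at h3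
  have h4 : t • ev k ∈ (affineSpan ℝ (squ v s)).direction := by
    have := Submodule.smul_mem _ (t * 2 ^ s.1.1) h3
    rwa [smul_smul, mul_assoc, mul_one_div_cancel (by positivity), mul_one] at this
  rw [add_comm]
  exact AffineSubspace.vadd_mem_of_mem_direction h4 hy

theorem intrinsicInterior_squ (v : V) (s : Idx × Fin 3) :
    intrinsicInterior ℝ (squ v s) = rel v s := by
  apply Subset.antisymm
  · rintro _ ⟨y, hy, rfl⟩
    have hys : (y : V) ∈ squ v s :=
      interior_subset (s := (Subtype.val ⁻¹' squ v s : Set (affineSpan ℝ (squ v s)))) hy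
    refine ⟨hys.1, fun k hk => ?_⟩
    have hev : ∀ᶠ t : ℝ in 𝓝 0, (y : V) + t • ev k ∈ squ v s := by
      have hc : Continuous fun t : ℝ => (⟨(y : V) + t • ev k, add_mem_span hk y.2 t⟩ :
          affineSpan ℝ (squ v s)) := by
        refine Continuous.subtype_mk ?_ _
        fun_prop
      have h0 : (⟨(y : V) + (0:ℝ) • ev k, add_mem_span hk y.2 0⟩ :
          affineSpan ℝ (squ v s)) = y := by
        apply Subtype.ext; simp
      have h1 := hc.continuousAt (x := 0)
      have h2 : ∀ᶠ z in 𝓝 (⟨(y : V) + (0:ℝ) • ev k, add_mem_span hk y.2 0⟩ :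
          affineSpan ℝ (squ v s)), z ∈ (Subtype.val ⁻¹' squ v s : Set (affineSpan ℝ (squ v s))) := by
        rw [h0]
        exact mem_interior_iff_mem_nhds.1 hy
      exact h1.eventually h2
    obtain ⟨δ, hδ, hball⟩ := Metric.eventually_nhds_iff.1 hev
    have h1 := (hball (y := δ / 2) (by rw [Real.dist_eq, sub_zero, abs_of_pos] <;> linarith)).2 k hk
    have h2 := (hball (y := -(δ / 2)) (by
      rw [Real.dist_eq, sub_zero, abs_neg, abs_of_pos] <;> linarith)).2 k hk
    simp only [Pi.add_apply, Pi.smul_apply, ev, Pi.single_eq_same, smul_eq_mul, mul_one] at h1 h2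
    constructor <;> linarith [h1.1, h1.2, h2.1, h2.2]
  · intro x hx
    have hxs : x ∈ affineSpan ℝ (squ v s) := subset_affineSpan ℝ _ (rel_sub hx)
    refine ⟨⟨x, hxs⟩, ?_, rfl⟩
    rw [mem_interior_iff_mem_nhds]
    have hU : IsOpen {y : V | ∀ k, k ≠ s.2 →
        v k + s.1.2 k / 2 ^ s.1.1 < y k ∧ y k < v k + (s.1.2 k + 1) / 2 ^ s.1.1} := by
      have : {y : V | ∀ k, k ≠ s.2 →
        v k + s.1.2 k / 2 ^ s.1.1 < y k ∧ y k < v k + (s.1.2 k + 1) / 2 ^ s.1.1} =
        ⋂ k : Fin 3, {y : V | k ≠ s.2 →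
        v k + s.1.2 k / 2 ^ s.1.1 < y k ∧ y k < v k + (s.1.2 k + 1) / 2 ^ s.1.1} := by
        ext y; simp
      rw [this]
      refine isOpen_iInter_of_finite fun k => ?_
      by_cases hk : k = s.2
      · simp [hk]
      · have h2 : {y : V | k ≠ s.2 →
            v k + s.1.2 k / 2 ^ s.1.1 < y k ∧ y k < v k + (s.1.2 k + 1) / 2 ^ s.1.1} =
            (fun y : V => y k) ⁻¹' Ioo (v k + s.1.2 k / 2 ^ s.1.1)
              (v k + (s.1.2 k + 1) / 2 ^ s.1.1) := by
          ext y; simp [hk]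
        rw [h2]
        exact isOpen_Ioo.preimage (continuous_apply k)
    have h3 : (Subtype.val ⁻¹' {y : V | ∀ k, k ≠ s.2 →
        v k + s.1.2 k / 2 ^ s.1.1 < y k ∧ y k < v k + (s.1.2 k + 1) / 2 ^ s.1.1} :
        Set (affineSpan ℝ (squ v s))) ∈ 𝓝 (⟨x, hxs⟩ : affineSpan ℝ (squ v s)) :=
      (hU.preimage continuous_subtype_val).mem_nhds hx.2
    refine Filter.mem_of_superset h3 ?_
    rintro ⟨y, hy⟩ hy'
    exact ⟨plane_squ v s hy, fun k hk => ⟨(hy' k hk).1.le, (hy' k hk).2.le⟩⟩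

theorem isCompact_squ' (v : V) (s : Idx × Fin 3) : IsCompact (squ v s) := by
  rw [squ_eq_Icc]; exact isCompact_Icc

theorem intrinsicFrontier_squ (v : V) (s : Idx × Fin 3) :
    intrinsicFrontier ℝ (squ v s) = squ v s \ rel v s := by
  rw [← intrinsicClosure_sdiff_intrinsicInterior, intrinsicInterior_squ,
    ((isCompact_squ' v s).isClosed.preimage continuous_subtype_val).intrinsicClosure]


end Vale.Agent.P073.H83
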