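import Vale.Agent.P073.H83.Riem

/-!
# P073, block GEN-B, part 4: edges in a square; the cube containing a point
-/

open Set Metric Topology Filter MeasureTheory
open scoped ENNReal
open Vale.Agent.P073.AB (Idx Part pt edge eInt squ FaceOf EdgeOf EdgeOfSq MinSq)
open P073.Net (dyc dyo)
open Vale.Agent.P073.St (V)
open Vale.Agent.P073.H194
open Vale.Agent.P073.SQ (ev)

namespace Vale.Agent.P073.H83

/-! ### One dimension -/

theorem Ico_split {m n : ℕ} (hn : m ≤ n) (z : ℤ) :
    Ico ((z : ℝ) / 2 ^ m) ((z + 1) / 2 ^ m) =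
      ⋃ a ∈ Finset.Ico (2 ^ (n - m) * z) (2 ^ (n - m) * (z + 1)),
        Ico ((a : ℝ) / 2 ^ n) ((a + 1) / 2 ^ n) := by
  have hp : (0:ℝ) < 2 ^ n := by positivity
  have hp' : (0:ℝ) < 2 ^ m := by positivity
  have hs := two_pow_split hn
  ext t
  simp only [mem_iUnion, exists_prop, Finset.mem_Ico]
  constructor
  · rintro ⟨h1, h2⟩
    rw [div_le_iff₀ hp'] at h1
    rw [lt_div_iff₀ hp'] at h2
    refine ⟨⌊t * 2 ^ n⌋, ⟨?_, ?_⟩, ?_, ?_⟩
    · rw [Int.le_floor]
      push_cast
      rw [hs]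
      nlinarith [pow_pos (show (0:ℝ) < 2 by norm_num) (n - m)]
    · rw [Int.floor_lt]
      push_cast
      rw [hs]
      nlinarith [pow_pos (show (0:ℝ) < 2 by norm_num) (n - m)]
    · rw [div_le_iff₀ hp]; exact Int.floor_le _
    · rw [lt_div_iff₀ hp]; exact Int.lt_floor_add_one _
  · rintro ⟨a, ⟨h3, h4⟩, h1, h2⟩
    have h3' : (2:ℝ) ^ (n - m) * z ≤ a := by exact_mod_cast h3
    have h4' : (a : ℝ) + 1 ≤ (2:ℝ) ^ (n - m) * (z + 1) := by exact_mod_cast h4
    have e1 : (z : ℝ) / 2 ^ m = (2 ^ (n - m) * z) / 2 ^ n := by rw [hs]; field_simp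
    have e2 : ((z : ℝ) + 1) / 2 ^ m = (2 ^ (n - m) * (z + 1)) / 2 ^ n := by rw [hs]; field_simp
    rw [e1, e2]
    exact ⟨le_trans (by gcongr) h1, lt_of_lt_of_le h2 (by gcongr)⟩

theorem Ico_disj {n : ℕ} {a b : ℤ} (h : a ≠ b) :
    Disjoint (Ico ((a : ℝ) / 2 ^ n) ((a + 1) / 2 ^ n)) (Ico ((b : ℝ) / 2 ^ n) ((b + 1) / 2 ^ n)) := by
  rw [Set.disjoint_left]
  intro t ht ht'
  exact h ((floor_of_mem ht.1 ht.2).symm.trans (floor_of_mem ht'.1 ht'.2))

/-- an edge is the union of its subedges -/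
theorem eInt_split (v : V) {m n : ℕ} (hn : m ≤ n) (z : Fin 3 → ℤ) (k : Fin 3) {H : V → ℝ≥0∞}
    (hH : Measurable H) :
    ∑ a ∈ Finset.Ico (2 ^ (n - m) * z k) (2 ^ (n - m) * (z k + 1)),
      eInt v ((n, Function.update (fun j => 2 ^ (n - m) * z j) k a), k) H =
      eInt v ((m, z), k) H := by
  have hs := two_pow_split hn
  have hp : (0:ℝ) < 2 ^ n := by positivity
  have h1 : ∀ a : ℤ, eInt v ((n, Function.update (fun j => 2 ^ (n - m) * z j) k a), k) H =
      ∫⁻ t in Ico ((a : ℝ) / 2 ^ n) ((a + 1) / 2 ^ n),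
        H (Function.update (pt v m z) k (v k + t)) := by
    intro a
    rw [eInt_hc v n _ k hH, Function.update_self]
    refine lintegral_congr fun t => ?_
    congr 1
    funext i
    by_cases hi : i = k
    · subst hi; simp
    · rw [Function.update_of_ne hi, Function.update_of_ne hi]
      simp only [pt, Function.update_of_ne hi]
      push_cast
      rw [hs]
      field_simp
  simp_rw [h1]
  rw [eInt_hc v m z k hH, Ico_split hn (z k), lintegral_biUnion_finset]
  · intro a _ b _ h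
    exact Ico_disj h
  · intro a _
    exact measurableSet_Ico

/-! ### Edges in a square -/

/-- type of the edges of direction `k` in a square with normal `s.2` -/
noncomputable def ke (s : Idx × Fin 3) (k : Fin 3) : Fin 3 → Kd := fun j =>
  if j = s.2 then some (Sum.inr ((s.1.2 s.2 : ℚ) / 2 ^ s.1.1)) else if j = k then none
  else some (Sum.inl false)

theorem ps_ke (s : Idx × Fin 3) (k : Fin 3) (y : V) :
    ps (ke s k) y = Function.update y s.2 ((s.1.2 s.2 : ℝ) / 2 ^ s.1.1) := by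
  funext j
  by_cases h1 : j = s.2
  · rw [h1, Function.update_self]
    simp [ps, ke, li]
  · rw [Function.update_of_ne h1]
    by_cases h2 : j = k
    · subst h2
      simp [ps, ke, li, h1]
    · simp [ps, ke, li, h1, h2]

theorem sInt_ke (v : V) (s : Idx × Fin 3) (k : Fin 3) (H : V → ℝ≥0∞) :
    sInt v s H = 2 ^ s.1.1 * ∫⁻ y in hc s.1, H (v + ps (ke s k) y) := by
  rw [sInt_hc]
  simp_rw [ps_ke]

theorem lintegral_ke (v : V) (s : Idx × Fin 3) (k : Fin 3) (hk : k ≠ s.2) {n : ℕ}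
    (hn : s.1.1 ≤ n) (w : Fin 3 → ℤ) {H : V → ℝ≥0∞} (hH : Measurable H) :
    ∫⁻ y in hc (n, w), H (v + ph (ke s k) n y) = ENNReal.ofReal ((1 / 2 ^ n) ^ 2) *
      eInt v ((n, Function.update w s.2 (2 ^ (n - s.1.1) * s.1.2 s.2)), k) H := by
  have hs := two_pow_split hn
  have hp : (0:ℝ) < 2 ^ n := by positivity
  set w' : Fin 3 → ℤ := Function.update w s.2 (2 ^ (n - s.1.1) * s.1.2 s.2) with hw'
  have hwk : w' k = w k := by rw [hw', Function.update_of_ne hk]
  have h1 : ∫⁻ y in hc (n, w), H (v + ph (ke s k) n y) =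
      ∫⁻ y in hc (n, w), (fun t => H (Function.update (pt v n w') k (v k + t))) (y k) := by
    refine setLIntegral_congr_fun (measurableSet_hc _) fun y hy => ?_
    show H _ = H _
    congr 1
    rw [mem_hc] at hy
    funext j
    by_cases h2 : j = k
    · subst h2
      simp [ph, ke, co, hk]
    · rw [Function.update_of_ne h2]
      by_cases h3 : j = s.2
      · simp only [Pi.add_apply, ph, ke, if_pos h3, co, pt, hw']
        rw [h3, Function.update_self]
        push_cast
        rw [hs]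
        field_simp
      · have h4 := floor_of_mem (hy j).1 (hy j).2
        simp only [Pi.add_apply, ph, ke, if_neg h3, if_neg h2, co, pt, hw',
          Function.update_of_ne h3, la, h4]
        simp
  rw [h1, lintegral_hc_coord (n, w) k
    (G := fun t => H (Function.update (pt v n w') k (v k + t)))
    (hH.comp ((measurable_update _).comp (measurable_const_add _)))]
  congr 1
  rw [eInt_hc v n w' k hH, hwk]

/-- lower corners of the lower edges -/
noncomputable def eLow (s : Idx × Fin 3) (n : ℕ) : Finset (Fin 3 → ℤ) :=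
  Fintype.piFinset fun j =>
    if j = s.2 then {2 ^ (n - s.1.1) * s.1.2 j}
    else Finset.Ico (2 ^ (n - s.1.1) * s.1.2 j) (2 ^ (n - s.1.1) * (s.1.2 j + 1))

theorem mem_eLow {s : Idx × Fin 3} {n : ℕ} {w : Fin 3 → ℤ} : w ∈ eLow s n ↔
    w s.2 = 2 ^ (n - s.1.1) * s.1.2 s.2 ∧ ∀ j, j ≠ s.2 → 2 ^ (n - s.1.1) * s.1.2 j ≤ w j ∧
      w j < 2 ^ (n - s.1.1) * (s.1.2 j + 1) := by
  rw [eLow, Fintype.mem_piFinset]
  constructor
  · intro h
    refine ⟨by simpa using h s.2, fun j hj => ?_⟩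
    have := h j
    rwa [if_neg hj, Finset.mem_Ico] at this
  · rintro ⟨h1, h2⟩ j
    by_cases hj : j = s.2
    · rw [if_pos hj, Finset.mem_singleton, hj, h1]
    · rw [if_neg hj, Finset.mem_Ico]
      exact h2 j hj

theorem sum_subs (s : Idx × Fin 3) (n : ℕ) (T : (Fin 3 → ℤ) → ℝ≥0∞) :
    ∑ w ∈ subs s.1 n, T (Function.update w s.2 (2 ^ (n - s.1.1) * s.1.2 s.2)) =
      2 ^ (n - s.1.1) * ∑ w ∈ eLow s n, T w := by
  have h1 : ∑ w ∈ subs s.1 n, T (Function.update w s.2 (2 ^ (n - s.1.1) * s.1.2 s.2)) =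
      ∑ q ∈ eLow s n ×ˢ Finset.Ico (2 ^ (n - s.1.1) * s.1.2 s.2)
        (2 ^ (n - s.1.1) * (s.1.2 s.2 + 1)), T q.1 := by
    refine Finset.sum_nbij'
      (fun w => (Function.update w s.2 (2 ^ (n - s.1.1) * s.1.2 s.2), w s.2))
      (fun q => Function.update q.1 s.2 q.2) ?_ ?_ ?_ ?_ ?_
    · intro w hw
      rw [mem_subs] at hw
      rw [Finset.mem_product, mem_eLow, Finset.mem_Ico]
      refine ⟨⟨Function.update_self .., fun j hj => ?_⟩, hw s.2⟩
      show 2 ^ (n - s.1.1) * s.1.2 j ≤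
        (Function.update w s.2 (2 ^ (n - s.1.1) * s.1.2 s.2)) j ∧
        (Function.update w s.2 (2 ^ (n - s.1.1) * s.1.2 s.2)) j < _
      rw [Function.update_of_ne hj]
      exact hw j
    · intro q hq
      rw [Finset.mem_product, mem_eLow, Finset.mem_Ico] at hq
      rw [mem_subs]
      intro j
      by_cases hj : j = s.2
      · rw [hj, Function.update_self]
        exact hq.2
      · rw [Function.update_of_ne hj]
        exact hq.1.2 j hj
    · intro w hw
      simp
    · intro q hq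
      rw [Finset.mem_product, mem_eLow] at hq
      ext1
      · simp only [Function.update_idem]
        rw [← hq.1.1, Function.update_eq_self]
      · simp
    · intro w hw
      rfl
  rw [h1, Finset.sum_product]
  simp only [Finset.sum_const, Int.card_Ico, nsmul_eq_mul]
  rw [← Finset.mul_sum]
  congr 1
  have : (2 ^ (n - s.1.1) * (s.1.2 s.2 + 1) - 2 ^ (n - s.1.1) * s.1.2 s.2 : ℤ) =
      ((2 ^ (n - s.1.1) : ℕ) : ℤ) := by push_cast; ring
  rw [this, Int.toNat_natCast]
  push_cast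
  rfl

theorem sum_eLow (v : V) (s : Idx × Fin 3) (k : Fin 3) (hk : k ≠ s.2) {n : ℕ}
    (hn : s.1.1 ≤ n) {H : V → ℝ≥0∞} (hH : Measurable H) :
    ∑ w ∈ eLow s n, ENNReal.ofReal (1 / 2 ^ n) * eInt v ((n, w), k) H =
      2 ^ s.1.1 * ∫⁻ y in hc s.1, H (v + ph (ke s k) n y) := by
  rw [setLIntegral_hc s.1 hn]
  simp_rw [lintegral_ke v s k hk hn _ hH]
  rw [sum_subs s n (fun w => ENNReal.ofReal ((1 / 2 ^ n) ^ 2) * eInt v ((n, w), k) H),
    Finset.mul_sum, Finset.mul_sum]
  refine Finset.sum_congr rfl fun w _ => ?_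
  rw [← mul_assoc, ← mul_assoc]
  congr 1
  have h2 : ∀ a : ℕ, (2 : ℝ≥0∞) ^ a = ENNReal.ofReal (2 ^ a) := by
    intro a
    rw [ENNReal.ofReal_pow (by norm_num)]; norm_num
  rw [h2, h2, ← ENNReal.ofReal_mul (by positivity), ← ENNReal.ofReal_mul (by positivity)]
  congr 1
  have hs := two_pow_split hn
  have : (2:ℝ) ^ s.1.1 * 2 ^ (n - s.1.1) = 2 ^ n := by rw [hs]; ring
  rw [this]
  field_simp

/-- the third direction -/
def th (a b : Fin 3) : Fin 3 := if a ≠ 0 ∧ b ≠ 0 then 0 else if a ≠ 1 ∧ b ≠ 1 then 1 else 2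

theorem th_ne_left {a b : Fin 3} : th a b ≠ a := by revert a b; decide
theorem th_ne_right {a b : Fin 3} (h : a ≠ b) : th a b ≠ b := by revert a b; decide
theorem eq_th {a b j : Fin 3} (h : a ≠ b) (ha : j ≠ a) (hb : j ≠ b) : j = th a b := by
  revert a b j; decide

/-- the upper edge -/
theorem fSum_le (v : V) (s : Idx × Fin 3) (k : Fin 3) (hk : k ≠ s.2) {n : ℕ}
    (hn : s.1.1 ≤ n) {H : V → ℝ≥0∞} (hH : Measurable H) :
    fSum v s n k H ≤ sInt v s H + 2 ^ s.1.1 * Er H (ke s k) s.1 n v +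
      ENNReal.ofReal (1 / 2 ^ n) * eInt v ((s.1.1,
        Function.update s.1.2 (th s.2 k) (s.1.2 (th s.2 k) + 1)), k) H := by
  classical
  have hks : s.2 ≠ k := hk.symm
  have ha : th s.2 k ≠ s.2 := th_ne_left
  have hb : th s.2 k ≠ k := th_ne_right hks
  set i := th s.2 k with hi
  set z' : Fin 3 → ℤ := Function.update s.1.2 i (s.1.2 i + 1) with hz'
  have hz'k : z' k = s.1.2 k := by rw [hz', Function.update_of_ne hb.symm]
  set U : Finset (Fin 3 → ℤ) := (Finset.Ico (2 ^ (n - s.1.1) * z' k) (2 ^ (n - s.1.1) *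
    (z' k + 1))).image (fun a => Function.update (fun j => 2 ^ (n - s.1.1) * z' j) k a) with hU
  have hsub : eInSq s n k ⊆ eLow s n ∪ U := by
    intro w hw
    rw [eInSq, Fintype.mem_piFinset] at hw
    have hs2 : w s.2 = 2 ^ (n - s.1.1) * s.1.2 s.2 := by simpa using hw s.2
    have hwk : 2 ^ (n - s.1.1) * s.1.2 k ≤ w k ∧ w k < 2 ^ (n - s.1.1) * (s.1.2 k + 1) := by
      have := hw k
      rwa [if_neg hk, if_pos rfl, Finset.mem_Ico] at this
    have hwi : 2 ^ (n - s.1.1) * s.1.2 i ≤ w i ∧ w i ≤ 2 ^ (n - s.1.1) * (s.1.2 i + 1) := by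
      have := hw i
      rwa [if_neg ha, if_neg hb, Finset.mem_Icc] at this
    rw [Finset.mem_union]
    rcases hwi.2.lt_or_eq with h | h
    · left
      rw [mem_eLow]
      refine ⟨hs2, fun j hj => ?_⟩
      by_cases hjk : j = k
      · rw [hjk]; exact hwk
      · have : j = i := eq_th hks hj hjk
        rw [this]
        exact ⟨hwi.1, h⟩
    · right
      rw [hU, Finset.mem_image]
      refine ⟨w k, by rw [Finset.mem_Ico, hz'k]; exact hwk, ?_⟩
      funext j
      by_cases hjk : j = k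
      · rw [hjk, Function.update_self]
      · rw [Function.update_of_ne hjk]
        by_cases hj : j = s.2
        · show 2 ^ (n - s.1.1) * z' j = w j
          rw [hz', hj, Function.update_of_ne ha.symm, hs2]
        · have : j = i := eq_th hks hj hjk
          show 2 ^ (n - s.1.1) * z' j = w j
          rw [hz', this, Function.update_self, h]
  have h1 : ∑ w ∈ U, ENNReal.ofReal (1 / 2 ^ n) * eInt v ((n, w), k) H =
      ENNReal.ofReal (1 / 2 ^ n) * eInt v ((s.1.1, z'), k) H := by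
    rw [← Finset.mul_sum, hU, Finset.sum_image]
    · rw [eInt_split v hn z' k hH]
    · intro a _ b _ hab
      have := congrFun hab k
      simpa using this
  calc fSum v s n k H ≤ ∑ w ∈ eLow s n ∪ U, ENNReal.ofReal (1 / 2 ^ n) * eInt v ((n, w), k) H :=
        Finset.sum_le_sum_of_subset hsub
    _ ≤ ∑ w ∈ eLow s n, ENNReal.ofReal (1 / 2 ^ n) * eInt v ((n, w), k) H +
        ∑ w ∈ U, ENNReal.ofReal (1 / 2 ^ n) * eInt v ((n, w), k) H := by
        rw [← Finset.sum_union_inter]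
        exact le_self_add
    _ ≤ _ := by
        rw [h1, sum_eLow v s k hk hn hH, sInt_ke v s k, ← mul_add]
        gcongr
        exact le_add_tsub

end Vale.Agent.P073.H83
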