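import Vale.Agent.P073.H83.GenB

/-!
# P073, block A03-MESH: null sets and generic origins
-/

open Set Metric Topology Filter MeasureTheory
open scoped ENNReal
open Vale.Agent.P073.AB (Idx pt edge eInt)
open Vale.Agent.P073.St (V)
open P073.Net (dyc dyo)
open Vale.Agent.P073.H194
open Vale.Agent.P073.SQ (ev)

namespace Vale.Agent.P073.H83

theorem ae_eInt_zero (e : Idx × Fin 3) {H : V → ℝ≥0∞} (hH : Measurable H)
    (h0 : ∫⁻ x, H x = 0) : ∀ᵐ v : V, eInt v e H = 0 := by
  obtain ⟨⟨n, w⟩, k⟩ := e
  have hj : Measurable fun p : V × ℝ =>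
      H (p.1 + Function.update (fun i => (w i : ℝ) / 2 ^ n) k p.2) := by
    refine hH.comp (measurable_fst.add ?_)
    exact (measurable_update (fun i => (w i : ℝ) / 2 ^ n)).comp measurable_snd
  have he : ∀ v, eInt v ((n, w), k) H = ∫⁻ t in Ico ((w k : ℝ) / 2 ^ n) ((w k + 1) / 2 ^ n),
      H (v + Function.update (fun i => (w i : ℝ) / 2 ^ n) k t) := by
    intro v
    rw [eInt_hc v n w k hH]
    refine lintegral_congr fun t => ?_
    congr 1
    funext i
    by_cases hi : i = k
    · subst hi; simp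
    · simp [Function.update_of_ne hi, pt]
  have hm : Measurable fun v => eInt v ((n, w), k) H := by
    simp_rw [he]
    exact hj.lintegral_prod_right'
  have h1 : ∫⁻ v, eInt v ((n, w), k) H = 0 := by
    simp_rw [he]
    rw [lintegral_lintegral_swap hj.aemeasurable]
    have h2 : ∀ t : ℝ, ∫⁻ v : V, H (v + Function.update (fun i => (w i : ℝ) / 2 ^ n) k t) = 0 :=
      fun t => (lintegral_add_right_eq_self H _).trans h0
    simp only [h2]
    exact lintegral_zero
  rw [lintegral_eq_zero_iff hm] at h1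
  exact h1

theorem ae_sInt_zero (s : Idx × Fin 3) {H : V → ℝ≥0∞} (hH : Measurable H)
    (h0 : ∫⁻ x, H x = 0) : ∀ᵐ v : V, sInt v s H = 0 := by
  have h1 : ∫⁻ v, sInt v s H = 0 := by
    simp_rw [sInt_hc]
    rw [lintegral_const_mul' _ _ (by simp),
      lintegral_ps hH (φ := fun y => Function.update y s.2 ((s.1.2 s.2 : ℝ) / 2 ^ s.1.1))
      (by fun_prop) s.1, h0, mul_zero, mul_zero]
  rw [lintegral_eq_zero_iff (measurable_sInt s hH)] at h1
  exact h1

/-- **(AEREP)** for almost every origin `v`, changing a function on the null set `N` does not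
change its integrals over the dyadic edges and squares with origin `v`. -/
theorem ae_rep {N : Set V} (hN : volume N = 0) : ∀ᵐ v : V, ∀ A A' : V → ℝ≥0∞,
    (∀ x, x ∉ N → A x = A' x) →
    (∀ e, eInt v e A = eInt v e A') ∧ ∀ s, sInt v s A = sInt v s A' := by
  set N' := toMeasurable volume N with hN'
  have hN'm : MeasurableSet N' := measurableSet_toMeasurable _ _
  have hN'0 : volume N' = 0 := by rw [hN', measure_toMeasurable, hN]
  set H : V → ℝ≥0∞ := N'.indicator fun _ => 1 with hH
  have hHm : Measurable H := measurable_const.indicator hN'm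
  have hH0 : ∫⁻ x, H x = 0 := by
    rw [hH, lintegral_indicator hN'm, lintegral_const, Measure.restrict_apply_univ, hN'0, mul_zero]
  have h1 : ∀ᵐ v : V, ∀ e, eInt v e H = 0 := ae_all_iff.2 fun e => ae_eInt_zero e hHm hH0
  have h2 : ∀ᵐ v : V, ∀ s, sInt v s H = 0 := ae_all_iff.2 fun s => ae_sInt_zero s hHm hH0
  filter_upwards [h1, h2] with v hv hv' A A' hA
  have key : ∀ x, H x = 0 → A x = A' x := by
    intro x hx
    apply hA
    intro hxN
    rw [hH, indicator_of_mem (subset_toMeasurable _ _ hxN)] at hx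
    exact one_ne_zero hx
  constructor
  · rintro ⟨⟨n, w⟩, k⟩
    have h3 := hv ((n, w), k)
    show ENNReal.ofReal (1 / 2 ^ n) * (∫⁻ t in Icc (0:ℝ) 1,
      A (pt v n w + t • ((1 / 2 ^ n : ℝ) • ev k))) =
      ENNReal.ofReal (1 / 2 ^ n) * ∫⁻ t in Icc (0:ℝ) 1,
      A' (pt v n w + t • ((1 / 2 ^ n : ℝ) • ev k))
    have h4 : ENNReal.ofReal (1 / 2 ^ n) * ∫⁻ t in Icc (0:ℝ) 1,
      H (pt v n w + t • ((1 / 2 ^ n : ℝ) • ev k)) = 0 := h3
    congr 1
    rw [mul_eq_zero] at h4
    rcases h4 with h4 | h4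
    · rw [ENNReal.ofReal_eq_zero] at h4
      have : (0:ℝ) < 1 / 2 ^ n := by positivity
      exact absurd h4 (not_le.2 this)
    · have hm : Measurable fun t : ℝ => H (pt v n w + t • ((1 / 2 ^ n : ℝ) • ev k)) :=
        hHm.comp (by fun_prop)
      rw [lintegral_eq_zero_iff hm] at h4
      refine lintegral_congr_ae ?_
      filter_upwards [h4] with t ht
      exact key _ ht
  · intro s
    have h3 := hv' s
    unfold sInt at h3 ⊢
    congr 1
    rw [mul_eq_zero] at h3
    rcases h3 with h3 | h3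
    · exact absurd h3 (by simp)
    · have hm : Measurable fun x : V => H (Function.update x s.2 (pt v s.1.1 s.1.2 s.2)) :=
        hHm.comp (by fun_prop)
      rw [lintegral_eq_zero_iff hm] at h3
      refine lintegral_congr_ae ?_
      filter_upwards [h3] with x hx
      exact key _ hx

end Vale.Agent.P073.H83
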