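import Vale.Agent.P073.H83.Gen
import Vale.Agent.P073.H471.Avg

/-!
# P073, block A03-MESH: big cells. For almost every centre `c` (chosen after the origin `v`), the
dyadic cubes containing `f⁻¹ c` have arbitrarily small weighted surface integrals.
-/

open Set Metric Topology Filter MeasureTheory
open scoped ENNReal
open Vale.Agent.P073.AB (Idx)
open Vale.Agent.P073.St (V IsHomeo)
open Vale.Agent.P073.H194
open Vale.Agent.P073.H471 (wt Cw measurable_wt Cw_ne_top)
open P073.Net (dyc dyo)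

namespace Vale.Agent.P073.H83

/-- integral of the weight over small balls -/
theorem tendsto_wt {p : ℝ} (hp3 : p < 3) :
    Tendsto (fun r : ℝ => ∫⁻ z in closedBall (0 : V) r, wt p 1 z) (𝓝 0) (𝓝 0) := by
  set W : V → ℝ≥0∞ := (ball (0 : V) 2).indicator (wt p 1) with hW
  have h1 : ∫⁻ z, W z ≠ ∞ := by
    rw [hW, lintegral_indicator measurableSet_ball]
    exact Cw_ne_top hp3
  have h2 : Tendsto (fun r : ℝ => volume (closedBall (0 : V) r)) (𝓝 0) (𝓝 0) := by
    have h3 : ∀ r : ℝ, volume (closedBall (0 : V) r) ≤ ENNReal.ofReal ((2 * |r|) ^ 3) := by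
      intro r
      rcases le_or_gt 0 r with hr | hr
      · rw [Real.volume_pi_closedBall _ hr, abs_of_nonneg hr]
        simp
      · rw [closedBall_eq_empty.2 hr, measure_empty]
        exact zero_le
    have h4 : Tendsto (fun r : ℝ => ENNReal.ofReal ((2 * |r|) ^ 3)) (𝓝 0) (𝓝 0) := by
      have : Continuous fun r : ℝ => ENNReal.ofReal ((2 * |r|) ^ 3) :=
        ENNReal.continuous_ofReal.comp (by fun_prop)
      have h5 := this.tendsto 0
      simpa using h5
    exact tendsto_of_tendsto_of_tendsto_of_le_of_le tendsto_const_nhds h4 (fun _ => zero_le) h3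
  have h6 := tendsto_setLIntegral_zero h1 h2
  refine h6.congr' ?_
  filter_upwards [Iio_mem_nhds (show (0:ℝ) < 2 by norm_num)] with r hr
  refine setLIntegral_congr_fun isClosed_closedBall.measurableSet fun z hz => ?_
  show W z = wt p 1 z
  rw [hW, indicator_of_mem]
  exact closedBall_subset_ball hr hz

theorem lintegral_wt_ball {p : ℝ} (a : V) (r : ℝ) {S : Set V} (hS : S ⊆ closedBall a r) :
    ∫⁻ c in S, wt p 1 (a - c) ≤ ∫⁻ z in closedBall (0 : V) r, wt p 1 z := by
  calc ∫⁻ c in S, wt p 1 (a - c) ≤ ∫⁻ c in closedBall a r, wt p 1 (a - c) :=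
        lintegral_mono_set hS
    _ = ∫⁻ c, (closedBall (0 : V) r).indicator (wt p 1) (a - c) := by
        rw [← lintegral_indicator isClosed_closedBall.measurableSet]
        refine lintegral_congr fun c => ?_
        by_cases h : c ∈ closedBall a r
        · rw [indicator_of_mem h, indicator_of_mem]
          rw [mem_closedBall_zero_iff, ← dist_eq_norm, dist_comm]; exact h
        · rw [indicator_of_notMem h, indicator_of_notMem]
          rw [mem_closedBall_zero_iff, ← dist_eq_norm, dist_comm]; exact h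
    _ = ∫⁻ z, (closedBall (0 : V) r).indicator (wt p 1) z := lintegral_sub_left_eq_self _ a
    _ = ∫⁻ z in closedBall (0 : V) r, wt p 1 z :=
        lintegral_indicator isClosed_closedBall.measurableSet _

/-- the translated half-open cube -/
def vc (v : V) (q : Idx) : Set V := (fun x => x - v) ⁻¹' hc q

theorem measurableSet_vc (v : V) (q : Idx) : MeasurableSet (vc v q) :=
  (measurable_id.sub measurable_const) (measurableSet_hc q)

theorem vc_sub (v : V) (q : Idx) : vc v q ⊆ dyc v q.1 q.2 := by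
  intro x hx i
  have := mem_hc.1 hx i
  simp only [Pi.sub_apply] at this
  constructor <;> linarith [this.1, this.2]

theorem add_mem_dyc {v : V} {n : ℕ} {w : Fin 3 → ℤ} {y : V} (hy : y ∈ hc (n, w)) (k : Fin 3)
    (s : Bool) : v + Function.update y k (la s n (y k)) ∈ dyc v n w := by
  intro i
  have h1 := mem_hc.1 hy i
  by_cases hi : i = k
  · subst hi
    have h2 := floor_of_mem h1.1 h1.2
    rw [Pi.add_apply, Function.update_self, la, h2]
    cases s
    · simp only [Bool.false_eq_true, if_false, add_zero]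
      constructor
      · exact le_rfl
      · gcongr
        linarith
    · simp only [if_true]
      constructor
      · gcongr
        linarith
      · exact le_rfl
  · rw [Pi.add_apply, Function.update_of_ne hi]
    constructor <;> linarith [h1.1, h1.2]

theorem dist_le_of_mem_dyc {v : V} {n : ℕ} {w : Fin 3 → ℤ} {x y : V} (hx : x ∈ dyc v n w)
    (hy : y ∈ dyc v n w) : dist x y ≤ 1 / 2 ^ n := by
  rw [dist_pi_le_iff (by positivity)]
  intro i
  obtain ⟨a, b⟩ := hx i
  obtain ⟨c, d⟩ := hy i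
  simp only [add_div] at a b c d
  rw [Real.dist_eq, abs_le]
  constructor <;> linarith

theorem dyc_sub_of_subs {v : V} {q : Idx} {n : ℕ} (hn : q.1 ≤ n) {w : Fin 3 → ℤ}
    (hw : w ∈ subs q n) : dyc v n w ⊆ dyc v q.1 q.2 := by
  have hs := two_pow_split hn
  rw [mem_subs] at hw
  intro x hx i
  obtain ⟨a, b⟩ := hx i
  obtain ⟨h3, h4⟩ := hw i
  have h3' : (2:ℝ) ^ (n - q.1) * q.2 i ≤ w i := by exact_mod_cast h3
  have h4' : (w i : ℝ) + 1 ≤ (2:ℝ) ^ (n - q.1) * (q.2 i + 1) := by exact_mod_cast h4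
  have e1 : (q.2 i : ℝ) / 2 ^ q.1 = (2 ^ (n - q.1) * q.2 i) / 2 ^ n := by
    rw [hs]; field_simp
  have e2 : ((q.2 i : ℝ) + 1) / 2 ^ q.1 = (2 ^ (n - q.1) * (q.2 i + 1)) / 2 ^ n := by
    rw [hs]; field_simp
  rw [e1, e2]
  constructor
  · refine le_trans ?_ a
    gcongr
  · refine le_trans b ?_
    gcongr

variable {Ω Λ : Set V} {f : V → V}

/-- the functional for one cube -/
noncomputable def Bw (p : ℝ) (f : V → V) (H : V → ℝ≥0∞) (v : V) (n : ℕ) (w : Fin 3 → ℤ) (c : V) :
    ℝ≥0∞ :=
  ENNReal.ofReal (1 / 2 ^ n) * bInt v (n, w) fun y => wt p 1 (f y - c) * H y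

theorem Bw_eq (p : ℝ) (f : V → V) (H : V → ℝ≥0∞) (v : V) (n : ℕ) (w : Fin 3 → ℤ) (c : V) :
    Bw p f H v n w c = ∑ k : Fin 3, ∑ s : Bool, ∫⁻ y in hc (n, w),
      wt p 1 (f (v + Function.update y k (la s n (y k))) - c) *
        H (v + Function.update y k (la s n (y k))) := by
  rw [Bw, bInt_eq]

theorem Bw_congr {p : ℝ} {f g : V → V} {H : V → ℝ≥0∞} {v : V} {n : ℕ} {w : Fin 3 → ℤ}
    (h : EqOn f g (dyc v n w)) (c : V) : Bw p f H v n w c = Bw p g H v n w c := by
  rw [Bw_eq, Bw_eq]
  refine Finset.sum_congr rfl fun k _ => Finset.sum_congr rfl fun s _ => ?_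
  refine setLIntegral_congr_fun (measurableSet_hc _) fun y hy => ?_
  show wt p 1 (f _ - c) * H _ = wt p 1 (g _ - c) * H _
  rw [h (add_mem_dyc hy k s)]

theorem measurable_up (k : Fin 3) (s : Bool) (n : ℕ) (v : V) :
    Measurable fun y : V => v + Function.update y k (la s n (y k)) := by
  have h1 : Measurable fun y : V => Function.update y k (la s n (y k)) := by
    refine measurable_pi_lambda _ fun l => ?_
    by_cases hl : l = k
    · subst hl
      simp only [Function.update_self]
      exact (measurable_la s n).comp (measurable_pi_apply l)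
    · simp only [Function.update_of_ne hl]
      exact measurable_pi_apply l
  exact h1.const_add v

theorem measurable_Bw {p : ℝ} {g : V → V} (hg : Measurable g) {H : V → ℝ≥0∞} (hH : Measurable H)
    (v : V) (n : ℕ) (w : Fin 3 → ℤ) : Measurable (Bw p g H v n w) := by
  have : Bw p g H v n w = fun c => ∑ k : Fin 3, ∑ s : Bool, ∫⁻ y in hc (n, w),
      wt p 1 (g (v + Function.update y k (la s n (y k))) - c) *
        H (v + Function.update y k (la s n (y k))) := funext fun c => Bw_eq p g H v n w c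
  rw [this]
  refine Finset.measurable_sum _ fun k _ => Finset.measurable_sum _ fun s _ => ?_
  have h1 : Measurable fun z : V × V => wt p 1 (g (v + Function.update z.2 k (la s n (z.2 k))) -
      z.1) * H (v + Function.update z.2 k (la s n (z.2 k))) := by
    refine Measurable.mul ?_ (hH.comp ((measurable_up k s n v).comp measurable_snd))
    exact (measurable_wt p 1).comp
      ((hg.comp ((measurable_up k s n v).comp measurable_snd)).sub measurable_fst)
  exact h1.lintegral_prod_right'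

/-- averaging over the centres, one cube -/
theorem lintegral_Bw_le {p : ℝ} {g : V → V} (hg : Measurable g) {H : V → ℝ≥0∞}
    (hH : Measurable H) {v : V} {n : ℕ} {w : Fin 3 → ℤ} {S : Set V} {r : ℝ}
    (hS : ∀ x ∈ dyc v n w, S ⊆ closedBall (g x) r) :
    ∫⁻ c in S, Bw p g H v n w c ≤
      (∫⁻ z in closedBall (0 : V) r, wt p 1 z) * (ENNReal.ofReal (1 / 2 ^ n) * bInt v (n, w) H) := by
  have h1 : ∀ (k : Fin 3) (s : Bool), Measurable fun z : V × V =>
      wt p 1 (g (v + Function.update z.2 k (la s n (z.2 k))) -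
      z.1) * H (v + Function.update z.2 k (la s n (z.2 k))) := by
    intro k s
    refine Measurable.mul ?_ (hH.comp ((measurable_up k s n v).comp measurable_snd))
    exact (measurable_wt p 1).comp
      ((hg.comp ((measurable_up k s n v).comp measurable_snd)).sub measurable_fst)
  simp_rw [Bw_eq]
  rw [bInt_eq, Finset.mul_sum, lintegral_finsetSum _ fun k _ => Finset.measurable_sum _ fun s _ =>
    (h1 k s).lintegral_prod_right']
  refine Finset.sum_le_sum fun k _ => ?_
  rw [Finset.mul_sum, lintegral_finsetSum _ fun s _ => (h1 k s).lintegral_prod_right']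
  refine Finset.sum_le_sum fun s _ => ?_
  have hm : Measurable fun y : V => H (v + Function.update y k (la s n (y k))) :=
    hH.comp (measurable_up k s n v)
  rw [lintegral_lintegral_swap (h1 k s).aemeasurable, ← lintegral_const_mul _ hm]
  refine setLIntegral_mono' (measurableSet_hc _) fun y hy => ?_
  have hm2 : Measurable fun c : V =>
      wt p 1 (g (v + Function.update y k (la s n (y k))) - c) :=
    (measurable_wt p 1).comp (measurable_const.sub measurable_id)
  show ∫⁻ c in S, wt p 1 (g (v + Function.update y k (la s n (y k))) - c) *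
    H (v + Function.update y k (la s n (y k))) ≤ _
  rw [lintegral_mul_const _ hm2]
  exact mul_le_mul' (lintegral_wt_ball _ r (hS _ (add_mem_dyc hy k s))) le_rfl

/-! ### Images -/

/-- measurable extension by zero -/
noncomputable def ext0 (S : Set V) (f : V → V) : V → V := by
  classical exact S.piecewise f fun _ => 0

theorem measurable_ext0 {S : Set V} (hS : IsOpen S) {f : V → V} (hf : ContinuousOn f S) :
    Measurable (ext0 S f) := by
  classical
  exact ContinuousOn.measurable_piecewise hf continuousOn_const hS.measurableSet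

theorem ext0_of_mem {S : Set V} {f : V → V} {x : V} (hx : x ∈ S) : ext0 S f x = f x := by
  classical
  exact piecewise_eq_of_mem _ _ _ hx

/-- the part of `Λ` mapped by the inverse into `S` -/
def im (Λ : Set V) (h : V → V) (S : Set V) : Set V := Λ ∩ h ⁻¹' S

theorem measurableSet_im (hΛ : IsOpen Λ) {h : V → V} (hh : ContinuousOn h Λ) {S : Set V}
    (hS : MeasurableSet S) : MeasurableSet (im Λ h S) := by
  have h1 : im Λ h S = Λ ∩ (ext0 Λ h) ⁻¹' S := by
    ext x
    simp only [im, mem_inter_iff, mem_preimage]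
    constructor
    · rintro ⟨hx, h2⟩
      exact ⟨hx, by rwa [ext0_of_mem hx]⟩
    · rintro ⟨hx, h2⟩
      exact ⟨hx, by rwa [ext0_of_mem hx] at h2⟩
  rw [h1]
  exact hΛ.measurableSet.inter ((measurable_ext0 hΛ hh) hS)

theorem isCompact_dyc' (v : V) (m : ℕ) (z : Fin 3 → ℤ) : IsCompact (dyc v m z) := by
  have : dyc v m z = Set.pi univ
      (fun k => Icc (v k + z k / 2 ^ m) (v k + (z k + 1) / 2 ^ m)) := by
    ext x; exact ⟨fun h k _ => h k, fun h k => h k (mem_univ k)⟩
  rw [this]
  exact isCompact_univ_pi (fun _ => isCompact_Icc)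

theorem idx_mem_subs {v : V} {q : Idx} {n : ℕ} (hn : q.1 ≤ n) {x : V} (hx : x ∈ vc v q) :
    idx v n x ∈ subs q n := by
  have h1 : x - v ∈ hc q := hx
  rw [hc_eq_biUnion q hn] at h1
  simp only [mem_iUnion, exists_prop] at h1
  obtain ⟨w, hw, hxw⟩ := h1
  have h2 : w = idx v n x := by
    by_contra hne
    exact Set.disjoint_left.1 (hc_disjoint hne) hxw (idx_mem v n x)
  rwa [← h2]

theorem exists_cube (hΩ : IsOpen Ω) (v : V) {x : V} (hx : x ∈ Ω) :
    ∃ n, dyc v n (idx v n x) ⊆ Ω := by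
  obtain ⟨r, hr, hr'⟩ := Metric.isOpen_iff.1 hΩ x hx
  obtain ⟨n, hn⟩ := exists_pow_lt_of_lt_one hr (show (1 / 2 : ℝ) < 1 by norm_num)
  refine ⟨n, fun y hy => hr' ?_⟩
  rw [one_div_pow] at hn
  have h1 : x ∈ dyc v n (idx v n x) := vc_sub v (n, idx v n x) (idx_mem v n x)
  exact (dist_le_of_mem_dyc hy h1).trans_lt hn

theorem tendsto_J {p : ℝ} (hp3 : p < 3) {h : V → V} (hΛ : IsOpen Λ) (hΩ : IsOpen Ω)
    (hfc : ContinuousOn f Ω) (hhc : ContinuousOn h Λ) (hfh : ∀ y ∈ Λ, h y ∈ Ω ∧ f (h y) = y)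
    {H : V → ℝ≥0∞} (hH : Measurable H) (hfin : ∫⁻ x, H x ≠ ∞) {v : V} {nn : ℕ → ℕ}
    (hnn : StrictMono nn) (hG : GenB v nn H) {q : Idx} (hq : dyc v q.1 q.2 ⊆ Ω) :
    Tendsto (fun l => ∫⁻ c, ∑ w ∈ subs q (nn l), (im Λ h (vc v (nn l, w))).indicator
      (Bw p (ext0 Ω f) H v (nn l) w) c) atTop (𝓝 0) := by
  set g := ext0 Ω f with hg
  have hgm : Measurable g := measurable_ext0 hΩ hfc
  have hgf : ∀ x ∈ Ω, g x = f x := fun x hx => ext0_of_mem hx
  set A : ℝ≥0∞ := 6 * (∫⁻ x in dyc v q.1 q.2, H x) + 1 with hA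
  have hAt : A ≠ ∞ := by
    refine ENNReal.add_ne_top.2 ⟨ENNReal.mul_ne_top (by norm_num) ?_, ENNReal.one_ne_top⟩
    exact ne_top_of_le_ne_top hfin (setLIntegral_le_lintegral _ _)
  have hK : Tendsto (fun r : ℝ => (∫⁻ z in closedBall (0 : V) r, wt p 1 z) * A) (𝓝 0) (𝓝 0) := by
    have := ENNReal.Tendsto.mul_const (tendsto_wt hp3) (b := A) (Or.inr hAt)
    rwa [zero_mul] at this
  rw [ENNReal.tendsto_nhds_zero]
  intro ε hε
  obtain ⟨r, hr0, hr⟩ : ∃ r > 0, (∫⁻ z in closedBall (0 : V) r, wt p 1 z) * A ≤ ε := by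
    have h1 := hK.eventually (ge_mem_nhds hε)
    obtain ⟨r, hr0, hr⟩ := Metric.eventually_nhds_iff.1 h1
    refine ⟨r / 2, by positivity, hr ?_⟩
    rw [Real.dist_eq, sub_zero, abs_of_pos (by positivity)]
    linarith
  have huc := (isCompact_dyc' v q.1 q.2).uniformContinuousOn_of_continuous (hfc.mono hq)
  rw [Metric.uniformContinuousOn_iff] at huc
  obtain ⟨δ, hδ, hδ'⟩ := huc r hr0
  obtain ⟨N, hN⟩ := exists_pow_lt_of_lt_one hδ (show (1 / 2 : ℝ) < 1 by norm_num)
  filter_upwards [hG.faces q 1 one_ne_zero, hnn.tendsto_atTop.eventually_ge_atTop q.1,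
    hnn.tendsto_atTop.eventually_ge_atTop N] with l h1 h2 h3
  have hB : ∀ w, Measurable (Bw p g H v (nn l) w) := fun w => measurable_Bw hgm hH v _ w
  have hS : ∀ w, MeasurableSet (im Λ h (vc v (nn l, w))) := fun w =>
    measurableSet_im hΛ hhc (measurableSet_vc v _)
  rw [lintegral_finsetSum _ fun w _ => (hB w).indicator (hS w)]
  simp_rw [lintegral_indicator (hS _)]
  refine le_trans (Finset.sum_le_sum fun w hw => lintegral_Bw_le hgm hH (r := r) ?_) ?_
  · intro x hx c hc
    have h4 := dyc_sub_of_subs (v := v) h2 hw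
    have h5 : h c ∈ dyc v (nn l) w := vc_sub v (nn l, w) hc.2
    have h6 := hfh c hc.1
    rw [mem_closedBall, ← h6.2, hgf x (hq (h4 hx))]
    refine (hδ' _ (h4 h5) _ (h4 hx) ?_).le
    refine (dist_le_of_mem_dyc h5 hx).trans_lt (lt_of_le_of_lt ?_ hN)
    rw [one_div_pow]
    exact one_div_le_one_div_of_le (by positivity) (pow_le_pow_right₀ (by norm_num) h3)
  · rw [← Finset.mul_sum]
    exact (mul_le_mul_right h1 _).trans hr

/-- **(BIG)**, one function: the centre `c` may be chosen after the origin. -/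
theorem ae_big {p : ℝ} (hp3 : p < 3) {h : V → V} (hΛ : IsOpen Λ) (hΩ : IsOpen Ω)
    (hfc : ContinuousOn f Ω) (hhc : ContinuousOn h Λ) (hfh : ∀ y ∈ Λ, h y ∈ Ω ∧ f (h y) = y)
    {H : V → ℝ≥0∞} (hH : Measurable H) (hfin : ∫⁻ x, H x ≠ ∞) {v : V} {nn : ℕ → ℕ}
    (hnn : StrictMono nn) (hG : GenB v nn H) :
    ∀ᵐ c : V, c ∈ Λ → ∀ δ : ℝ≥0∞, δ ≠ 0 → ∃ᶠ l in atTop,
      Bw p f H v (nn l) (idx v (nn l) (h c)) c < δ := by
  have key : ∀ q : Idx, dyc v q.1 q.2 ⊆ Ω → ∀ᵐ c : V,
      liminf (fun l => ∑ w ∈ subs q (nn l), (im Λ h (vc v (nn l, w))).indicator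
        (Bw p (ext0 Ω f) H v (nn l) w) c) atTop = 0 := by
    intro q hq
    have hm : ∀ l, Measurable fun c => ∑ w ∈ subs q (nn l), (im Λ h (vc v (nn l, w))).indicator
        (Bw p (ext0 Ω f) H v (nn l) w) c := fun l =>
      Finset.measurable_sum _ fun w _ =>
        (measurable_Bw (measurable_ext0 hΩ hfc) hH v _ w).indicator
          (measurableSet_im hΛ hhc (measurableSet_vc v _))
    have h1 := lintegral_liminf_le (μ := (volume : Measure V)) (u := atTop) hm
    rw [(tendsto_J hp3 hΛ hΩ hfc hhc hfh hH hfin hnn hG hq).liminf_eq, nonpos_iff_eq_zero,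
      lintegral_eq_zero_iff (Measurable.liminf hm)] at h1
    exact h1
  have key' : ∀ᵐ c : V, ∀ q : Idx, dyc v q.1 q.2 ⊆ Ω →
      liminf (fun l => ∑ w ∈ subs q (nn l), (im Λ h (vc v (nn l, w))).indicator
        (Bw p (ext0 Ω f) H v (nn l) w) c) atTop = 0 := by
    rw [ae_all_iff]
    intro q
    by_cases hq : dyc v q.1 q.2 ⊆ Ω
    · filter_upwards [key q hq] with c hc _
      exact hc
    · exact Eventually.of_forall fun c h' => absurd h' hq
  filter_upwards [key'] with c hc hcΛ δ hδ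
  obtain ⟨m, hm⟩ := exists_cube hΩ v (hfh c hcΛ).1
  have h1 := hc (m, idx v m (h c)) hm
  have h2 : ∃ᶠ l in atTop, ∑ w ∈ subs (m, idx v m (h c)) (nn l),
      (im Λ h (vc v (nn l, w))).indicator (Bw p (ext0 Ω f) H v (nn l) w) c < δ := by
    refine frequently_lt_of_liminf_lt ?_ ?_
    · exact isCobounded_ge_of_top
    · rw [h1]; exact pos_iff_ne_zero.2 hδ
  refine (h2.and_eventually (hnn.tendsto_atTop.eventually_ge_atTop m)).mono fun l hl => ?_
  obtain ⟨hl, hl'⟩ := hl
  have h3 : h c ∈ vc v (m, idx v m (h c)) := idx_mem v m (h c)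
  have h4 := idx_mem_subs (q := (m, idx v m (h c))) hl' h3
  have h5 : dyc v (nn l) (idx v (nn l) (h c)) ⊆ Ω :=
    (dyc_sub_of_subs (q := (m, idx v m (h c))) hl' h4).trans hm
  refine lt_of_le_of_lt ?_ hl
  refine le_trans (le_of_eq ?_) (Finset.single_le_sum (fun w _ => zero_le) h4)
  rw [indicator_of_mem]
  · exact Bw_congr (fun x hx => (ext0_of_mem (h5 hx)).symm) c
  · exact ⟨hcΛ, idx_mem v (nn l) (h c)⟩

/-- for almost every origin, the images of the dyadic planes are null sets -/
theorem ae_planes {h : V → V} (hΛ : IsOpen Λ) (hhc : ContinuousOn h Λ) :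
    ∀ᵐ v : V, ∀ᵐ c : V, c ∈ Λ → ∀ n, h c ∈ dyo v n (idx v n (h c)) := by
  -- the levels with large image
  have h1 : ∀ k : Fin 3, {t : ℝ | 0 < volume (im Λ h {x | x k = t})}.Countable := by
    intro k
    refine Measure.countable_meas_pos_of_disjoint_iUnion (μ := (volume : Measure V))
      (As := fun t => im Λ h {x | x k = t}) (fun t => ?_) ?_
    · exact measurableSet_im hΛ hhc ((measurableSet_singleton t).preimage (measurable_pi_apply k))
    · intro s t hst
      rw [Function.onFun, Set.disjoint_left]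
      rintro c ⟨_, hc⟩ ⟨_, hc'⟩
      exact hst (hc.symm.trans hc')
  have h2 : ∀ (k : Fin 3) (n : ℕ) (z : ℤ), ∀ᵐ v : V,
      volume (im Λ h {x | x k = v k + z / 2 ^ n}) = 0 := by
    intro k n z
    rw [ae_iff]
    have h3 : {v : V | ¬ volume (im Λ h {x | x k = v k + z / 2 ^ n}) = 0} =
        ⋃ t ∈ {t : ℝ | 0 < volume (im Λ h {x | x k = t})}, {v : V | v k = t - z / 2 ^ n} := by
      ext v
      simp only [mem_ofPred_eq, mem_iUnion, exists_prop]
      constructor
      · intro hv
        exact ⟨_, pos_iff_ne_zero.2 hv, by ring⟩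
      · rintro ⟨t, ht, hv⟩
        have : v k + z / 2 ^ n = t := by rw [hv]; ring
        rw [this]
        exact ht.ne'
    rw [h3, measure_biUnion_null_iff (h1 k)]
    intro t _
    rw [volume_pi]
    exact Measure.pi_hyperplane _ k _
  have h4 : ∀ᵐ v : V, ∀ (k : Fin 3) (n : ℕ) (z : ℤ),
      volume (im Λ h {x | x k = v k + z / 2 ^ n}) = 0 := by
    simp only [ae_all_iff]
    exact h2
  filter_upwards [h4] with v hv
  have h5 : ∀ᵐ c : V, ∀ (k : Fin 3) (n : ℕ) (z : ℤ), c ∉ im Λ h {x | x k = v k + z / 2 ^ n} := by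
    simp only [ae_all_iff]
    intro k n z
    exact measure_eq_zero_iff_ae_notMem.1 (hv k n z)
  filter_upwards [h5] with c hc hcΛ n k
  have h6 := mem_hc.1 (idx_mem v n (h c)) k
  obtain ⟨h7, h8⟩ := h6
  simp only [Pi.sub_apply] at h7 h8
  refine ⟨lt_of_le_of_ne (by linarith) ?_, by linarith⟩
  intro h9
  exact hc k n (idx v n (h c) k) ⟨hcΛ, h9.symm⟩

end Vale.Agent.P073.H83
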