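import Vale.Agent.P073.H83.GenB
import Vale.Agent.P073.H989.GensB

/-!
# P073, block A03-MESH: `SpecGen` (the generic origin), all clauses
-/

open Set Metric Topology Filter MeasureTheory
open scoped ENNReal
open Vale.Agent.P073.AB (Idx)
open Vale.Agent.P073.St (V)
open Vale.Agent.P073.H194

namespace Vale.Agent.P073.H83

/-- **(GEN)**, along a subsequence of any given sequence of generations, with the faces -/
theorem exists_gen {ι κ : Type*} [Countable ι] [Countable κ] (H : ι → V → ℝ≥0∞) (X : Set V)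
    (Y : κ → ℕ → V → ℝ≥0∞) (hH : ∀ i, Measurable (H i)) (hfin : ∀ i, ∫⁻ x, H i x ≠ ⊤)
    (hX : X.Countable) (hY : ∀ k n, AEMeasurable (Y k n) (volume.restrict (Icc 0 1)))
    (hY0 : ∀ k, Tendsto (fun n => ∫⁻ v in Icc (0 : V) 1, Y k n v) atTop (𝓝 0)) {M₀ : ℕ → ℕ}
    (hM₀ : StrictMono M₀) :
    ∃ φ : ℕ → ℕ, StrictMono φ ∧ ∀ᵐ v ∂(volume.restrict (Icc (0 : V) 1)),
      (∀ i, Gen v (fun l => M₀ (φ l)) (H i)) ∧ (∀ i, GenB v (fun l => M₀ (φ l)) (H i)) ∧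
      (∀ i, ∀ x ∈ X, GenPt v (fun l => M₀ (φ l)) (H i) x) ∧
      ∀ k, Tendsto (fun l => Y k (M₀ (φ l)) v) atTop (𝓝 0) := by
  set Y' : (ι × Idx × Fin 3) ⊕ κ → ℕ → V → ℝ≥0∞ := fun τ => match τ with
    | Sum.inl (i, q, k) => H989.cubeY (H i) q k
    | Sum.inr k => Y k with hY'
  have hB : volume (Icc (0 : V) 1) ≠ ∞ := isCompact_Icc.measure_lt_top.ne
  obtain ⟨φ, hφ, hmain⟩ := exists_genB H X Y' hH hfin hX (by
    rintro (⟨i, q, k⟩ | k) n
    · exact (H989.aemeasurable_cubeY (hH i) q k n).restrict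
    · exact hY k n) (by
    rintro (⟨i, q, k⟩ | k)
    · exact H989.tendsto_cubeY (hH i) (hfin i) q k hB
    · exact hY0 k) hM₀
  refine ⟨φ, hφ, ?_⟩
  filter_upwards [hmain] with v hv
  obtain ⟨h1, h2, h3⟩ := hv
  refine ⟨fun i => ⟨(h1 i).efin, (h1 i).sfin, fun q k δ hδ => ?_, (h1 i).square⟩, h1, h2,
    fun k => h3 (Sum.inr k)⟩
  exact H989.cube_of_tendsto (h3 (Sum.inl (i, q, k))) hδ

theorem specGen : SpecGen := by
  intro ι κ _ _ H X Y hH hfin hX hY hY0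
  obtain ⟨φ, hφ, hmain⟩ := exists_gen H X Y hH hfin hX hY hY0 strictMono_id
  refine ⟨φ, hφ, ?_⟩
  filter_upwards [hmain] with v hv
  exact ⟨hv.1, hv.2.2.1, hv.2.2.2⟩

end Vale.Agent.P073.H83
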