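import Vale.Agent.P073.H83.Sq

/-!
# P073, block GEN-B: the generic origin
-/

open Set Metric Topology Filter MeasureTheory
open scoped ENNReal
open Vale.Agent.P073.AB (Idx Part pt edge eInt squ FaceOf EdgeOf EdgeOfSq MinSq)
open P073.Net (dyc dyo)
open Vale.Agent.P073.St (V)
open Vale.Agent.P073.H194
open Vale.Agent.P073.H739 (posn measurable_posn avg3)

namespace Vale.Agent.P073.H83

/-! ### The cube containing a point -/

/-- surface integral of the cube of generation `n` containing `x` -/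
noncomputable def bI (H : V → ℝ≥0∞) (x : V) (n : ℕ) (v : V) : ℝ≥0∞ :=
  ENNReal.ofReal (1 / 2 ^ n) * bInt v (n, idx v n x) H

theorem measurable_sInt (s : Idx × Fin 3) {H : V → ℝ≥0∞} (hH : Measurable H) :
    Measurable fun v => sInt v s H := by
  simp_rw [sInt_hc]
  exact (measurable_lint H hH (φ := fun y => Function.update y s.2 ((s.1.2 s.2 : ℝ) / 2 ^ s.1.1))
    (by fun_prop) s.1).const_mul _

theorem measurable_bInt (q : Idx) {H : V → ℝ≥0∞} (hH : Measurable H) :
    Measurable fun v => bInt v q H := by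
  unfold bInt
  exact Finset.measurable_sum _ fun k _ => (measurable_sInt _ hH).add (measurable_sInt _ hH)

theorem measurable_idx (n : ℕ) (x : V) : Measurable fun v => idx v n x := by
  refine measurable_pi_lambda _ fun k => ?_
  unfold idx
  fun_prop

theorem measurable_bI {H : V → ℝ≥0∞} (hH : Measurable H) (x : V) (n : ℕ) :
    Measurable (bI H x n) := by
  have h1 : Measurable fun p : V × (Fin 3 → ℤ) => bInt p.1 (n, p.2) H :=
    measurable_from_prod_countable_left fun w => measurable_bInt (n, w) hH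
  exact (h1.comp (measurable_id.prodMk (measurable_idx n x))).const_mul _

theorem lintegral_bI_le {H : V → ℝ≥0∞} (hH : Measurable H) (x : V) (n : ℕ) :
    ∫⁻ v in Icc (0:V) 1, bI H x n v ≤ 18 * ∫⁻ y in closedBall x (1 / 2 ^ n), H y := by
  set B := closedBall x (1 / 2 ^ n : ℝ) with hB
  set H₁ : V → ℝ≥0∞ := B.indicator H with hH₁
  have hH₁m : Measurable H₁ := hH.indicator isClosed_closedBall.measurableSet
  set Φ : Fin 3 → Bool → ℝ → ℝ≥0∞ := fun k s t =>
    ∫⁻ y : V, H₁ (Function.update y k (posn n (if s then 1 else 0) t (y k))) with hΦ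
  have hj : ∀ (k : Fin 3) (s : Bool), Measurable fun p : ℝ × V =>
      H₁ (Function.update p.2 k (posn n (if s then 1 else 0) p.1 (p.2 k))) := by
    intro k s
    refine hH₁m.comp ?_
    refine measurable_pi_lambda _ fun l => ?_
    by_cases hl : l = k
    · subst hl
      simp only [Function.update_self]
      exact (measurable_posn n _).comp
        (measurable_fst.prodMk ((measurable_pi_apply l).comp measurable_snd))
    · simp only [Function.update_of_ne hl]
      exact (measurable_pi_apply l).comp measurable_snd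
  have hΦm : ∀ k s, Measurable (Φ k s) := fun k s => (hj k s).lintegral_prod_right'
  have h1 : ∀ v, bI H x n v ≤ ∑ k : Fin 3, ∑ s : Bool, Φ k s (v k) := by
    intro v
    rw [bI, bInt_eq]
    refine Finset.sum_le_sum fun k _ => Finset.sum_le_sum fun s _ => ?_
    calc ∫⁻ y in hc (n, idx v n x), H (v + Function.update y k (la s n (y k)))
        ≤ ∫⁻ y in hc (n, idx v n x), H₁ (v + Function.update y k (la s n (y k))) := by
          refine setLIntegral_mono' (measurableSet_hc _) fun y hy => ?_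
          rw [hH₁, indicator_of_mem (update_mem_closedBall hy k s)]
      _ ≤ ∫⁻ y : V, H₁ (v + Function.update y k (la s n (y k))) := setLIntegral_le_lintegral _ _
      _ = Φ k s (v k) := by
          have h2 := lintegral_add_left_eq_self (μ := (volume : Measure V))
            (fun y => H₁ (Function.update y k (posn n (if s then 1 else 0) (v k) (y k)))) v
          rw [hΦ]
          simp only
          rw [← h2]
          refine lintegral_congr fun y => ?_
          congr 1
          funext i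
          by_cases hi : i = k
          · subst hi
            simp [posn, la]
          · simp [Function.update_of_ne hi]
  calc ∫⁻ v in Icc (0:V) 1, bI H x n v
      ≤ ∫⁻ v in Icc (0:V) 1, ∑ k : Fin 3, ∑ s : Bool, Φ k s (v k) := lintegral_mono h1
    _ = ∑ k : Fin 3, ∑ s : Bool, ∫⁻ v in Icc (0:V) 1, Φ k s (v k) := by
        have hm : ∀ k s, Measurable fun v : V => Φ k s (v k) := fun k s =>
          (hΦm k s).comp (measurable_pi_apply k)
        rw [lintegral_finsetSum _ fun k _ => Finset.measurable_sum _ fun s _ => hm k s]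
        refine Finset.sum_congr rfl fun k _ => ?_
        rw [lintegral_finsetSum _ fun s _ => hm k s]
    _ ≤ ∑ _k : Fin 3, ∑ _s : Bool, 3 * ∫⁻ y, H₁ y := by
        refine Finset.sum_le_sum fun k _ => Finset.sum_le_sum fun s _ => ?_
        rw [lintegral_eval k (hΦm k s)]
        refine avg3 n k ?_ ?_ hH₁m
        · cases s <;> simp
        · cases s <;> simp
    _ = 18 * ∫⁻ y in B, H y := by
        rw [hH₁, lintegral_indicator isClosed_closedBall.measurableSet]
        simp only [Finset.sum_const, Finset.card_univ, Fintype.card_bool, Fintype.card_fin,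
          nsmul_eq_mul]
        rw [← mul_assoc, ← mul_assoc]
        congr 1
        norm_num

theorem tendsto_bI {H : V → ℝ≥0∞} (hH : Measurable H) (hfin : ∫⁻ x, H x ≠ ∞) (x : V) :
    Tendsto (fun n => ∫⁻ v in Icc (0:V) 1, bI H x n v) atTop (𝓝 0) := by
  have h1 : Tendsto (fun n : ℕ => volume (closedBall x (1 / 2 ^ n : ℝ))) atTop (𝓝 0) := by
    have h2 : ∀ n : ℕ, volume (closedBall x (1 / 2 ^ n : ℝ)) =
        ENNReal.ofReal ((2 * (1 / 2 ^ n)) ^ 3) := by
      intro n
      rw [Real.volume_pi_closedBall _ (by positivity)]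
      simp
    simp_rw [h2]
    have h3 : Tendsto (fun n : ℕ => ((2 * (1 / 2 ^ n)) ^ 3 : ℝ)) atTop (𝓝 0) := by
      have h4 : Tendsto (fun n : ℕ => (1 / 2 ^ n : ℝ)) atTop (𝓝 0) := by
        have := tendsto_pow_atTop_nhds_zero_of_lt_one (r := (1 / 2 : ℝ)) (by norm_num) (by norm_num)
        simpa [one_div_pow] using this
      simpa using ((h4.const_mul 2).pow 3)
    have := ENNReal.tendsto_ofReal h3
    rwa [ENNReal.ofReal_zero] at this
  have h5 := tendsto_setLIntegral_zero hfin h1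
  have h6 : Tendsto (fun n : ℕ => 18 * ∫⁻ y in closedBall x (1 / 2 ^ n : ℝ), H y) atTop (𝓝 0) := by
    have := ENNReal.Tendsto.const_mul h5 (a := 18) (Or.inr (by norm_num))
    rwa [mul_zero] at this
  exact tendsto_of_tendsto_of_tendsto_of_le_of_le tendsto_const_nhds h6 (fun _ => zero_le)
    fun n => lintegral_bI_le hH x n

/-! ### Generic origins -/

theorem ae_dyo (x : V) : ∀ᵐ v : V, ∀ n, x ∈ dyo v n (idx v n x) := by
  have h1 : ∀ (k : Fin 3) (n : ℕ) (z : ℤ), ∀ᵐ v : V, v k ≠ x k - z / 2 ^ n := by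
    intro k n z
    rw [ae_iff]
    simp only [ne_eq, not_not]
    rw [volume_pi]
    exact Measure.pi_hyperplane _ k _
  have h2 : ∀ᵐ v : V, ∀ (k : Fin 3) (n : ℕ) (z : ℤ), v k ≠ x k - z / 2 ^ n := by
    simp only [ae_all_iff]
    exact h1
  filter_upwards [h2] with v hv n k
  have hp : (0:ℝ) < 2 ^ n := by positivity
  have h3 := mem_hc.1 (idx_mem v n x) k
  obtain ⟨h4, h5⟩ := h3
  simp only [Pi.sub_apply] at h4 h5
  refine ⟨lt_of_le_of_ne (by linarith) ?_, by linarith⟩
  intro h6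
  exact hv k n (idx v n x k) (by linarith)

theorem ae_sInt (s : Idx × Fin 3) {H : V → ℝ≥0∞} (hH : Measurable H) (hfin : ∫⁻ x, H x ≠ ∞) :
    ∀ᵐ v : V, sInt v s H ≠ ⊤ := by
  have h1 : ∫⁻ v, sInt v s H ≠ ⊤ := by
    simp_rw [sInt_hc]
    rw [lintegral_const_mul' _ _ (by simp),
      lintegral_ps hH (φ := fun y => Function.update y s.2 ((s.1.2 s.2 : ℝ) / 2 ^ s.1.1))
      (by fun_prop) s.1]
    exact ENNReal.mul_ne_top (by simp) (ENNReal.mul_ne_top (volume_hc_ne_top _) hfin)
  filter_upwards [ae_lt_top (measurable_sInt s hH) h1] with v hv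
  exact hv.ne

theorem ae_eInt (e : Idx × Fin 3) {H : V → ℝ≥0∞} (hH : Measurable H) (hfin : ∫⁻ x, H x ≠ ∞) :
    ∀ᵐ v : V, eInt v e H ≠ ⊤ := by
  obtain ⟨⟨n, w⟩, k⟩ := e
  have hj : Measurable fun p : V × ℝ =>
      H (p.1 + Function.update (fun i => (w i : ℝ) / 2 ^ n) k p.2) := by
    refine hH.comp (measurable_fst.add ?_)
    exact (measurable_update (fun i => (w i : ℝ) / 2 ^ n)).comp measurable_snd
  have h0 : ∀ v, eInt v ((n, w), k) H = ∫⁻ t in Ico ((w k : ℝ) / 2 ^ n) ((w k + 1) / 2 ^ n),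
      H (v + Function.update (fun i => (w i : ℝ) / 2 ^ n) k t) := by
    intro v
    rw [eInt_hc v n w k hH]
    refine lintegral_congr fun t => ?_
    congr 1
    funext i
    by_cases hi : i = k
    · subst hi; simp
    · simp [Function.update_of_ne hi, pt]
  have hm : Measurable fun v => eInt v ((n, w), k) H := by
    simp_rw [h0]
    exact hj.lintegral_prod_right'
  have h1 : ∫⁻ v, eInt v ((n, w), k) H ≠ ⊤ := by
    simp_rw [h0]
    rw [lintegral_lintegral_swap hj.aemeasurable]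
    have h2 : ∀ t : ℝ, ∫⁻ v : V, H (v + Function.update (fun i => (w i : ℝ) / 2 ^ n) k t) =
        ∫⁻ x, H x := fun t => lintegral_add_right_eq_self H _
    simp only [h2]
    rw [lintegral_const, Measure.restrict_apply_univ]
    exact ENNReal.mul_ne_top hfin (by simp)
  filter_upwards [ae_lt_top hm h1] with v hv
  exact hv.ne

/-- the clauses of `Gen` and `GenPt` other than `cube`, and the faces of the subcubes of a cube -/
structure GenB (v : V) (nn : ℕ → ℕ) (H : V → ℝ≥0∞) : Prop where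
  efin : ∀ e : Idx × Fin 3, eInt v e H ≠ ⊤
  sfin : ∀ s : Idx × Fin 3, sInt v s H ≠ ⊤
  square : ∀ (s : Idx × Fin 3) (k : Fin 3), k ≠ s.2 → ∀ δ : ℝ≥0∞, δ ≠ 0 → ∀ᶠ l in atTop,
    fSum v s (nn l) k H ≤ sInt v s H + δ
  faces : ∀ (q : Idx) (δ : ℝ≥0∞), δ ≠ 0 → ∀ᶠ l in atTop,
    ∑ w ∈ subs q (nn l), ENNReal.ofReal (1 / 2 ^ nn l) * bInt v (nn l, w) H ≤
      6 * (∫⁻ x in dyc v q.1 q.2, H x) + δ

/-- **(GEN-B)** the generic origin, along a subsequence of any given sequence of generations. -/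
theorem exists_genB {ι κ : Type*} [Countable ι] [Countable κ] (H : ι → V → ℝ≥0∞) (X : Set V)
    (Y : κ → ℕ → V → ℝ≥0∞) (hH : ∀ i, Measurable (H i)) (hfin : ∀ i, ∫⁻ x, H i x ≠ ⊤)
    (hX : X.Countable) (hY : ∀ k n, AEMeasurable (Y k n) (volume.restrict (Icc 0 1)))
    (hY0 : ∀ k, Tendsto (fun n => ∫⁻ v in Icc (0 : V) 1, Y k n v) atTop (𝓝 0)) {M₀ : ℕ → ℕ}
    (hM₀ : StrictMono M₀) :
    ∃ φ : ℕ → ℕ, StrictMono φ ∧ ∀ᵐ v ∂(volume.restrict (Icc (0 : V) 1)),
      (∀ i, GenB v (fun l => M₀ (φ l)) (H i)) ∧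
      (∀ i, ∀ x ∈ X, GenPt v (fun l => M₀ (φ l)) (H i) x) ∧
      ∀ k, Tendsto (fun l => Y k (M₀ (φ l)) v) atTop (𝓝 0) := by
  have := hX.to_subtype
  set T := (ι × (Fin 3 → Kd) × Idx) ⊕ (ι × X) ⊕ κ with hT
  set Z : T → ℕ → V → ℝ≥0∞ := fun τ n v => match τ with
    | Sum.inl (i, κ', q) => Er (H i) κ' q n v
    | Sum.inr (Sum.inl (i, x)) => bI (H i) x n v
    | Sum.inr (Sum.inr k) => Y k n v with hZ
  obtain ⟨φ, hφ, hmain⟩ := exists_generations' (μ := volume.restrict (Icc (0:V) 1)) Z (by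
    rintro (⟨i, κ', q⟩ | ⟨i, x⟩ | k) n
    · exact (measurable_Er (hH i) κ' q n).aemeasurable
    · exact (measurable_bI (hH i) x n).aemeasurable
    · exact hY k n) (by
    rintro (⟨i, κ', q⟩ | ⟨i, x⟩ | k)
    · exact tendsto_of_tendsto_of_tendsto_of_le_of_le tendsto_const_nhds
        (tendsto_Er (hH i) (hfin i) κ' q) (fun _ => zero_le)
        fun n => setLIntegral_le_lintegral _ _
    · exact tendsto_bI (hH i) (hfin i) x
    · exact hY0 k) hM₀
  refine ⟨φ, hφ, ?_⟩
  have hnn : StrictMono fun l => M₀ (φ l) := hM₀.comp hφ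
  have e1 : ∀ᵐ v ∂(volume.restrict (Icc (0 : V) 1)), ∀ i e, eInt v e (H i) ≠ ⊤ := by
    simp only [ae_all_iff]
    exact fun i e => ae_restrict_of_ae (ae_eInt e (hH i) (hfin i))
  have e2 : ∀ᵐ v ∂(volume.restrict (Icc (0 : V) 1)), ∀ i s, sInt v s (H i) ≠ ⊤ := by
    simp only [ae_all_iff]
    exact fun i s => ae_restrict_of_ae (ae_sInt s (hH i) (hfin i))
  have e3 : ∀ᵐ v ∂(volume.restrict (Icc (0 : V) 1)), ∀ x : X, ∀ n,
      (x : V) ∈ dyo v n (idx v n x) := by
    rw [ae_all_iff]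
    exact fun x => ae_restrict_of_ae (ae_dyo x)
  filter_upwards [hmain, e1, e2, e3] with v hv h1 h2 h3
  have hEr : ∀ (i : ι) (κ' : Fin 3 → Kd) (q : Idx),
      Tendsto (fun l => Er (H i) κ' q (M₀ (φ l)) v) atTop (𝓝 0) := fun i κ' q =>
    hv (Sum.inl (i, κ', q))
  refine ⟨fun i => ⟨h1 i, h2 i, ?_, ?_⟩, fun i x hx => ⟨h3 ⟨x, hx⟩, ?_⟩, fun k => ?_⟩
  · intro s k hk δ hδ
    have t1 : Tendsto (fun l => 2 ^ s.1.1 * Er (H i) (ke s k) s.1 (M₀ (φ l)) v +
        ENNReal.ofReal (1 / 2 ^ M₀ (φ l)) * eInt v ((s.1.1,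
          Function.update s.1.2 (th s.2 k) (s.1.2 (th s.2 k) + 1)), k) (H i)) atTop (𝓝 0) := by
      have t2 := ENNReal.Tendsto.const_mul (hEr i (ke s k) s.1) (a := 2 ^ s.1.1)
        (Or.inr (by simp))
      have t3 : Tendsto (fun l => ENNReal.ofReal (1 / 2 ^ M₀ (φ l))) atTop (𝓝 0) := by
        have t4 : Tendsto (fun n : ℕ => (1 / 2 ^ n : ℝ)) atTop (𝓝 0) := by
          have := tendsto_pow_atTop_nhds_zero_of_lt_one (r := (1 / 2 : ℝ)) (by norm_num)
            (by norm_num)
          simpa [one_div_pow] using this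
        have t5 := ENNReal.tendsto_ofReal (t4.comp hnn.tendsto_atTop)
        rwa [ENNReal.ofReal_zero] at t5
      have t6 := ENNReal.Tendsto.mul_const t3 (b := eInt v ((s.1.1,
          Function.update s.1.2 (th s.2 k) (s.1.2 (th s.2 k) + 1)), k) (H i)) (Or.inr (h1 i _))
      rw [mul_zero] at t2
      rw [zero_mul] at t6
      simpa using t2.add t6
    filter_upwards [t1.eventually (ge_mem_nhds (pos_iff_ne_zero.2 hδ)),
      hnn.tendsto_atTop.eventually_ge_atTop s.1.1] with l hl hl'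
    refine (fSum_le v s k hk hl' (hH i)).trans ?_
    rw [add_assoc]
    gcongr
  · intro q δ hδ
    have t1 : Tendsto (fun l => ∑ k : Fin 3, ∑ s : Bool, Er (H i) (kf k s) q (M₀ (φ l)) v)
        atTop (𝓝 0) := by
      have : (0 : ℝ≥0∞) = ∑ _k : Fin 3, ∑ _s : Bool, 0 := by simp
      rw [this]
      exact tendsto_finsetSum _ fun k _ => tendsto_finsetSum _ fun s _ => hEr i _ _
    filter_upwards [t1.eventually (ge_mem_nhds (pos_iff_ne_zero.2 hδ)),
      hnn.tendsto_atTop.eventually_ge_atTop q.1] with l hl hl'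
    exact (sum_bInt_le hl' (H i)).trans (by gcongr)
  · exact hv (Sum.inr (Sum.inl (i, ⟨x, hx⟩)))
  · exact hv (Sum.inr (Sum.inr k))

end Vale.Agent.P073.H83
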