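import Vale.Agent.P073.H83.Big

/-!
# P073, block A03-MESH: continuous weights
-/

open Set Metric Topology Filter MeasureTheory
open scoped ENNReal
open Vale.Agent.P073.AB (Idx Part pt edge eInt squ FaceOf EdgeOf EdgeOfSq MinSq)
open P073.Net (dyc dyo)
open Vale.Agent.P073.St (V)
open Vale.Agent.P073.H194
open Vale.Agent.P073.SQ (ev)

namespace Vale.Agent.P073.H83

theorem sum_cover {α ζ : Type*} [DecidableEq α] (A : Finset α) (Z : Finset ζ) (E : ζ → Finset α)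
    (h : ∀ a ∈ A, ∃ z ∈ Z, a ∈ E z) (f : α → ℝ≥0∞) :
    ∑ a ∈ A, f a ≤ ∑ z ∈ Z, ∑ a ∈ E z, f a := by
  calc ∑ a ∈ A, f a ≤ ∑ a ∈ A, ∑ z ∈ Z, if a ∈ E z then f a else 0 := by
        refine Finset.sum_le_sum fun a ha => ?_
        obtain ⟨z, hz, haz⟩ := h a ha
        refine le_trans (le_of_eq ?_) (Finset.single_le_sum (fun _ _ => zero_le) hz)
        rw [if_pos haz]
    _ = ∑ z ∈ Z, ∑ a ∈ A, if a ∈ E z then f a else 0 := Finset.sum_comm
    _ ≤ ∑ z ∈ Z, ∑ a ∈ E z, f a := by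
        refine Finset.sum_le_sum fun z _ => ?_
        rw [← Finset.sum_filter]
        refine Finset.sum_le_sum_of_subset fun a ha => ?_
        exact (Finset.mem_filter.1 ha).2

theorem wabs {ζ : Type*} (Z : Finset ζ) (w : ζ → ℝ) {η : ℝ} (S : ℕ → ℝ≥0∞) (Sz : ζ → ℕ → ℝ≥0∞)
    (I : ℝ≥0∞) (Iz IWz : ζ → ℝ≥0∞)
    (h1 : ∀ᶠ l in atTop, S l ≤ ∑ z ∈ Z, ENNReal.ofReal (w z + η) * Sz z l)
    (h2 : ∀ z ∈ Z, ∀ δ : ℝ≥0∞, δ ≠ 0 → ∀ᶠ l in atTop, Sz z l ≤ Iz z + δ)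
    (h3 : ∀ z ∈ Z, ENNReal.ofReal (w z - η) * Iz z ≤ IWz z)
    (h4 : ∑ z ∈ Z, IWz z ≤ I) {δ : ℝ≥0∞} (hδ : δ ≠ 0) :
    ∀ᶠ l in atTop, S l ≤ I + ENNReal.ofReal (2 * η) * ∑ z ∈ Z, Iz z + δ := by
  set A : ℝ≥0∞ := ∑ z ∈ Z, ENNReal.ofReal (w z + η) with hA
  have hAt : A ≠ ⊤ := ENNReal.sum_ne_top.2 fun z _ => ENNReal.ofReal_ne_top
  obtain ⟨δ', hδ', hδ'A⟩ : ∃ δ' : ℝ≥0∞, δ' ≠ 0 ∧ A * δ' ≤ δ := by
    by_cases hA0 : A = 0
    · exact ⟨1, one_ne_zero, by rw [hA0, zero_mul]; exact zero_le⟩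
    · exact ⟨δ / A, (ENNReal.div_pos hδ hAt).ne', by rw [ENNReal.mul_div_cancel hA0 hAt]⟩
  have h5 : ∀ᶠ l in atTop, ∀ z ∈ Z, Sz z l ≤ Iz z + δ' :=
    (Finset.eventually_all Z).2 fun z hz => h2 z hz δ' hδ'
  filter_upwards [h1, h5] with l hl hl'
  refine hl.trans ?_
  calc ∑ z ∈ Z, ENNReal.ofReal (w z + η) * Sz z l
      ≤ ∑ z ∈ Z, (IWz z + ENNReal.ofReal (2 * η) * Iz z + ENNReal.ofReal (w z + η) * δ') := by
        refine Finset.sum_le_sum fun z hz => ?_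
        have h6 : ENNReal.ofReal (w z + η) ≤ ENNReal.ofReal (w z - η) + ENNReal.ofReal (2 * η) := by
          have : w z + η = (w z - η) + 2 * η := by ring
          rw [this]
          exact ENNReal.ofReal_add_le
        calc ENNReal.ofReal (w z + η) * Sz z l ≤ ENNReal.ofReal (w z + η) * (Iz z + δ') := by
              gcongr
              exact hl' z hz
          _ = ENNReal.ofReal (w z + η) * Iz z + ENNReal.ofReal (w z + η) * δ' := mul_add _ _ _
          _ ≤ (ENNReal.ofReal (w z - η) + ENNReal.ofReal (2 * η)) * Iz z +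
              ENNReal.ofReal (w z + η) * δ' := by gcongr
          _ = ENNReal.ofReal (w z - η) * Iz z + ENNReal.ofReal (2 * η) * Iz z +
              ENNReal.ofReal (w z + η) * δ' := by rw [add_mul]
          _ ≤ _ := by gcongr; exact h3 z hz
    _ = ∑ z ∈ Z, IWz z + ENNReal.ofReal (2 * η) * ∑ z ∈ Z, Iz z + A * δ' := by
        rw [Finset.sum_add_distrib, Finset.sum_add_distrib, Finset.mul_sum, Finset.sum_mul]
    _ ≤ _ := by gcongr

/-! ### Geometry of subcubes and subsquares -/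

/-- one coordinate -/
theorem exists_sub1 {m n a : ℕ} (ha : a ≤ m) (hm : m ≤ n) {z w : ℤ} (h1 : 2 ^ (n - a) * z ≤ w)
    (h2 : w < 2 ^ (n - a) * (z + 1)) :
    ∃ z' : ℤ, (2 ^ (m - a) * z ≤ z' ∧ z' < 2 ^ (m - a) * (z + 1)) ∧
      2 ^ (n - m) * z' ≤ w ∧ w < 2 ^ (n - m) * (z' + 1) := by
  have hs : (2:ℤ) ^ (n - a) = 2 ^ (n - m) * 2 ^ (m - a) := by
    rw [← pow_add]; congr 1; omega
  have hp : (0:ℤ) < 2 ^ (n - m) := by positivity
  rw [hs, mul_assoc] at h1 h2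
  refine ⟨w / 2 ^ (n - m), ⟨?_, ?_⟩, ?_, ?_⟩
  · rw [Int.le_ediv_iff_mul_le hp]; linarith
  · rw [Int.ediv_lt_iff_lt_mul hp]; linarith
  · exact Int.mul_ediv_self_le hp.ne'
  · have := Int.lt_mul_ediv_self_add (x := w) hp
    linarith

theorem exists_sub1' {m n a : ℕ} (ha : a ≤ m) (hm : m ≤ n) {z w : ℤ} (h1 : 2 ^ (n - a) * z ≤ w)
    (h2 : w ≤ 2 ^ (n - a) * (z + 1)) :
    ∃ z' : ℤ, (2 ^ (m - a) * z ≤ z' ∧ z' < 2 ^ (m - a) * (z + 1)) ∧
      2 ^ (n - m) * z' ≤ w ∧ w ≤ 2 ^ (n - m) * (z' + 1) := by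
  rcases h2.lt_or_eq with h | h
  · obtain ⟨z', h3, h4, h5⟩ := exists_sub1 ha hm h1 h
    exact ⟨z', h3, h4, h5.le⟩
  · have hs : (2:ℤ) ^ (n - a) = 2 ^ (n - m) * 2 ^ (m - a) := by
      rw [← pow_add]; congr 1; omega
    have hp : (0:ℤ) < 2 ^ (n - m) := by positivity
    have hp' : (1:ℤ) ≤ 2 ^ (m - a) := one_le_pow₀ (by norm_num)
    refine ⟨2 ^ (m - a) * (z + 1) - 1, ⟨?_, by linarith⟩, ?_, ?_⟩
    · nlinarith
    · rw [h, hs, mul_assoc]
      nlinarith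
    · rw [h, hs, mul_assoc]
      simp

theorem eIn_cover (q : Idx) {m n : ℕ} (hq : q.1 ≤ m) (hm : m ≤ n) (k : Fin 3) {w : Fin 3 → ℤ}
    (hw : w ∈ eIn q n k) : ∃ z ∈ subs q m, w ∈ eIn (m, z) n k := by
  rw [eIn, Fintype.mem_piFinset] at hw
  have h : ∀ j, ∃ z' : ℤ, (2 ^ (m - q.1) * q.2 j ≤ z' ∧ z' < 2 ^ (m - q.1) * (q.2 j + 1)) ∧
      (if j = k then 2 ^ (n - m) * z' ≤ w j ∧ w j < 2 ^ (n - m) * (z' + 1) else
        2 ^ (n - m) * z' ≤ w j ∧ w j ≤ 2 ^ (n - m) * (z' + 1)) := by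
    intro j
    have h1 := hw j
    by_cases hj : j = k
    · rw [if_pos hj, Finset.mem_Ico] at h1
      simp only [if_pos hj]
      exact exists_sub1 hq hm h1.1 h1.2
    · rw [if_neg hj, Finset.mem_Icc] at h1
      simp only [if_neg hj]
      exact exists_sub1' hq hm h1.1 h1.2
  choose z hz hz' using h
  refine ⟨z, mem_subs.2 hz, ?_⟩
  rw [eIn, Fintype.mem_piFinset]
  intro j
  have h1 := hz' j
  by_cases hj : j = k
  · rw [if_pos hj] at h1 ⊢
    rw [Finset.mem_Ico]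
    exact h1
  · rw [if_neg hj] at h1 ⊢
    rw [Finset.mem_Icc]
    exact h1

theorem eInSq_cover (s : Idx × Fin 3) {m n : ℕ} (hq : s.1.1 ≤ m) (hm : m ≤ n) (k : Fin 3)
    {w : Fin 3 → ℤ} (hw : w ∈ eInSq s n k) :
    ∃ z ∈ eLow s m, w ∈ eInSq ((m, z), s.2) n k := by
  rw [eInSq, Fintype.mem_piFinset] at hw
  have hs : (2:ℤ) ^ (n - s.1.1) = 2 ^ (n - m) * 2 ^ (m - s.1.1) := by
    rw [← pow_add]; congr 1; omega
  have h : ∀ j, ∃ z' : ℤ, (j = s.2 → z' = 2 ^ (m - s.1.1) * s.1.2 j ∧ w j = 2 ^ (n - m) * z') ∧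
      (j ≠ s.2 → (2 ^ (m - s.1.1) * s.1.2 j ≤ z' ∧ z' < 2 ^ (m - s.1.1) * (s.1.2 j + 1)) ∧
      (if j = k then 2 ^ (n - m) * z' ≤ w j ∧ w j < 2 ^ (n - m) * (z' + 1) else
        2 ^ (n - m) * z' ≤ w j ∧ w j ≤ 2 ^ (n - m) * (z' + 1))) := by
    intro j
    have h1 := hw j
    by_cases hj' : j = s.2
    · rw [if_pos hj', Finset.mem_singleton] at h1
      refine ⟨2 ^ (m - s.1.1) * s.1.2 j, fun _ => ⟨rfl, ?_⟩, fun h => absurd hj' h⟩
      rw [h1, hs, mul_assoc]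
    · rw [if_neg hj'] at h1
      by_cases hj : j = k
      · rw [if_pos hj, Finset.mem_Ico] at h1
        simp only [if_pos hj]
        obtain ⟨z', hz'⟩ := exists_sub1 hq hm h1.1 h1.2
        exact ⟨z', fun h => absurd h hj', fun _ => hz'⟩
      · rw [if_neg hj, Finset.mem_Icc] at h1
        simp only [if_neg hj]
        obtain ⟨z', hz'⟩ := exists_sub1' hq hm h1.1 h1.2
        exact ⟨z', fun h => absurd h hj', fun _ => hz'⟩
  choose z hz hz' using h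
  refine ⟨z, mem_eLow.2 ⟨(hz s.2 rfl).1, fun j hj => (hz' j hj).1⟩, ?_⟩
  rw [eInSq, Fintype.mem_piFinset]
  intro j
  by_cases hj' : j = s.2
  · rw [if_pos hj', Finset.mem_singleton]
    exact (hz j hj').2
  · rw [if_neg hj']
    have h1 := (hz' j hj').2
    by_cases hj : j = k
    · rw [if_pos hj] at h1 ⊢
      rw [Finset.mem_Ico]
      exact h1
    · rw [if_neg hj] at h1 ⊢
      rw [Finset.mem_Icc]
      exact h1

/-- the point of an edge -/
theorem edge_coord (v : V) (n : ℕ) (w : Fin 3 → ℤ) (k j : Fin 3) (t : ℝ) :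
    (pt v n w + t • ((1 / 2 ^ n : ℝ) • ev k)) j =
      v j + (w j + if j = k then t else 0) / 2 ^ n := by
  by_cases h : j = k
  · subst h
    simp [ev, pt]; ring
  · simp [ev, pt, h]

theorem int_bounds {a n : ℕ} (ha : a ≤ n) {z w : ℤ} {u : ℝ}
    (h1 : ((2:ℝ) ^ (n - a)) * z ≤ w + u) (h2 : (w:ℝ) + u ≤ 2 ^ (n - a) * (z + 1)) :
    (z : ℝ) / 2 ^ a ≤ (w + u) / 2 ^ n ∧ (w + u) / 2 ^ n ≤ (z + 1) / 2 ^ a := by
  have hs := two_pow_split ha
  have e1 : (z : ℝ) / 2 ^ a = (2 ^ (n - a) * z) / 2 ^ n := by rw [hs]; field_simp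
  have e2 : ((z : ℝ) + 1) / 2 ^ a = (2 ^ (n - a) * (z + 1)) / 2 ^ n := by rw [hs]; field_simp
  rw [e1, e2]
  constructor <;> gcongr

theorem edge_mem_dyc {v : V} {q : Idx} {n : ℕ} (hn : q.1 ≤ n) {k : Fin 3} {w : Fin 3 → ℤ}
    (hw : w ∈ eIn q n k) {t : ℝ} (ht : t ∈ Icc (0:ℝ) 1) :
    pt v n w + t • ((1 / 2 ^ n : ℝ) • ev k) ∈ dyc v q.1 q.2 := by
  rw [eIn, Fintype.mem_piFinset] at hw
  intro j
  rw [edge_coord]
  have h1 := hw j
  by_cases hj : j = k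
  · rw [if_pos hj, Finset.mem_Ico] at h1
    rw [if_pos hj]
    have h3 : (2:ℝ) ^ (n - q.1) * q.2 j ≤ w j := by exact_mod_cast h1.1
    have h4 : (w j : ℝ) + 1 ≤ 2 ^ (n - q.1) * (q.2 j + 1) := by exact_mod_cast h1.2
    have h5 := int_bounds hn (z := q.2 j) (w := w j) (u := t) (by linarith [ht.1]) (by linarith [ht.2])
    constructor <;> linarith [h5.1, h5.2]
  · rw [if_neg hj, Finset.mem_Icc] at h1
    rw [if_neg hj]
    have h3 : (2:ℝ) ^ (n - q.1) * q.2 j ≤ w j := by exact_mod_cast h1.1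
    have h4 : (w j : ℝ) ≤ 2 ^ (n - q.1) * (q.2 j + 1) := by exact_mod_cast h1.2
    have h5 := int_bounds hn (z := q.2 j) (w := w j) (u := 0) (by linarith) (by linarith)
    constructor <;> linarith [h5.1, h5.2]

theorem edge_mem_squ {v : V} {s : Idx × Fin 3} {n : ℕ} (hn : s.1.1 ≤ n) {k : Fin 3}
    (hk : k ≠ s.2) {w : Fin 3 → ℤ}
    (hw : w ∈ eInSq s n k) {t : ℝ} (ht : t ∈ Icc (0:ℝ) 1) :
    pt v n w + t • ((1 / 2 ^ n : ℝ) • ev k) ∈ squ v s := by
  rw [eInSq, Fintype.mem_piFinset] at hw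
  have hs := two_pow_split hn
  refine ⟨?_, fun j hj' => ?_⟩
  · rw [edge_coord, if_neg hk.symm]
    have h1 := hw s.2
    rw [if_pos rfl, Finset.mem_singleton] at h1
    rw [h1]
    push_cast
    rw [hs]
    field_simp
    ring
  · rw [edge_coord]
    have h1 := hw j
    rw [if_neg hj'] at h1
    by_cases hj : j = k
    · rw [if_pos hj, Finset.mem_Ico] at h1
      rw [if_pos hj]
      have h3 : (2:ℝ) ^ (n - s.1.1) * s.1.2 j ≤ w j := by exact_mod_cast h1.1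
      have h4 : (w j : ℝ) + 1 ≤ 2 ^ (n - s.1.1) * (s.1.2 j + 1) := by exact_mod_cast h1.2
      have h5 := int_bounds hn (z := s.1.2 j) (w := w j) (u := t) (by linarith [ht.1]) (by linarith [ht.2])
      constructor <;> linarith [h5.1, h5.2]
    · rw [if_neg hj, Finset.mem_Icc] at h1
      rw [if_neg hj]
      have h3 : (2:ℝ) ^ (n - s.1.1) * s.1.2 j ≤ w j := by exact_mod_cast h1.1
      have h4 : (w j : ℝ) ≤ 2 ^ (n - s.1.1) * (s.1.2 j + 1) := by exact_mod_cast h1.2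
      have h5 := int_bounds hn (z := s.1.2 j) (w := w j) (u := 0) (by linarith) (by linarith)
      constructor <;> linarith [h5.1, h5.2]

/-! ### Bounds with constants -/

theorem eInt_le_mul {v : V} {n : ℕ} {w : Fin 3 → ℤ} {k : Fin 3} {W H : V → ℝ≥0∞} {C : ℝ≥0∞}
    (hC : C ≠ ⊤)
    (h : ∀ t ∈ Icc (0:ℝ) 1, W (pt v n w + t • ((1 / 2 ^ n : ℝ) • ev k)) ≤ C) :
    eInt v ((n, w), k) (fun x => W x * H x) ≤ C * eInt v ((n, w), k) H := by
  show ENNReal.ofReal (1 / 2 ^ n) * (∫⁻ t in Icc (0:ℝ) 1,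
    W (pt v n w + t • ((1 / 2 ^ n : ℝ) • ev k)) * H (pt v n w + t • ((1 / 2 ^ n : ℝ) • ev k))) ≤
    C * (ENNReal.ofReal (1 / 2 ^ n) * ∫⁻ t in Icc (0:ℝ) 1,
      H (pt v n w + t • ((1 / 2 ^ n : ℝ) • ev k)))
  rw [mul_left_comm]
  gcongr
  rw [← lintegral_const_mul' _ _ hC]
  refine setLIntegral_mono' measurableSet_Icc fun t ht => ?_
  exact mul_le_mul' (h t ht) le_rfl

theorem squ_of_upd {v : V} {s : Idx × Fin 3} {x : V} (hx : x ∈ dyc v s.1.1 s.1.2) :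
    Function.update x s.2 (pt v s.1.1 s.1.2 s.2) ∈ squ v s := by
  refine ⟨by simp [pt], fun k hk => ?_⟩
  rw [Function.update_of_ne hk]
  exact hx k

theorem sInt_le_mul {v : V} {s : Idx × Fin 3} {W H : V → ℝ≥0∞} {C : ℝ≥0∞} (hC : C ≠ ⊤)
    (h : ∀ x ∈ squ v s, W x ≤ C) :
    sInt v s (fun x => W x * H x) ≤ C * sInt v s H := by
  unfold sInt
  rw [mul_left_comm]
  gcongr
  rw [← lintegral_const_mul' _ _ hC]
  refine setLIntegral_mono' (isCompact_dyc' v _ _).measurableSet fun x hx => ?_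
  exact mul_le_mul' (h _ (squ_of_upd hx)) le_rfl

theorem mul_le_sInt {v : V} {s : Idx × Fin 3} {W H : V → ℝ≥0∞} {C : ℝ≥0∞} (hC : C ≠ ⊤)
    (h : ∀ x ∈ squ v s, C ≤ W x) :
    C * sInt v s H ≤ sInt v s (fun x => W x * H x) := by
  unfold sInt
  rw [mul_left_comm]
  gcongr
  rw [← lintegral_const_mul' _ _ hC]
  refine setLIntegral_mono' (isCompact_dyc' v _ _).measurableSet fun x hx => ?_
  exact mul_le_mul' (h _ (squ_of_upd hx)) le_rfl

/-- values of a continuous weight on small sets -/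
theorem exists_osc {K : Set V} (hK : IsCompact K) {W : V → ℝ≥0∞} (hW : ContinuousOn W K)
    (hWt : ∀ x ∈ K, W x ≠ ⊤) {η : ℝ} (hη : 0 < η) :
    ∃ δ > 0, ∀ x ∈ K, ∀ y ∈ K, dist x y < δ →
      ENNReal.ofReal ((W x).toReal - η) ≤ W y ∧ W y ≤ ENNReal.ofReal ((W x).toReal + η) := by
  have h1 : ContinuousOn (fun x => (W x).toReal) K := by
    intro x hx
    exact (ENNReal.tendsto_toReal (hWt x hx)).comp (hW x hx)
  have h2 := hK.uniformContinuousOn_of_continuous h1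
  rw [Metric.uniformContinuousOn_iff] at h2
  obtain ⟨δ, hδ, h3⟩ := h2 η hη
  refine ⟨δ, hδ, fun x hx y hy hxy => ?_⟩
  have h4 := h3 x hx y hy hxy
  rw [Real.dist_eq, abs_lt] at h4
  constructor
  · refine ENNReal.ofReal_le_of_le_toReal ?_
    linarith
  · rw [← ENNReal.ofReal_toReal (hWt y hy)]
    exact ENNReal.ofReal_le_ofReal (by linarith)

/-! ### The weighted clauses -/

theorem pt_mem_dyc (v : V) (m : ℕ) (z : Fin 3 → ℤ) : pt v m z ∈ dyc v m z := by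
  intro k
  refine ⟨le_rfl, ?_⟩
  show v k + (z k : ℝ) / 2 ^ m ≤ _
  gcongr
  linarith

theorem pt_mem_squ (v : V) (s : Idx × Fin 3) : pt v s.1.1 s.1.2 ∈ squ v s :=
  ⟨rfl, fun k _ => pt_mem_dyc v _ _ k⟩

theorem exists_le_of_pos {I : ℝ≥0∞} (hI : I ≠ ⊤) {δ : ℝ≥0∞} (hδ : δ ≠ 0) :
    ∃ η : ℝ, 0 < η ∧ ENNReal.ofReal (2 * η) * I ≤ δ := by
  by_cases hI0 : I = 0
  · exact ⟨1, one_pos, by rw [hI0, mul_zero]; exact zero_le⟩
  · by_cases hδt : δ = ⊤
    · exact ⟨1, one_pos, by rw [hδt]; exact le_top⟩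
    · have h1 : 0 < (δ / I).toReal := by
        refine ENNReal.toReal_pos (ENNReal.div_pos hδ hI).ne' ?_
        exact ENNReal.div_ne_top hδt hI0
      refine ⟨(δ / I).toReal / 2, by positivity, ?_⟩
      rw [mul_div_cancel₀ _ (two_ne_zero), ENNReal.ofReal_toReal (ENNReal.div_ne_top hδt hI0)]
      exact (ENNReal.div_mul_cancel hI0 hI).le

theorem lintegral_dyc_split (v : V) (q : Idx) {m : ℕ} (hm : q.1 ≤ m) (G : V → ℝ≥0∞) :
    ∫⁻ x in dyc v q.1 q.2, G x = ∑ z ∈ subs q m, ∫⁻ x in dyc v m z, G x := by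
  rw [setLIntegral_dyc, setLIntegral_hc q hm]
  refine Finset.sum_congr rfl fun z _ => ?_
  exact (setLIntegral_dyc v (m, z) G).symm

theorem weight_cube {v : V} {nn : ℕ → ℕ} {H W : V → ℝ≥0∞} (hnn : StrictMono nn)
    (hG : Gen v nn H) {q : Idx} (hfin : ∫⁻ x in dyc v q.1 q.2, H x ≠ ⊤)
    (hW : ContinuousOn W (dyc v q.1 q.2)) (hWt : ∀ x ∈ dyc v q.1 q.2, W x ≠ ⊤) (k : Fin 3)
    {δ : ℝ≥0∞} (hδ : δ ≠ 0) :
    ∀ᶠ l in atTop, cSum v q (nn l) k (fun x => W x * H x) ≤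
      (∫⁻ x in dyc v q.1 q.2, W x * H x) + δ := by
  have hδ2 : δ / 2 ≠ 0 := (ENNReal.half_pos hδ).ne'
  obtain ⟨η, hη, hηI⟩ := exists_le_of_pos hfin hδ2
  obtain ⟨d, hd, hosc⟩ := exists_osc (isCompact_dyc' v q.1 q.2) hW hWt hη
  obtain ⟨N, hN⟩ := exists_pow_lt_of_lt_one hd (show (1 / 2 : ℝ) < 1 by norm_num)
  set m := max N q.1 with hm
  have hqm : q.1 ≤ m := le_max_right _ _
  have hmd : (1 / 2 ^ m : ℝ) < d := by
    refine lt_of_le_of_lt ?_ hN
    rw [one_div_pow]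
    exact one_div_le_one_div_of_le (by positivity)
      (pow_le_pow_right₀ (by norm_num) (le_max_left _ _))
  have hsub : ∀ z ∈ subs q m, dyc v m z ⊆ dyc v q.1 q.2 := fun z hz => dyc_sub_of_subs hqm hz
  have hWz : ∀ z ∈ subs q m, ∀ x ∈ dyc v m z,
      ENNReal.ofReal ((W (pt v m z)).toReal - η) ≤ W x ∧
        W x ≤ ENNReal.ofReal ((W (pt v m z)).toReal + η) := by
    intro z hz x hx
    exact hosc _ (hsub z hz (pt_mem_dyc v m z)) _ (hsub z hz hx)
      ((dist_le_of_mem_dyc (pt_mem_dyc v m z) hx).trans_lt hmd)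
  have h1 : ∀ᶠ l in atTop, cSum v q (nn l) k (fun x => W x * H x) ≤
      ∑ z ∈ subs q m, ENNReal.ofReal ((W (pt v m z)).toReal + η) * cSum v (m, z) (nn l) k H := by
    filter_upwards [hnn.tendsto_atTop.eventually_ge_atTop m] with l hl
    classical
    refine (sum_cover (eIn q (nn l) k) (subs q m) (fun z => eIn (m, z) (nn l) k)
      (fun w hw => eIn_cover q hqm hl k hw) _).trans ?_
    refine Finset.sum_le_sum fun z hz => ?_
    unfold cSum
    rw [Finset.mul_sum]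
    refine Finset.sum_le_sum fun w hw => ?_
    rw [mul_left_comm]
    gcongr
    exact eInt_le_mul ENNReal.ofReal_ne_top fun t ht => (hWz z hz _ (edge_mem_dyc hl hw ht)).2
  have h2 := wabs (subs q m) (fun z => (W (pt v m z)).toReal) (η := η)
    (fun l => cSum v q (nn l) k (fun x => W x * H x))
    (fun z l => cSum v (m, z) (nn l) k H) (∫⁻ x in dyc v q.1 q.2, W x * H x)
    (fun z => ∫⁻ x in dyc v m z, H x) (fun z => ∫⁻ x in dyc v m z, W x * H x) h1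
    (fun z _ δ' hδ' => hG.cube (m, z) k δ' hδ') (fun z hz => by
      rw [← lintegral_const_mul' _ _ ENNReal.ofReal_ne_top]
      refine setLIntegral_mono' (isCompact_dyc' v _ _).measurableSet fun x hx => ?_
      exact mul_le_mul' (hWz z hz x hx).1 le_rfl)
    (lintegral_dyc_split v q hqm _).ge hδ2
  filter_upwards [h2] with l hl
  refine hl.trans ?_
  rw [← lintegral_dyc_split v q hqm H, add_assoc]
  gcongr
  calc _ ≤ δ / 2 + δ / 2 := by gcongr
    _ = δ := ENNReal.add_halves δ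

theorem hc_shift' (n : ℕ) (w : Fin 3 → ℤ) (k : Fin 3) (b : ℤ) (G : V → ℝ≥0∞)
    (hG : ∀ y t, G (Function.update y k t) = G y) :
    ∫⁻ y in hc (n, w), G y = ∫⁻ y in hc (n, Function.update w k b), G y := by
  set a : V := Function.update 0 k (((b : ℝ) - w k) / 2 ^ n) with ha
  have h1 : (fun y : V => a + y) ⁻¹' hc (n, Function.update w k b) = hc (n, w) := by
    ext y
    rw [mem_preimage, mem_hc, mem_hc]
    refine forall_congr' fun i => ?_
    by_cases hi : i = k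
    · subst hi
      simp only [Function.update_self, Pi.add_apply, ha, sub_div, add_div]
      constructor
      · rintro ⟨h, h'⟩; constructor <;> linarith
      · rintro ⟨h, h'⟩; constructor <;> linarith
    · simp [ha, Function.update_of_ne hi]
  have h2 := (measurePreserving_add_left (volume : Measure V) a).setLIntegral_comp_preimage_emb
    (measurableEmbedding_addLeft a) G (hc (n, Function.update w k b))
  rw [← h2, h1]
  refine lintegral_congr fun y => ?_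
  have h3 : a + y = Function.update y k (((b : ℝ) - w k) / 2 ^ n + y k) := by
    funext i
    by_cases hi : i = k
    · subst hi; simp [ha]
    · simp [ha, Function.update_of_ne hi]
  rw [h3, hG]

theorem sInt_split (v : V) (s : Idx × Fin 3) {m : ℕ} (hm : s.1.1 ≤ m) (G : V → ℝ≥0∞) :
    sInt v s G = ∑ z ∈ eLow s m, sInt v ((m, z), s.2) G := by
  have hs := two_pow_split hm
  set Φ : V → ℝ≥0∞ := fun y =>
    G (v + Function.update y s.2 ((s.1.2 s.2 : ℝ) / 2 ^ s.1.1)) with hΦ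
  have hΦ' : ∀ y t, Φ (Function.update y s.2 t) = Φ y := by
    intro y t
    rw [hΦ]
    simp only [Function.update_idem]
  have h1 : ∀ z ∈ eLow s m, sInt v ((m, z), s.2) G = 2 ^ m * ∫⁻ y in hc (m, z), Φ y := by
    intro z hz
    rw [sInt_hc]
    congr 1
    refine lintegral_congr fun y => ?_
    rw [hΦ]
    simp only
    congr 3
    rw [(mem_eLow.1 hz).1]
    push_cast
    rw [hs]
    field_simp
  rw [Finset.sum_congr rfl h1, ← Finset.mul_sum, sInt_hc, setLIntegral_hc s.1 hm]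
  have h2 : ∀ w ∈ subs s.1 m, ∫⁻ y in hc (m, w), Φ y =
      (fun w' => ∫⁻ y in hc (m, w'), Φ y)
        (Function.update w s.2 (2 ^ (m - s.1.1) * s.1.2 s.2)) := fun w _ =>
    hc_shift' m w s.2 _ Φ hΦ'
  show 2 ^ s.1.1 * ∑ w ∈ subs s.1 m, ∫⁻ y in hc (m, w), Φ y = _
  rw [Finset.sum_congr rfl h2, sum_subs s m (fun w' => ∫⁻ y in hc (m, w'), Φ y), ← mul_assoc]
  congr 1
  rw [← pow_add]
  congr 1
  omega

theorem squ_sub {v : V} {s : Idx × Fin 3} {m : ℕ} (hm : s.1.1 ≤ m) {z : Fin 3 → ℤ}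
    (hz : z ∈ eLow s m) : squ v ((m, z), s.2) ⊆ squ v s := by
  have hs := two_pow_split hm
  rw [mem_eLow] at hz
  rintro x ⟨hx, hx'⟩
  refine ⟨?_, fun j hj => ?_⟩
  · rw [hx]
    show v s.2 + (z s.2 : ℝ) / 2 ^ m = _
    rw [hz.1]
    push_cast
    rw [hs]
    field_simp
  · have h1 := hx' j hj
    simp only at h1
    obtain ⟨h3, h4⟩ := hz.2 j hj
    have h3' : (2:ℝ) ^ (m - s.1.1) * s.1.2 j ≤ z j := by exact_mod_cast h3
    have h4' : (z j : ℝ) + 1 ≤ 2 ^ (m - s.1.1) * (s.1.2 j + 1) := by exact_mod_cast h4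
    have h5 := int_bounds hm (z := s.1.2 j) (w := z j) (u := 0) (by linarith) (by linarith)
    have h6 := int_bounds hm (z := s.1.2 j) (w := z j) (u := 1) (by linarith) (by linarith)
    rw [add_zero] at h5
    constructor <;> linarith [h5.1, h6.2, h1.1, h1.2]

theorem isCompact_squ (v : V) (s : Idx × Fin 3) : IsCompact (squ v s) := by
  have h1 : squ v s = dyc v s.1.1 s.1.2 ∩ {x | x s.2 = v s.2 + s.1.2 s.2 / 2 ^ s.1.1} := by
    ext x
    simp only [squ, mem_ofPred_eq, mem_inter_iff, dyc]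
    constructor
    · rintro ⟨h, h'⟩
      refine ⟨fun k => ?_, h⟩
      by_cases hk : k = s.2
      · rw [hk, h]
        refine ⟨le_rfl, ?_⟩
        gcongr
        linarith
      · exact h' k hk
    · rintro ⟨h, h'⟩
      exact ⟨h', fun k _ => h k⟩
  rw [h1]
  exact (isCompact_dyc' v _ _).inter_right (isClosed_eq (continuous_apply _) continuous_const)

theorem dist_le_of_mem_squ {v : V} {s : Idx × Fin 3} {x y : V} (hx : x ∈ squ v s)
    (hy : y ∈ squ v s) : dist x y ≤ 1 / 2 ^ s.1.1 := by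
  rw [dist_pi_le_iff (by positivity)]
  intro i
  by_cases hi : i = s.2
  · rw [hi, hx.1, hy.1, dist_self]
    positivity
  · obtain ⟨a, b⟩ := hx.2 i hi
    obtain ⟨c, d⟩ := hy.2 i hi
    simp only [add_div] at a b c d
    rw [Real.dist_eq, abs_le]
    constructor <;> linarith

theorem weight_square {v : V} {nn : ℕ → ℕ} {H W : V → ℝ≥0∞} (hnn : StrictMono nn)
    (hG : Gen v nn H) {s : Idx × Fin 3} (hW : ContinuousOn W (squ v s))
    (hWt : ∀ x ∈ squ v s, W x ≠ ⊤) {k : Fin 3} (hk : k ≠ s.2) {δ : ℝ≥0∞} (hδ : δ ≠ 0) :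
    ∀ᶠ l in atTop, fSum v s (nn l) k (fun x => W x * H x) ≤
      sInt v s (fun x => W x * H x) + δ := by
  have hfin := hG.sfin s
  have hδ2 : δ / 2 ≠ 0 := (ENNReal.half_pos hδ).ne'
  obtain ⟨η, hη, hηI⟩ := exists_le_of_pos hfin hδ2
  obtain ⟨d, hd, hosc⟩ := exists_osc (isCompact_squ v s) hW hWt hη
  obtain ⟨N, hN⟩ := exists_pow_lt_of_lt_one hd (show (1 / 2 : ℝ) < 1 by norm_num)
  set m := max N s.1.1 with hm
  have hqm : s.1.1 ≤ m := le_max_right _ _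
  have hmd : (1 / 2 ^ m : ℝ) < d := by
    refine lt_of_le_of_lt ?_ hN
    rw [one_div_pow]
    exact one_div_le_one_div_of_le (by positivity)
      (pow_le_pow_right₀ (by norm_num) (le_max_left _ _))
  have hWz : ∀ z ∈ eLow s m, ∀ x ∈ squ v ((m, z), s.2),
      ENNReal.ofReal ((W (pt v m z)).toReal - η) ≤ W x ∧
        W x ≤ ENNReal.ofReal ((W (pt v m z)).toReal + η) := by
    intro z hz x hx
    have h0 := pt_mem_squ v ((m, z), s.2)
    exact hosc _ (squ_sub hqm hz h0) _ (squ_sub hqm hz hx)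
      ((dist_le_of_mem_squ h0 hx).trans_lt hmd)
  have h1 : ∀ᶠ l in atTop, fSum v s (nn l) k (fun x => W x * H x) ≤
      ∑ z ∈ eLow s m, ENNReal.ofReal ((W (pt v m z)).toReal + η) *
        fSum v ((m, z), s.2) (nn l) k H := by
    filter_upwards [hnn.tendsto_atTop.eventually_ge_atTop m] with l hl
    classical
    refine (sum_cover (eInSq s (nn l) k) (eLow s m) (fun z => eInSq ((m, z), s.2) (nn l) k)
      (fun w hw => eInSq_cover s hqm hl k hw) _).trans ?_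
    refine Finset.sum_le_sum fun z hz => ?_
    unfold fSum
    rw [Finset.mul_sum]
    refine Finset.sum_le_sum fun w hw => ?_
    rw [mul_left_comm]
    gcongr
    exact eInt_le_mul ENNReal.ofReal_ne_top fun t ht =>
      (hWz z hz _ (edge_mem_squ (s := ((m, z), s.2)) hl hk hw ht)).2
  have h2 := wabs (eLow s m) (fun z => (W (pt v m z)).toReal) (η := η)
    (fun l => fSum v s (nn l) k (fun x => W x * H x))
    (fun z l => fSum v ((m, z), s.2) (nn l) k H) (sInt v s (fun x => W x * H x))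
    (fun z => sInt v ((m, z), s.2) H) (fun z => sInt v ((m, z), s.2) (fun x => W x * H x)) h1
    (fun z _ δ' hδ' => hG.square ((m, z), s.2) k hk δ' hδ') (fun z hz =>
      mul_le_sInt ENNReal.ofReal_ne_top fun x hx => (hWz z hz x hx).1)
    (sInt_split v s hqm _).ge hδ2
  filter_upwards [h2] with l hl
  refine hl.trans ?_
  rw [← sInt_split v s hqm H, add_assoc]
  gcongr
  calc _ ≤ δ / 2 + δ / 2 := by gcongr
    _ = δ := ENNReal.add_halves δ

/-- a continuous finite weight is bounded on a compact set -/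
theorem exists_bound {K : Set V} (hK : IsCompact K) {W : V → ℝ≥0∞} (hW : ContinuousOn W K)
    (hWt : ∀ x ∈ K, W x ≠ ⊤) : ∃ C : ℝ≥0∞, C ≠ ⊤ ∧ ∀ x ∈ K, W x ≤ C := by
  rcases K.eq_empty_or_nonempty with h | h
  · exact ⟨0, ENNReal.zero_ne_top, by simp [h]⟩
  · obtain ⟨x, hx, hx'⟩ := hK.exists_isMaxOn h hW
    exact ⟨W x, hWt x hx, fun y hy => hx' hy⟩

theorem weight_sfin {v : V} {nn : ℕ → ℕ} {H W : V → ℝ≥0∞}
    (hG : Gen v nn H) {s : Idx × Fin 3} (hW : ContinuousOn W (squ v s))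
    (hWt : ∀ x ∈ squ v s, W x ≠ ⊤) : sInt v s (fun x => W x * H x) ≠ ⊤ := by
  obtain ⟨C, hC, h⟩ := exists_bound (isCompact_squ v s) hW hWt
  exact ne_top_of_le_ne_top (ENNReal.mul_ne_top hC (hG.sfin s)) (sInt_le_mul hC h)

theorem isCompact_edge (v : V) (e : Idx × Fin 3) : IsCompact (edge v e) := by
  rw [edge, segment_eq_image]
  exact isCompact_Icc.image (by fun_prop)

theorem mem_edge (v : V) (n : ℕ) (w : Fin 3 → ℤ) (k : Fin 3) {t : ℝ} (ht : t ∈ Icc (0:ℝ) 1) :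
    pt v n w + t • ((1 / 2 ^ n : ℝ) • ev k) ∈ edge v ((n, w), k) := by
  rw [edge, segment_eq_image']
  exact ⟨t, ht, by simp⟩

theorem weight_efin {v : V} {nn : ℕ → ℕ} {H W : V → ℝ≥0∞}
    (hG : Gen v nn H) {e : Idx × Fin 3} (hW : ContinuousOn W (edge v e))
    (hWt : ∀ x ∈ edge v e, W x ≠ ⊤) : eInt v e (fun x => W x * H x) ≠ ⊤ := by
  obtain ⟨⟨n, w⟩, k⟩ := e
  obtain ⟨C, hC, h⟩ := exists_bound (isCompact_edge v _) hW hWt
  exact ne_top_of_le_ne_top (ENNReal.mul_ne_top hC (hG.efin _))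
    (eInt_le_mul hC fun t ht => h _ (mem_edge v n w k ht))

end Vale.Agent.P073.H83
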