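import Vale.Agent.P073.H83.Grid3
import Vale.Agent.P073.H73.PreSpec

/-!
# P073, block A15-GRID, [PRE-D]: the boxes, the zone near their boundaries, the cut zone
-/

namespace Vale.Agent.P073.H83

open MeasureTheory Set Filter Topology Metric Vale.Agent.P073.St Vale.Agent.P073.AB
open Vale.Agent.P073.SQ (ev)
open Vale.Agent.P073.AB.P86
open _root_.P073.Net (dyc dyo IsTile SizeFn Adm)
open Vale.Agent.P073.H73 (ctr Bix)
open scoped ENNReal

variable {w v : V} {θ M κ : ℝ} {m₁ n k mt m' : ℕ} {Ω Λ : Set V} {f : V → V}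
  {J : Finset (Fin 3 → ℤ)} {A : (Fin 3 → ℤ) → V → V} {L : (Fin 3 → ℤ) → V →L[ℝ] V}

/-! ### Near the boundaries of the boxes -/

/-- the tiles at distance less than `2^-m'` from the boundaries of the boxes have generation
`m'` -/
theorem gen_near_Sf (H : CellsG θ M κ m₁ n k Ω Λ f v J A L) (hm : m₁ ≤ m') {m : ℕ}
    {z : Fin 3 → ℤ} (h : IsTile (grho w v n k m₁ mt m' J A Λ) w m z) {x y : V}
    (hx : x ∈ dyc w m z) (hy : y ∈ Sf w v n k m₁ mt J A) (hxy : ‖x - y‖ < 1 / 2 ^ m') : m = m' := by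
  apply le_antisymm
  · by_contra hcon
    push Not at hcon
    obtain ⟨z', hz'⟩ := exists_ancestor (w := w) hcon.le z
    refine h.2 m' z' hcon hz' fun u hu => ?_
    have hxu := P073.Net.NC.dist_le (hz' hx) hu
    obtain ⟨q, hq, hyb⟩ := Sf_sub hy
    obtain ⟨t, ht, hty⟩ := bx_sub_image hq hyb
    have h1 := H.core q.1 hq.1 t (CellsG.boxR_sub_dyc v n k q.1 ht)
    rw [hty] at h1
    have h2 : infDist y Λᶜ ≤ infDist u Λᶜ + dist y u := infDist_le_infDist_add_dist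
    have h2' : dist y u ≤ ‖x - y‖ + ‖x - u‖ := by
      rw [dist_eq_norm]
      have : y - u = -(x - y) + (x - u) := by abel
      rw [this]
      exact (norm_add_le _ _).trans (by rw [norm_neg])
    have h3 : (1:ℝ) / 2 ^ m' ≤ 1 / 2 ^ m₁ := by
      rw [div_le_div_iff_of_pos_left one_pos (by positivity) (by positivity)]
      exact pow_le_pow_right₀ (by norm_num) hm
    have h4 : (0:ℝ) < 1 / 2 ^ m₁ := by positivity
    have h5 : (4:ℝ) / 2 ^ m₁ = 4 * (1 / 2 ^ m₁) := by ring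
    unfold grho AB.rho
    refine le_min (le_min h3 ?_) ?_
    · rw [h5] at h1
      linarith
    · linarith [dSf_nonneg (Sf w v n k m₁ mt J A) u]
  · have h1 := h.1 x hx
    have h2 : grho w v n k m₁ mt m' J A Λ x < 2 * (1 / 2 ^ m') := by
      refine (min_le_right _ _).trans_lt ?_
      have h3 := dSf_lip (Sf w v n k m₁ mt J A) x y
      rw [dSf_mem hy, zero_add] at h3
      linarith
    have h3 : (1:ℝ) / 2 ^ m < 2 * (1 / 2 ^ m') := h1.trans_lt h2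
    by_contra hcon
    push Not at hcon
    have h4 : (2:ℝ) ^ (m + 1) ≤ 2 ^ m' := pow_le_pow_right₀ (by norm_num) hcon
    have h5 : (1:ℝ) / 2 ^ m' ≤ 1 / 2 ^ (m + 1) := by
      rw [div_le_div_iff_of_pos_left one_pos (by positivity) (by positivity)]
      exact h4
    have h6 : (1:ℝ) / 2 ^ (m + 1) = 1 / 2 ^ m / 2 := by rw [pow_succ]; ring
    linarith

/-- the sides of the boxes are in grid planes of generation `m'` -/
theorem frontier_bx_grid (h1 : m₁ ≤ m') (h2 : mt ≤ m') {d : Fin 3 → ℤ} {y : V}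
    (hy : y ∈ frontier (bx w m₁ mt d)) : ∃ l, ∃ a : ℤ, y l = w l + a / 2 ^ m' := by
  obtain ⟨a, ha⟩ := Nat.exists_eq_add_of_le h1
  obtain ⟨b, hb⟩ := Nat.exists_eq_add_of_le h2
  have ea : ∀ t : ℝ, t / 2 ^ m₁ = t * 2 ^ a / 2 ^ m' := by
    intro t
    rw [ha, pow_add]; field_simp
  have eb : (1:ℝ) / 2 ^ mt = 2 ^ b / 2 ^ m' := by
    rw [hb, pow_add]; field_simp
  by_contra hcon
  push Not at hcon
  have hyb := frontier_bx_sub w m₁ mt d hy
  have hU : y ∈ interior (bx w m₁ mt d) := by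
    have e : interior (bx w m₁ mt d) = univ.pi fun i => Ioo (w i + d i / 2 ^ m₁ + 1 / 2 ^ mt)
        (w i + (d i + 1) / 2 ^ m₁ - 1 / 2 ^ mt) := by
      rw [bx_eq_Icc, ← pi_univ_Icc, interior_pi_set finite_univ]
      simp only [interior_Icc]
    rw [e]
    intro i _
    refine ⟨lt_of_le_of_ne (hyb i).1 fun h => ?_, lt_of_le_of_ne (hyb i).2 fun h => ?_⟩
    · refine hcon i (d i * 2 ^ a + 2 ^ b) ?_
      rw [← h, ea, eb]; push_cast; ring
    · refine hcon i ((d i + 1) * 2 ^ a - 2 ^ b) ?_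
      rw [h, ea, eb]; push_cast; ring
  exact hy.2 hU

/-- the distance of the centre to a grid plane -/
theorem dist_ctr_plane {m : ℕ} {zz : Fin 3 → ℤ} {c y : V} (hc : ‖c - ctr w m zz‖ ≤ 1 / 4 / 2 ^ m)
    {l : Fin 3} {a : ℤ} (hy : y l = w l + a / 2 ^ m) : 1 / 4 / 2 ^ m ≤ ‖y - c‖ := by
  have hp : (0:ℝ) < 1 / 2 ^ m := by positivity
  have h1 := norm_le_pi_norm (c - ctr w m zz) l
  rw [Pi.sub_apply, Real.norm_eq_abs] at h1
  have h2 := abs_le.1 (h1.trans hc)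
  have h3 := norm_le_pi_norm (y - c) l
  rw [Pi.sub_apply, Real.norm_eq_abs] at h3
  have e1 : ctr w m zz l = w l + (zz l + 1 / 2) / 2 ^ m := rfl
  rw [e1] at h2
  have e2 : (1:ℝ) / 4 / 2 ^ m = 1 / 2 ^ m / 4 := by ring
  rw [e2] at h2 ⊢
  refine le_trans ?_ h3
  have e3 : (zz l + 1 / 2 : ℝ) / 2 ^ m = zz l * (1 / 2 ^ m) + 1 / 2 ^ m / 2 := by ring
  have e4 : (a : ℝ) / 2 ^ m = a * (1 / 2 ^ m) := by ring
  rw [hy, e4]
  rw [e3] at h2
  rcases le_or_gt a (zz l) with h | h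
  · have h4 : (a : ℝ) * (1 / 2 ^ m) ≤ zz l * (1 / 2 ^ m) :=
      mul_le_mul_of_nonneg_right (by exact_mod_cast h) hp.le
    rw [abs_sub_comm]
    refine le_trans ?_ (le_abs_self _)
    linarith [h2.1]
  · have h4 : ((zz l : ℝ) + 1) * (1 / 2 ^ m) ≤ a * (1 / 2 ^ m) :=
      mul_le_mul_of_nonneg_right (by exact_mod_cast h) hp.le
    rw [add_mul, one_mul] at h4
    refine le_trans ?_ (le_abs_self _)
    linarith [h2.2]

/-- **[PRE-D] zone** -/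
theorem zone_grid (H : CellsG θ M κ m₁ n k Ω Λ f v J A L) (h1 : m₁ ≤ m') (h2 : mt ≤ m')
    {q : (Fin 3 → ℤ) × (Fin 3 → ℤ)} (hq : q ∈ Fam w v n k m₁ J A) {x y : V}
    (hy : y ∈ frontier (A q.1 ⁻¹' bx w m₁ mt q.2)) {r : ℝ} (hxy : ‖x - y‖ ≤ r)
    (hr : M * r ≤ 1 / 8 / 2 ^ m') {m : ℕ} {zz : Fin 3 → ℤ}
    (ht : IsTile (grho w v n k m₁ mt m' J A Λ) w m zz) (hx : A q.1 x ∈ dyc w m zz) {c : V}
    (hc : ‖c - ctr w m zz‖ ≤ 1 / 4 / 2 ^ m) :
    m = m' ∧ A q.1 x ≠ c ∧ 1 / 8 / 2 ^ m ≤ ‖A q.1 x - c‖ := by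
  have hyf : A q.1 y ∈ frontier (bx w m₁ mt q.2) :=
    (H.continuous hq.1).frontier_preimage_subset _ hy
  have hp : (0:ℝ) < 1 / 2 ^ m' := by positivity
  have e1 : (1:ℝ) / 8 / 2 ^ m' = 1 / 2 ^ m' / 8 := by ring
  have hM : 0 ≤ M := H.θ0.le.trans (H.M_pos hq.1)
  have h3 : ‖A q.1 x - A q.1 y‖ ≤ 1 / 2 ^ m' / 8 := by
    rw [← e1]
    exact (H.dist_le hq.1 x y).trans ((mul_le_mul_of_nonneg_left hxy hM).trans hr)
  have hm : m = m' := gen_near_Sf H h1 ht hx (mem_biUnion hq hyf) (by linarith)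
  subst hm
  obtain ⟨l, a, hl⟩ := frontier_bx_grid h1 h2 hyf
  have h4 := dist_ctr_plane hc hl
  have e2 : (1:ℝ) / 4 / 2 ^ m = 1 / 2 ^ m / 4 := by ring
  have e3 : (1:ℝ) / 8 / 2 ^ m = 1 / 2 ^ m / 8 := by ring
  rw [e2] at h4
  rw [e3]
  have h5 : ‖A q.1 y - c‖ ≤ ‖A q.1 x - A q.1 y‖ + ‖A q.1 x - c‖ := by
    have : A q.1 y - c = -(A q.1 x - A q.1 y) + (A q.1 x - c) := by abel
    rw [this]
    exact (norm_add_le _ _).trans (by rw [norm_neg])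
  have h6 : 1 / 2 ^ m / 8 ≤ ‖A q.1 x - c‖ := by linarith
  refine ⟨rfl, fun h => ?_, h6⟩
  rw [h, sub_self, norm_zero] at h6
  linarith

/-! ### The boxes of `Pre` -/

/-- the index of the box -/
noncomputable def bixOf (m₁ mt : ℕ) (q : (Fin 3 → ℤ) × (Fin 3 → ℤ)) : Bix :=
  (q.1, (fun i => (q.2 i : ℝ) / 2 ^ m₁ + 1 / 2 ^ mt), fun i => ((q.2 i : ℝ) + 1) / 2 ^ m₁ - 1 / 2 ^ mt)

theorem box_bixOf (m₁ mt : ℕ) (q : (Fin 3 → ℤ) × (Fin 3 → ℤ)) :
    (bixOf m₁ mt q).box = bx 0 m₁ mt q.2 := by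
  rw [bx_eq_Icc, Bix.box, bixOf]
  simp only [Pi.zero_apply, zero_add]

theorem cell_bixOf (m₁ mt : ℕ) (q : (Fin 3 → ℤ) × (Fin 3 → ℤ)) :
    (bixOf m₁ mt q).cell A = A q.1 ⁻¹' bx 0 m₁ mt q.2 := by
  rw [Bix.cell, box_bixOf]; rfl

open Classical in
/-- the boxes -/
noncomputable def gB (H : CellsG θ M κ m₁ n k Ω Λ f v J A L) (mt : ℕ) : Finset Bix :=
  (finite_Fam H 0).toFinset.image (bixOf m₁ mt)

theorem mem_gB (H : CellsG θ M κ m₁ n k Ω Λ f v J A L) {b : Bix} :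
    b ∈ gB H mt ↔ ∃ q ∈ Fam 0 v n k m₁ J A, bixOf m₁ mt q = b := by
  classical
  rw [gB, Finset.mem_image]
  simp only [Set.Finite.mem_toFinset]

theorem gB_J (H : CellsG θ M κ m₁ n k Ω Λ f v J A L) : ∀ b ∈ gB H mt, b.1 ∈ J := by
  intro b hb
  obtain ⟨q, hq, rfl⟩ := (mem_gB H).1 hb
  exact hq.1

theorem gB_lt (H : CellsG θ M κ m₁ n k Ω Λ f v J A L) (hmt : m₁ + 2 ≤ mt) :
    ∀ b ∈ gB H mt, ∀ i, b.2.1 i < b.2.2 i := by
  intro b hb i
  obtain ⟨q, hq, rfl⟩ := (mem_gB H).1 hb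
  show (q.2 i : ℝ) / 2 ^ m₁ + 1 / 2 ^ mt < ((q.2 i : ℝ) + 1) / 2 ^ m₁ - 1 / 2 ^ mt
  have h1 : (1:ℝ) / 2 ^ mt ≤ 1 / 2 ^ (m₁ + 2) := by
    rw [div_le_div_iff_of_pos_left one_pos (by positivity) (by positivity)]
    exact pow_le_pow_right₀ (by norm_num) hmt
  have h2 : (1:ℝ) / 2 ^ (m₁ + 2) = 1 / 2 ^ m₁ / 4 := by rw [pow_add]; ring
  have h3 : (0:ℝ) < 1 / 2 ^ m₁ := by positivity
  rw [div_add_one]
  linarith

theorem gB_tile (H : CellsG θ M κ m₁ n k Ω Λ f v J A L) (h1 : m₁ ≤ m') (h2 : mt ≤ m') :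
    ∀ b ∈ gB H mt, ∀ m z, IsTile (grho 0 v n k m₁ mt m' J A Λ) 0 m z →
      dyc 0 m z ⊆ b.box ∨ Disjoint (dyo 0 m z) b.box := by
  intro b hb m z ht
  obtain ⟨q, hq, rfl⟩ := (mem_gB H).1 hb
  rw [box_bixOf]
  exact tile_sub_or_disjoint H h1 h2 ht hq

theorem gB_mt (H : CellsG θ M κ m₁ n k Ω Λ f v J A L) (h1 : m₁ ≤ m') :
    ∀ b ∈ gB H mt, ∀ m z, IsTile (grho 0 v n k m₁ mt m' J A Λ) 0 m z →
      (dyc 0 m z ∩ frontier b.box).Nonempty → m = m' := by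
  intro b hb m z ht hne
  obtain ⟨q, hq, rfl⟩ := (mem_gB H).1 hb
  rw [box_bixOf] at hne
  obtain ⟨x, hx, hxf⟩ := hne
  exact gen_of_mem_Sf H h1 ht hx (mem_biUnion hq hxf)

theorem gB_lo (H : CellsG θ M κ m₁ n k Ω Λ f v J A L) (h1 : m₁ ≤ m') (h2 : mt ≤ m') :
    ∀ b ∈ gB H mt, ∀ i, ∃ a : ℤ, b.2.1 i = a / 2 ^ m' := by
  intro b hb i
  obtain ⟨q, hq, rfl⟩ := (mem_gB H).1 hb
  obtain ⟨a, ha⟩ := Nat.exists_eq_add_of_le h1
  obtain ⟨c, hc⟩ := Nat.exists_eq_add_of_le h2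
  refine ⟨q.2 i * 2 ^ a + 2 ^ c, ?_⟩
  show (q.2 i : ℝ) / 2 ^ m₁ + 1 / 2 ^ mt = _
  have ea : ∀ t : ℝ, t / 2 ^ m₁ = t * 2 ^ a / 2 ^ m' := by
    intro t
    rw [ha, pow_add]; field_simp
  have eb : (1:ℝ) / 2 ^ mt = 2 ^ c / 2 ^ m' := by
    rw [hc, pow_add]; field_simp
  rw [ea, eb]; push_cast; ring

theorem gB_hi (H : CellsG θ M κ m₁ n k Ω Λ f v J A L) (h1 : m₁ ≤ m') (h2 : mt ≤ m') :
    ∀ b ∈ gB H mt, ∀ i, ∃ a : ℤ, b.2.2 i = a / 2 ^ m' := by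
  intro b hb i
  obtain ⟨q, hq, rfl⟩ := (mem_gB H).1 hb
  obtain ⟨a, ha⟩ := Nat.exists_eq_add_of_le h1
  obtain ⟨c, hc⟩ := Nat.exists_eq_add_of_le h2
  refine ⟨(q.2 i + 1) * 2 ^ a - 2 ^ c, ?_⟩
  show ((q.2 i : ℝ) + 1) / 2 ^ m₁ - 1 / 2 ^ mt = _
  have ea : ∀ t : ℝ, t / 2 ^ m₁ = t * 2 ^ a / 2 ^ m' := by
    intro t
    rw [ha, pow_add]; field_simp
  have eb : (1:ℝ) / 2 ^ mt = 2 ^ c / 2 ^ m' := by
    rw [hc, pow_add]; field_simp
  rw [ea, eb]; push_cast; ring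

/-- the cells are inside of the protected boxes -/
theorem cell_sub_boxR (H : CellsG θ M κ m₁ n k Ω Λ f v J A L) {b : Bix} (hb : b ∈ gB H mt) :
    b.cell A ⊆ boxR v n k b.1 := by
  obtain ⟨q, hq, rfl⟩ := (mem_gB H).1 hb
  rw [cell_bixOf]
  intro x hx
  obtain ⟨u, hu, hux⟩ := bx_sub_image hq hx
  rwa [← H.injective hq.1 hux]

/-- **[PRE-D] sep** -/
theorem gB_sep (H : CellsG θ M κ m₁ n k Ω Λ f v J A L) {r : ℝ} (hr1 : M * r < 2 / 2 ^ mt)
    (hr2 : r < 4 / 2 ^ (n + k)) :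
    ∀ b ∈ gB H mt, ∀ b' ∈ gB H mt, b ≠ b' → ∀ x ∈ b.cell A, ∀ y ∈ b'.cell A, r < ‖x - y‖ := by
  intro b hb b' hb' hne x hx y hy
  have hxR := cell_sub_boxR H hb hx
  have hyR := cell_sub_boxR H hb' hy
  obtain ⟨q, hq, rfl⟩ := (mem_gB H).1 hb
  obtain ⟨q', hq', rfl⟩ := (mem_gB H).1 hb'
  by_cases hz : q.1 = q'.1
  · have hd : q.2 ≠ q'.2 := fun h => hne (by rw [Prod.ext hz h])
    rw [cell_bixOf] at hx hy
    have h1 := bx_dist hd hx hy
    rw [← hz] at h1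
    have h2 := H.dist_le hq.1 x y
    have hM : 0 < M := H.θ0.trans_le (H.M_pos hq.1)
    by_contra hcon
    push Not at hcon
    have h3 : M * ‖x - y‖ ≤ M * r := mul_le_mul_of_nonneg_left hcon hM.le
    linarith
  · have hxR' : x ∈ boxR v n k q.1 := hxR
    have hyR' : y ∈ boxR v n k q'.1 := hyR
    have hp : (0:ℝ) < 2 ^ n := by positivity
    have key : ∀ {z z' : Fin 3 → ℤ} {x y : V} {i : Fin 3}, z i < z' i → x ∈ boxR v n k z →
        y ∈ boxR v n k z' → 4 / 2 ^ (n + k) ≤ ‖x - y‖ := by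
      intro z z' x y i hi hx hy
      have h3 := (hx i).2
      have h4 := (hy i).1
      have h5 : ((z i : ℝ) + 1) / 2 ^ n ≤ z' i / 2 ^ n := by
        apply div_le_div_of_nonneg_right _ hp.le
        exact_mod_cast hi
      have h6 := norm_le_pi_norm (x - y) i
      rw [Pi.sub_apply, Real.norm_eq_abs] at h6
      have h7 := neg_abs_le (x i - y i)
      have h8 : (4:ℝ) / 2 ^ (n + k) = 2 / 2 ^ (n + k) + 2 / 2 ^ (n + k) := by ring
      rw [h8]; linarith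
    obtain ⟨i, hi⟩ := Function.ne_iff.1 hz
    refine hr2.trans_le ?_
    rcases lt_or_gt_of_ne hi with hi | hi
    · exact key hi hxR' hyR'
    · rw [norm_sub_rev]
      exact key hi hyR' hxR'

/-! ### The cut zone -/

/-- a coordinate of the linear part is large on one axis -/
theorem CellsG.exists_axis' (H : CellsG θ M κ m₁ n k Ω Λ f v J A L) {z : Fin 3 → ℤ} (hz : z ∈ J)
    (i : Fin 3) : ∃ l : Fin 3, θ / 3 ≤ |((ContinuousLinearMap.proj (R := ℝ)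
      (φ := fun _ : Fin 3 => ℝ) i).comp (L z)) (ev l)| := by
  set ν := (ContinuousLinearMap.proj (R := ℝ) (φ := fun _ : Fin 3 => ℝ) i).comp (L z) with hν
  obtain ⟨N, hN1, hN2⟩ := H.exists_inv hz
  by_contra hcon
  push Not at hcon
  have h1 : ν (N (ev i)) = 1 := by
    rw [hν, ContinuousLinearMap.comp_apply, hN1]
    simp [ev]
  rw [clm_apply_eq] at h1
  have h2 : ∀ l, |(N (ev i)) l| ≤ 1 / θ := by
    intro l
    have h3 := norm_le_pi_norm (N (ev i)) l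
    have h4 := H.below z hz (N (ev i))
    rw [hN1, norm_ev'] at h4
    rw [Real.norm_eq_abs] at h3
    refine h3.trans ?_
    rw [le_div_iff₀ H.θ0, mul_comm]
    exact h4
  have h3 : |∑ l, (N (ev i)) l * ν (ev l)| < 1 := by
    calc |∑ l, (N (ev i)) l * ν (ev l)| ≤ ∑ l, |(N (ev i)) l * ν (ev l)| :=
          Finset.abs_sum_le_sum_abs _ _
      _ ≤ ∑ l, 1 / θ * |ν (ev l)| := by
          refine Finset.sum_le_sum fun l _ => ?_
          rw [abs_mul]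
          exact mul_le_mul_of_nonneg_right (h2 l) (abs_nonneg _)
      _ < ∑ _l : Fin 3, 1 / θ * (θ / 3) := by
          refine Finset.sum_lt_sum_of_nonempty Finset.univ_nonempty fun l _ => ?_
          have : 0 < 1 / θ := by have := H.θ0; positivity
          exact mul_lt_mul_of_pos_left (hcon l) this
      _ = 1 := by
          have := H.θ0.ne'
          rw [Finset.sum_const, Finset.card_univ, Fintype.card_fin, nsmul_eq_mul]
          field_simp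
          norm_num
  rw [h1, abs_one] at h3
  exact lt_irrefl _ h3

/-- volume of the preimage of a slab in a cube -/
theorem CellsG.volume_slab' (H : CellsG θ M κ m₁ n k Ω Λ f v J A L) {z : Fin 3 → ℤ} (hz : z ∈ J)
    (i : Fin 3) (a : V) {r : ℝ} (hr : 0 ≤ r) {α β : ℝ} (hαβ : α ≤ β) :
    volume {x | x ∈ closedBall a r ∧ α ≤ A z x i ∧ A z x i ≤ β} ≤
      ENNReal.ofReal ((β - α) / (θ / 3) * (2 * r) ^ 2) := by
  obtain ⟨l, hl⟩ := H.exists_axis' hz i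
  set ν := (ContinuousLinearMap.proj (R := ℝ) (φ := fun _ : Fin 3 => ℝ) i).comp (L z) with hν
  have h1 := volume_slab_le ν (c := θ / 3) (by have := H.θ0; positivity) hl a hr
    (α := α - A z 0 i) (β := β - A z 0 i) (by linarith)
  refine (measure_mono ?_).trans (h1.trans (le_of_eq ?_))
  · rintro x ⟨hx, hx1, hx2⟩
    have h2 : A z x i = ν x + A z 0 i := by
      have h3 := H.eq_add hz 0 x
      rw [zero_add] at h3
      rw [h3, Pi.add_apply, hν, add_comm]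
      rfl
    rw [h2] at hx1 hx2
    exact ⟨hx, by linarith, by linarith⟩
  · congr 1
    rw [sub_sub_sub_cancel_right]

/-- the two slabs of a box in direction `i` -/
def slabs (v : V) (n m' : ℕ) (A : (Fin 3 → ℤ) → V → V) (b : Bix) (i : Fin 3) : Set V :=
  {x | x ∈ closedBall (cen v n b.1) (1 / 2 ^ n) ∧ b.2.1 i - 1 / 2 ^ m' ≤ A b.1 x i ∧
    A b.1 x i ≤ b.2.1 i + 2 * (1 / 2 ^ m')} ∪
  {x | x ∈ closedBall (cen v n b.1) (1 / 2 ^ n) ∧ b.2.2 i - 2 * (1 / 2 ^ m') ≤ A b.1 x i ∧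
    A b.1 x i ≤ b.2.2 i + 1 / 2 ^ m'}

theorem volume_slabs_le (H : CellsG θ M κ m₁ n k Ω Λ f v J A L) (m' : ℕ) {b : Bix} (hz : b.1 ∈ J)
    (i : Fin 3) : volume (slabs v n m' A b i) ≤
      2 * ENNReal.ofReal (9 / θ * (2 / 2 ^ n) ^ 2 * (1 / 2 ^ m')) := by
  have hθ := H.θ0
  have h1 : ∀ i (α β : ℝ), β - α = 3 * (1 / 2 ^ m') →
      volume {x | x ∈ closedBall (cen v n b.1) (1 / 2 ^ n) ∧ α ≤ A b.1 x i ∧
        A b.1 x i ≤ β} ≤ ENNReal.ofReal (9 / θ * (2 / 2 ^ n) ^ 2 * (1 / 2 ^ m')) := by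
    intro i α β hαβ
    have hp : (0:ℝ) < 1 / 2 ^ m' := by positivity
    refine (H.volume_slab' hz i _ (by positivity) (by linarith)).trans
      (le_of_eq (congrArg _ ?_))
    rw [hαβ]
    field_simp
    ring
  rw [two_mul]
  exact (measure_union_le _ _).trans (add_le_add (h1 i _ _ (by ring)) (h1 i _ _ (by ring)))

/-- **[PRE-D] cut**: the volume of the cut zone -/
theorem volume_cut_le (H : CellsG θ M κ m₁ n k Ω Λ f v J A L) {r : ℝ}
    (hr : M * r ≤ 1 / 2 ^ m') (hrn : r ≤ 1 / 2 / 2 ^ n) :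
    volume {x | ∃ b ∈ gB H mt, ∃ y ∈ b.cell A, ‖x - y‖ ≤ r ∧
      ∃ i, A b.1 y i ≤ b.2.1 i + 1 / 2 ^ m' ∨ b.2.2 i - 1 / 2 ^ m' ≤ A b.1 y i} ≤
      ENNReal.ofReal ((gB H mt).card * (6 * (9 / θ * (2 / 2 ^ n) ^ 2 * (1 / 2 ^ m')))) := by
  have hθ := H.θ0
  have hp : (0:ℝ) < 1 / 2 ^ m' := by positivity
  have hcov : {x | ∃ b ∈ gB H mt, ∃ y ∈ b.cell A, ‖x - y‖ ≤ r ∧
      ∃ i, A b.1 y i ≤ b.2.1 i + 1 / 2 ^ m' ∨ b.2.2 i - 1 / 2 ^ m' ≤ A b.1 y i} ⊆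
      ⋃ b ∈ gB H mt, ⋃ i ∈ (Finset.univ : Finset (Fin 3)), slabs v n m' A b i := by
    rintro x ⟨b, hb, y, hy, hxy, i, hi⟩
    refine mem_biUnion hb (mem_biUnion (Finset.mem_coe.2 (Finset.mem_univ i)) ?_)
    have hyR := CellsG.boxR_sub_dyc v n k b.1 (cell_sub_boxR H hb hy)
    have hyb : ∀ j, b.2.1 j ≤ A b.1 y j ∧ A b.1 y j ≤ b.2.2 j := fun j =>
      ⟨(show A b.1 y ∈ Icc b.2.1 b.2.2 from hy).1 j, (show A b.1 y ∈ Icc b.2.1 b.2.2 from hy).2 j⟩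
    have hball : x ∈ closedBall (cen v n b.1) (1 / 2 ^ n) := by
      rw [mem_closedBall, dist_eq_norm]
      have h1 : ‖y - cen v n b.1‖ ≤ 1 / 2 / 2 ^ n := by
        have : y ∈ closedBall (ctr v n b.1) (1 / 2 / 2 ^ n) := by
          rw [closedBall_ctr]; exact hyR
        rwa [mem_closedBall, dist_eq_norm] at this
      have h2 : x - cen v n b.1 = (x - y) + (y - cen v n b.1) := by abel
      rw [h2]
      refine (norm_add_le _ _).trans ?_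
      have h3 : (1:ℝ) / 2 / 2 ^ n = 1 / 2 ^ n / 2 := by ring
      rw [h3] at h1 hrn
      linarith
    have hA : |A b.1 x i - A b.1 y i| ≤ 1 / 2 ^ m' := by
      have h1 := norm_le_pi_norm (A b.1 x - A b.1 y) i
      rw [Pi.sub_apply, Real.norm_eq_abs] at h1
      have hM : 0 ≤ M := hθ.le.trans (H.M_pos (gB_J H b hb))
      exact h1.trans ((H.dist_le (gB_J H b hb) x y).trans
        ((mul_le_mul_of_nonneg_left hxy hM).trans hr))
    have hA' := abs_le.1 hA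
    have hyi := hyb i
    rcases hi with hi | hi
    · left
      exact ⟨hball, by linarith [hA'.1, hyi.1], by linarith [hA'.2]⟩
    · right
      exact ⟨hball, by linarith [hA'.1], by linarith [hA'.2, hyi.2]⟩
  set D : ℝ := 9 / θ * (2 / 2 ^ n) ^ 2 * (1 / 2 ^ m') with hD
  have hD0 : 0 ≤ D := by positivity
  have hone : ∀ b ∈ gB H mt, volume (⋃ i ∈ (Finset.univ : Finset (Fin 3)), slabs v n m' A b i) ≤
      ENNReal.ofReal (6 * D) := by
    intro b hb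
    have hz := gB_J H b hb
    refine (measure_biUnion_finset_le _ _).trans ?_
    refine (Finset.sum_le_sum fun i _ => volume_slabs_le H m' hz i).trans (le_of_eq ?_)
    rw [Finset.sum_const, Finset.card_univ, Fintype.card_fin, nsmul_eq_mul,
      ENNReal.ofReal_mul (p := 6) (by norm_num), ← mul_assoc, ← hD]
    congr 1
    norm_num
  refine (measure_mono hcov).trans ((measure_biUnion_finset_le _ _).trans
    ((Finset.sum_le_sum hone).trans (le_of_eq ?_)))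
  rw [Finset.sum_const, nsmul_eq_mul, ENNReal.ofReal_mul (p := ((gB H mt).card : ℝ))
    (by positivity), ENNReal.ofReal_natCast]

end Vale.Agent.P073.H83
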