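import Vale.Agent.P073.H83.Psh

/-!
# P073: elementary lemmas on boxes (copied from H582/ConC5, without its imports)
-/

namespace Vale.Agent.P073.H83

open MeasureTheory Set Filter Topology Metric Vale.Agent.P073.H235 Vale.Agent.P073.LOC
open Vale.Agent.P073.St (V Mat)
open Vale.Agent.P073.SQ (ev)
open scoped ContDiff ENNReal

/-- the box as a product -/
theorem bx_eq_pi (a : V) : Bx a = Set.pi univ fun i : Fin 3 => Ioo (0 : ℝ) (a i) := by
  ext y
  exact ⟨fun h k _ => h k, fun h k => h k (mem_univ k)⟩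

theorem measurableSet_bx (a : V) : MeasurableSet (Bx a) := by
  rw [bx_eq_pi]
  exact MeasurableSet.univ_pi fun _ => measurableSet_Ioo

theorem isOpen_bx (a : V) : IsOpen (Bx a) := by
  rw [bx_eq_pi]
  exact isOpen_set_pi finite_univ fun _ _ => isOpen_Ioo

theorem measurableSet_fr (a : V) (ν : ℝ) (J : Finset (Fin 3)) : MeasurableSet (Fr a ν J) := by
  have h : Fr a ν J = ⋃ i ∈ J, ({x : V | x i ≤ ν * a i} ∪ {x : V | (1 - ν) * a i ≤ x i}) := by
    ext x
    simp [Fr]
  rw [h]
  refine MeasurableSet.biUnion J.countable_toSet fun i _ => ?_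
  exact (measurableSet_le (measurable_pi_apply i) measurable_const).union
    (measurableSet_le measurable_const (measurable_pi_apply i))

theorem measurableSet_co (a : V) (ν : ℝ) (J : Finset (Fin 3)) : MeasurableSet (Co a ν J) := by
  have h : Co a ν J = ⋂ i ∈ J, ({x : V | ν / 4 * a i ≤ x i} ∩ {x : V | x i ≤ (1 - ν / 4) * a i}) := by
    ext x
    simp [Co]
  rw [h]
  refine MeasurableSet.biInter J.countable_toSet fun i _ => ?_
  exact (measurableSet_le measurable_const (measurable_pi_apply i)).inter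
    (measurableSet_le (measurable_pi_apply i) measurable_const)

/-- the derivative of a shifted map -/
theorem fderiv_shift {g ψ : V → V} {U : Set V} {w y : V} (hU : IsOpen U)
    (hψ : ∀ x ∈ U, ψ x = x + w) (hy : y ∈ U) :
    fderiv ℝ (fun x => g (ψ x)) y = fderiv ℝ g (y + w) := by
  have h1 : (fun x => g (ψ x)) =ᶠ[𝓝 y] fun x => g (x + w) := by
    filter_upwards [hU.mem_nhds hy] with x hx
    rw [hψ x hx]
  rw [h1.fderiv_eq, fderiv_comp_add_right]

/-- monotonicity of the energy -/
theorem en_mono {p : ℝ} {g : V → V} {J : Finset (Fin 3)} {S T : Set V} (h : S ⊆ T) :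
    En p g J S ≤ En p g J T :=
  Finset.sum_le_sum fun _ _ => lintegral_mono_set h

theorem en2_mono {p : ℝ} {g : V → V} {J : Finset (Fin 3)} {k : Fin 3} {c : ℝ} {S T : Set V}
    (h : S ⊆ T) : En2 p g J k c S ≤ En2 p g J k c T :=
  Finset.sum_le_sum fun _ _ => lintegral_mono_set h

/-- the shifted map is close to `f` near the boundary -/
theorem bdClose_shift {Ω K : Set V} {f g ψ : V → V} (hK : IsCompact K) (hKΩ : K ⊆ Ω)
    (hψ : ∀ x ∉ K, ψ x = x) (h : BdClose Ω f g) : BdClose Ω f (fun x => g (ψ x)) := by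
  intro δ hδ
  obtain ⟨K', h1, h2, h3⟩ := h δ hδ
  refine ⟨K ∪ K', union_subset hKΩ h1, hK.union h2, fun x hx => ?_⟩
  show ‖g (ψ x) - f x‖ ≤ δ
  rw [hψ x fun h => hx.2 (Or.inl h)]
  exact h3 x ⟨hx.1, fun h => hx.2 (Or.inr h)⟩

/-- a compact rectangle -/
theorem isCompact_rect (a b : V) : IsCompact {x : V | ∀ i, a i ≤ x i ∧ x i ≤ b i} := by
  have : {x : V | ∀ i, a i ≤ x i ∧ x i ≤ b i} = Icc a b := by
    ext x
    exact ⟨fun h => ⟨fun i => (h i).1, fun i => (h i).2⟩, fun h i => ⟨h.1 i, h.2 i⟩⟩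
  rw [this]
  exact isCompact_Icc

/-- integrals of translates -/
theorem setLIntegral_shift (F : V → ℝ≥0∞) {S T : Set V} (a : V) (h : ∀ x ∈ S, x + a ∈ T) :
    ∫⁻ x in S, F (x + a) ≤ ∫⁻ x in T, F x := by
  have h1 := (measurePreserving_add_right (volume : Measure V) a).setLIntegral_comp_preimage_emb
    (MeasurableEquiv.addRight a).measurableEmbedding F T
  rw [← h1]
  exact lintegral_mono_set fun x hx => h x hx

end Vale.Agent.P073.H83
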