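import Vale.Agent.P073.H83.Morrey
import Vale.Agent.P073.H83.SqRel
import Vale.Agent.P073.H194.MeshDefs
import Vale.Agent.P073.Net.Len

/-!
# P073, [MORREY-SEG]: dyadic squares
-/

namespace Vale.Agent.P073.H83

open MeasureTheory Set Filter Topology
open Vale.Agent.P073.St (V)
open Vale.Agent.P073.SQ (ev)
open Vale.Agent.P073.AB (Idx Part pt edge eInt squ FaceOf EdgeOf EdgeOfSq MinSq)
open Vale.Agent.P073.H73 (onSeg)
open Vale.Agent.P073.H194 (sInt)
open _root_.P073 (ConHomeo)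
open _root_.P073.Net (dyc dyo len)
open scoped ENNReal NNReal

/-- the point of the plane `x l = c` with coordinates `z` -/
def ptl (l : Fin 3) (c : ℝ) (z : ℝ × ℝ) : V := l.insertNth (α := fun _ => ℝ) c ![z.1, z.2]

theorem ptl_self (l : Fin 3) (c : ℝ) (z : ℝ × ℝ) : ptl l c z l = c := by
  simp [ptl]

theorem ptl_zero (l : Fin 3) (c : ℝ) (z : ℝ × ℝ) : ptl l c z (l.succAbove 0) = z.1 := by
  simp [ptl]

theorem ptl_one (l : Fin 3) (c : ℝ) (z : ℝ × ℝ) : ptl l c z (l.succAbove 1) = z.2 := by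
  simp [ptl]

theorem exists_cases (l k : Fin 3) : k = l ∨ k = l.succAbove 0 ∨ k = l.succAbove 1 := by
  fin_cases l <;> fin_cases k <;> simp [Fin.succAbove]

theorem ext_l {l : Fin 3} {x y : V} (h : x l = y l)
    (h0 : x (l.succAbove 0) = y (l.succAbove 0)) (h1 : x (l.succAbove 1) = y (l.succAbove 1)) :
    x = y := by
  funext k
  rcases exists_cases l k with rfl | rfl | rfl <;> assumption

theorem ptl_line (l : Fin 3) (c : ℝ) (z w : ℝ × ℝ) (s : ℝ) :
    ptl l c (z + s • (w - z)) = ptl l c z + s • (ptl l c w - ptl l c z) := by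
  refine ext_l (l := l) ?_ ?_ ?_
  · simp [ptl_self]
  · simp [ptl_zero]
  · simp [ptl_one]

theorem ptl_add0 (l : Fin 3) (c : ℝ) (z : ℝ × ℝ) (s : ℝ) :
    ptl l c (z + s • ((1, 0) : ℝ × ℝ)) = ptl l c z + s • ev (l.succAbove 0) := by
  have h1 : l.succAbove 0 ≠ l := Fin.succAbove_ne l 0
  have h2 : l.succAbove 1 ≠ l.succAbove 0 := by
    intro h; exact absurd (Fin.succAbove_right_injective h) (by decide)
  refine ext_l (l := l) ?_ ?_ ?_
  · simp [ptl_self, ev, h1.symm]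
  · simp [ptl_zero, ev]
  · simp [ptl_one, ev, h2]

theorem ptl_add1 (l : Fin 3) (c : ℝ) (z : ℝ × ℝ) (s : ℝ) :
    ptl l c (z + s • ((0, 1) : ℝ × ℝ)) = ptl l c z + s • ev (l.succAbove 1) := by
  have h1 : l.succAbove 1 ≠ l := Fin.succAbove_ne l 1
  have h2 : l.succAbove 0 ≠ l.succAbove 1 := by
    intro h; exact absurd (Fin.succAbove_right_injective h) (by decide)
  refine ext_l (l := l) ?_ ?_ ?_
  · simp [ptl_self, ev, h1.symm]
  · simp [ptl_zero, ev, h2]
  · simp [ptl_one, ev]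

theorem norm_ptl_sub (l : Fin 3) (c : ℝ) (z w : ℝ × ℝ) :
    ‖ptl l c z - ptl l c w‖ ≤ ‖z - w‖ := by
  rw [pi_norm_le_iff_of_nonneg (norm_nonneg _)]
  intro k
  rcases exists_cases l k with rfl | rfl | rfl
  · rw [Pi.sub_apply, ptl_self, ptl_self, sub_self, norm_zero]
    exact norm_nonneg _
  · rw [Pi.sub_apply, ptl_zero, ptl_zero]
    exact norm_fst_le (z - w)
  · rw [Pi.sub_apply, ptl_one, ptl_one]
    exact norm_snd_le (z - w)

theorem lip_ptl (l : Fin 3) (c : ℝ) : LipschitzWith 1 (ptl l c) := by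
  refine LipschitzWith.of_dist_le_mul fun z w => ?_
  rw [dist_eq_norm, dist_eq_norm, NNReal.coe_one, one_mul]
  exact norm_ptl_sub l c z w

/-! ### Integrals -/

/-- the coordinates -/
noncomputable def cE (l : Fin 3) : V ≃ᵐ ℝ × (ℝ × ℝ) :=
  (MeasurableEquiv.piFinSuccAbove (fun _ => ℝ) l).trans
    (MeasurableEquiv.prodCongr (MeasurableEquiv.refl ℝ) MeasurableEquiv.finTwoArrow)

theorem cE_apply (l : Fin 3) (x : V) :
    cE l x = (x l, (x (l.succAbove 0), x (l.succAbove 1))) := rfl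

theorem cE_pres (l : Fin 3) : MeasurePreserving (cE l) := by
  have h1 := volume_preserving_piFinSuccAbove (fun _ : Fin 3 => ℝ) l
  have h2 : MeasurePreserving (MeasurableEquiv.prodCongr (MeasurableEquiv.refl ℝ)
      (MeasurableEquiv.finTwoArrow (α := ℝ))) :=
    (MeasurePreserving.id volume).prod (volume_preserving_finTwoArrow ℝ)
  exact h2.comp h1

/-- the square -/
def rq (v : V) (s : Idx × Fin 3) : Set (ℝ × ℝ) :=
  Icc (v (s.2.succAbove 0) + s.1.2 (s.2.succAbove 0) / 2 ^ s.1.1)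
    (v (s.2.succAbove 0) + s.1.2 (s.2.succAbove 0) / 2 ^ s.1.1 + 1 / 2 ^ s.1.1) ×ˢ
  Icc (v (s.2.succAbove 1) + s.1.2 (s.2.succAbove 1) / 2 ^ s.1.1)
    (v (s.2.succAbove 1) + s.1.2 (s.2.succAbove 1) / 2 ^ s.1.1 + 1 / 2 ^ s.1.1)

/-- the plane of the square -/
noncomputable def hpl (v : V) (s : Idx × Fin 3) : ℝ := v s.2 + s.1.2 s.2 / 2 ^ s.1.1

theorem dyc_cE (v : V) (s : Idx × Fin 3) : dyc v s.1.1 s.1.2 =
    cE s.2 ⁻¹' (Icc (hpl v s) (hpl v s + 1 / 2 ^ s.1.1) ×ˢ rq v s) := by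
  ext x
  have h1 : ∀ k, v k + (s.1.2 k + 1 : ℝ) / 2 ^ s.1.1 = v k + s.1.2 k / 2 ^ s.1.1 + 1 / 2 ^ s.1.1 :=
    fun k => by ring
  constructor
  · intro h
    exact ⟨⟨(h s.2).1, (h s.2).2.trans (h1 _).le⟩,
      ⟨(h _).1, (h _).2.trans (h1 _).le⟩, ⟨(h _).1, (h _).2.trans (h1 _).le⟩⟩
  · rintro ⟨h2, h3, h4⟩ k
    rw [h1]
    rcases exists_cases s.2 k with rfl | rfl | rfl
    · exact h2
    · exact h3
    · exact h4

theorem ptl_mem_squ {v : V} {s : Idx × Fin 3} {z : ℝ × ℝ} :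
    ptl s.2 (hpl v s) z ∈ squ v s ↔ z ∈ rq v s := by
  have h1 : ∀ k, v k + (s.1.2 k + 1 : ℝ) / 2 ^ s.1.1 = v k + s.1.2 k / 2 ^ s.1.1 + 1 / 2 ^ s.1.1 :=
    fun k => by ring
  constructor
  · rintro ⟨-, h⟩
    have h2 := h _ (Fin.succAbove_ne s.2 0)
    have h3 := h _ (Fin.succAbove_ne s.2 1)
    rw [ptl_zero, h1] at h2
    rw [ptl_one, h1] at h3
    exact ⟨h2, h3⟩
  · rintro ⟨h2, h3⟩
    refine ⟨ptl_self _ _ _, fun k hk => ?_⟩
    rw [h1]
    rcases exists_cases s.2 k with rfl | rfl | rfl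
    · exact absurd rfl hk
    · rw [ptl_zero]; exact h2
    · rw [ptl_one]; exact h3

theorem exists_ptl {v : V} {s : Idx × Fin 3} {x : V} (hx : x ∈ squ v s) :
    ∃ z ∈ rq v s, ptl s.2 (hpl v s) z = x := by
  have h : ptl s.2 (hpl v s) (x (s.2.succAbove 0), x (s.2.succAbove 1)) = x := by
    refine ext_l (l := s.2) ?_ ?_ ?_
    · rw [ptl_self]; exact hx.1.symm
    · rw [ptl_zero]
    · rw [ptl_one]
  exact ⟨(x (s.2.succAbove 0), x (s.2.succAbove 1)), ptl_mem_squ.1 (by rw [h]; exact hx), h⟩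

theorem update_ptl (v : V) (s : Idx × Fin 3) (x : V) :
    Function.update x s.2 (pt v s.1.1 s.1.2 s.2) =
      ptl s.2 (hpl v s) (x (s.2.succAbove 0), x (s.2.succAbove 1)) := by
  refine ext_l (l := s.2) ?_ ?_ ?_
  · rw [Function.update_self, ptl_self]; rfl
  · rw [Function.update_of_ne (Fin.succAbove_ne _ _), ptl_zero]
  · rw [Function.update_of_ne (Fin.succAbove_ne _ _), ptl_one]

theorem measurableSet_rq (v : V) (s : Idx × Fin 3) : MeasurableSet (rq v s) :=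
  measurableSet_Icc.prod measurableSet_Icc

/-- `sInt` is a two-dimensional integral -/
theorem sInt_ptl (v : V) (s : Idx × Fin 3) {H : V → ℝ≥0∞} (hH : Measurable H) :
    sInt v s H = ∫⁻ z in rq v s, H (ptl s.2 (hpl v s) z) := by
  have hm : Measurable fun z => H (ptl s.2 (hpl v s) z) :=
    hH.comp (lip_ptl _ _).continuous.measurable
  have hm2 : Measurable fun p : ℝ × (ℝ × ℝ) => H (ptl s.2 (hpl v s) p.2) :=
    hm.comp measurable_snd
  unfold sInt
  simp_rw [update_ptl]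
  rw [dyc_cE]
  have h1 := (cE_pres s.2).setLIntegral_comp_preimage
    (s := Icc (hpl v s) (hpl v s + 1 / 2 ^ s.1.1) ×ˢ rq v s)
    (measurableSet_Icc.prod (measurableSet_rq v s)) hm2
  have h2 : ∫⁻ a in cE s.2 ⁻¹' (Icc (hpl v s) (hpl v s + 1 / 2 ^ s.1.1) ×ˢ rq v s),
      H (ptl s.2 (hpl v s) (a (s.2.succAbove 0), a (s.2.succAbove 1))) =
      ∫⁻ b in Icc (hpl v s) (hpl v s + 1 / 2 ^ s.1.1) ×ˢ rq v s, H (ptl s.2 (hpl v s) b.2) := h1
  rw [h2, Measure.volume_eq_prod, ← Measure.prod_restrict, lintegral_prod _ hm2.aemeasurable]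
  simp only [lintegral_const]
  rw [Measure.restrict_apply_univ, Real.volume_Icc, add_sub_cancel_left, mul_comm, mul_assoc]
  have h3 : ENNReal.ofReal (1 / 2 ^ s.1.1) * 2 ^ s.1.1 = 1 := by
    have : (2:ℝ≥0∞) ^ s.1.1 = ENNReal.ofReal (2 ^ s.1.1) := by
      rw [ENNReal.ofReal_pow (by norm_num), ENNReal.ofReal_ofNat]
    rw [this, ← ENNReal.ofReal_mul (by positivity), one_div,
      inv_mul_cancel₀ (by positivity), ENNReal.ofReal_one]
  rw [h3, mul_one]

/-! ### The theorem -/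

/-- energy density of `φ` on the square `s` -/
noncomputable def dS (q : ℝ) (l : Fin 3) (φ : V → V) (z : V) : ℝ≥0∞ :=
  ∑ j ∈ Finset.univ.erase l, ‖lineDeriv ℝ φ z (ev j)‖ₑ ^ q

theorem sum_erase (l : Fin 3) (g : Fin 3 → ℝ≥0∞) :
    ∑ j ∈ Finset.univ.erase l, g j = g (l.succAbove 0) + g (l.succAbove 1) := by
  have h : (Finset.univ.erase l : Finset (Fin 3)) = {l.succAbove 0, l.succAbove 1} := by
    ext k
    simp only [Finset.mem_erase, Finset.mem_univ, and_true, Finset.mem_insert,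
      Finset.mem_singleton]
    constructor
    · intro hk
      rcases exists_cases l k with h | h | h
      · exact absurd h hk
      · exact Or.inl h
      · exact Or.inr h
    · rintro (h | h) <;> rw [h] <;> exact Fin.succAbove_ne l _
  rw [h, Finset.sum_pair]
  intro h2
  exact absurd (Fin.succAbove_right_injective h2) (by decide)

/-- the two-dimensional energy -/
theorem nD_pow_le {q : ℝ} (hq1 : 1 ≤ q) (l : Fin 3) (c : ℝ) (φ : V → V) (z : ℝ × ℝ) :
    nD (fun z => φ (ptl l c z)) z ^ q ≤ 2 ^ (q - 1) * dS q l φ (ptl l c z) := by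
  have e1 : lineDeriv ℝ (fun z => φ (ptl l c z)) z (1, 0) =
      lineDeriv ℝ φ (ptl l c z) (ev (l.succAbove 0)) := by
    unfold lineDeriv
    simp_rw [ptl_add0]
  have e2 : lineDeriv ℝ (fun z => φ (ptl l c z)) z (0, 1) =
      lineDeriv ℝ φ (ptl l c z) (ev (l.succAbove 1)) := by
    unfold lineDeriv
    simp_rw [ptl_add1]
  unfold nD dS
  rw [sum_erase, e1, e2]
  exact ENNReal.rpow_add_le_mul_rpow_add_rpow _ _ hq1

theorem dS_measurable {q : ℝ} (l : Fin 3) {φ : V → V} (hφ : Continuous φ) :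
    Measurable (dS q l φ) := by
  unfold dS
  exact Finset.measurable_sum _ fun j _ => (measurable_lineDeriv hφ).enorm.pow_const q

theorem lineDeriv_congr_seg {φ Ψ : V → V} {S : Set V} (h : EqOn φ Ψ S) {z w : V}
    (hz : ∀ᶠ t : ℝ in 𝓝 0, z + t • w ∈ S) : lineDeriv ℝ φ z w = lineDeriv ℝ Ψ z w := by
  unfold lineDeriv
  refine Filter.EventuallyEq.deriv_eq ?_
  filter_upwards [hz] with t ht
  exact h ht

theorem dyc_ae (v : V) (m : ℕ) (z : Fin 3 → ℤ) : ∀ᵐ x ∂(volume.restrict (dyc v m z)),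
    x ∈ dyo v m z := by
  have h1 := Measure.univ_pi_Ioo_ae_eq_Icc (μ := fun _ : Fin 3 => (volume : Measure ℝ))
    (f := fun k => v k + z k / 2 ^ m) (g := fun k => v k + (z k + 1) / 2 ^ m)
  rw [dyc_eq_Icc, ← volume_pi] at *
  rw [← Measure.restrict_congr_set h1]
  filter_upwards [ae_restrict_mem (MeasurableSet.univ_pi fun k => measurableSet_Ioo)] with x hx
  intro k
  exact hx k (mem_univ k)

/-- the energy depends only on the values on the square -/
theorem sInt_dS_congr {q : ℝ} {v : V} {s : Idx × Fin 3} {φ Ψ : V → V}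
    (h : EqOn φ Ψ (squ v s)) : sInt v s (dS q s.2 φ) = sInt v s (dS q s.2 Ψ) := by
  unfold sInt
  congr 1
  refine lintegral_congr_ae ?_
  filter_upwards [dyc_ae v s.1.1 s.1.2] with x hx
  unfold dS
  refine Finset.sum_congr rfl fun j hj => ?_
  have hj' : j ≠ s.2 := Finset.ne_of_mem_erase hj
  rw [lineDeriv_congr_seg h]
  have hc : ContinuousAt (fun t : ℝ =>
      (Function.update x s.2 (pt v s.1.1 s.1.2 s.2) + t • ev j) j) 0 := by fun_prop
  have h1 : v j + s.1.2 j / 2 ^ s.1.1 < x j := (hx j).1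
  have h2 : x j < v j + (s.1.2 j + 1) / 2 ^ s.1.1 := (hx j).2
  have h3 : (Function.update x s.2 (pt v s.1.1 s.1.2 s.2) + (0:ℝ) • ev j) j = x j := by
    rw [zero_smul, add_zero, Function.update_of_ne hj']
  have h4 := hc.eventually (isOpen_Ioo.mem_nhds (show
    (Function.update x s.2 (pt v s.1.1 s.1.2 s.2) + (0:ℝ) • ev j) j ∈
      Ioo (v j + s.1.2 j / 2 ^ s.1.1) (v j + (s.1.2 j + 1) / 2 ^ s.1.1) by
        rw [h3]; exact ⟨h1, h2⟩))
  filter_upwards [h4] with t ht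
  refine ⟨?_, fun k hk => ?_⟩
  · have : (ev j : V) s.2 = 0 := by simp [ev, hj'.symm]
    rw [Pi.add_apply, Function.update_self, Pi.smul_apply, this, smul_zero, add_zero]
    rfl
  · by_cases hkj : k = j
    · subst hkj
      exact ⟨ht.1.le, ht.2.le⟩
    · have : (ev j : V) k = 0 := by simp [ev, hkj]
      rw [Pi.add_apply, Function.update_of_ne hk, Pi.smul_apply, this, smul_zero, add_zero]
      exact ⟨(hx k).1.le, (hx k).2.le⟩

/-- the constant -/
noncomputable def CS (q : ℝ) : ℝ := 4 * CM q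

theorem CS_pos (q : ℝ) : 0 < CS q := mul_pos (by norm_num) (CM_pos q)

/-- **[MORREY-SEG]** -/
theorem morrey_seg {q : ℝ} (hq : 2 < q) {v : V} {s : Idx × Fin 3} {φ : V → V} {K : ℝ≥0}
    (hφ : LipschitzOnWith K φ (squ v s)) {x : V} (hx : x ∈ squ v s) :
    ∃ y ∈ intrinsicFrontier ℝ (squ v s), len (onSeg φ (x, y)) (Icc 0 1) ≤
      ENNReal.ofReal (CS q * (1 / 2 ^ s.1.1) ^ (1 - 2 / q)) *
        sInt v s (fun z => ∑ j ∈ Finset.univ.erase s.2, ‖lineDeriv ℝ φ z (ev j)‖ₑ ^ q) ^ (1 / q) := by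
  have hq0 : 0 < q := by linarith
  obtain ⟨Ψ, hΨ, hE⟩ := hφ.extend_pi
  obtain ⟨z, hz, rfl⟩ := exists_ptl hx
  set c := hpl v s with hc
  have hψ : LipschitzWith (K * 1) (fun z => Ψ (ptl s.2 c z)) := hΨ.comp (lip_ptl s.2 c)
  obtain ⟨y', hy', hy1, hy2⟩ := morrey2 hq hψ (h := 1 / 2 ^ s.1.1) (by positivity) hz
  have hys : ptl s.2 c y' ∈ squ v s := ptl_mem_squ.2 hy'
  refine ⟨ptl s.2 c y', ?_, ?_⟩
  · rw [intrinsicFrontier_squ]
    refine ⟨hys, fun hr => ?_⟩
    have h1 := hr.2 (s.2.succAbove 0) (Fin.succAbove_ne _ _)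
    rw [ptl_zero] at h1
    have h2 : v (s.2.succAbove 0) + (s.1.2 (s.2.succAbove 0) + 1 : ℝ) / 2 ^ s.1.1 =
      v (s.2.succAbove 0) + s.1.2 (s.2.succAbove 0) / 2 ^ s.1.1 + 1 / 2 ^ s.1.1 := by ring
    rw [h2] at h1
    rcases hy1 with h3 | h3
    · rw [h3] at h1; exact lt_irrefl _ h1.1
    · rw [h3] at h1; exact lt_irrefl _ h1.2
  · have hconv : Convex ℝ (squ v s) := by
      rw [squ_eq_Icc]; exact convex_Icc _ _
    have e1 : eVariationOn (onSeg φ (ptl s.2 c z, ptl s.2 c y')) (Icc 0 1) =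
        eVariationOn (fun t : ℝ => Ψ (ptl s.2 c (z + t • (y' - z)))) (Icc 0 1) := by
      refine eVariationOn.eq_of_eqOn fun t ht => ?_
      show φ (ptl s.2 c z + t • (ptl s.2 c y' - ptl s.2 c z)) = _
      rw [ptl_line, hE]
      exact hconv.add_smul_sub_mem hx hys ht
    have e2 : ∫⁻ w in rq v s, nD (fun z => Ψ (ptl s.2 c z)) w ^ q ≤
        2 ^ (q - 1) * sInt v s (dS q s.2 φ) := by
      have hm : Measurable fun z => dS q s.2 Ψ (ptl s.2 c z) :=
        (dS_measurable s.2 hΨ.continuous).comp (lip_ptl _ _).continuous.measurable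
      rw [sInt_dS_congr hE, sInt_ptl v s (dS_measurable s.2 hΨ.continuous),
        ← lintegral_const_mul _ hm]
      exact lintegral_mono fun w => nD_pow_le (by linarith) s.2 c Ψ w
    have e3 : len (onSeg φ (ptl s.2 c z, ptl s.2 c y')) (Icc 0 1) ≤
        2 * eVariationOn (onSeg φ (ptl s.2 c z, ptl s.2 c y')) (Icc 0 1) :=
      _root_.P073.Net.len_le_var _ _
    refine e3.trans ?_
    rw [e1]
    have h2 : (2:ℝ≥0∞) = ENNReal.ofReal 2 := by norm_num
    calc 2 * eVariationOn (fun t : ℝ => Ψ (ptl s.2 c (z + t • (y' - z)))) (Icc 0 1)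
        ≤ 2 * (ENNReal.ofReal (CM q * (1 / 2 ^ s.1.1) ^ (1 - 2 / q)) *
            (2 ^ (q - 1) * sInt v s (dS q s.2 φ)) ^ (1 / q)) := by
          gcongr
          exact hy2.trans (mul_le_mul' le_rfl (ENNReal.rpow_le_rpow e2 (by positivity)))
      _ ≤ 2 * (ENNReal.ofReal (CM q * (1 / 2 ^ s.1.1) ^ (1 - 2 / q)) *
            (2 * sInt v s (dS q s.2 φ) ^ (1 / q))) := by
          rw [ENNReal.mul_rpow_of_nonneg _ _ (by positivity : 0 ≤ 1 / q), ← ENNReal.rpow_mul]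
          gcongr
          calc (2:ℝ≥0∞) ^ ((q - 1) * (1 / q)) ≤ 2 ^ (1:ℝ) := by
                refine ENNReal.rpow_le_rpow_of_exponent_le (by norm_num) ?_
                rw [mul_one_div, div_le_one hq0]
                linarith
            _ = 2 := ENNReal.rpow_one _
      _ = ENNReal.ofReal (CS q * (1 / 2 ^ s.1.1) ^ (1 - 2 / q)) *
            sInt v s (dS q s.2 φ) ^ (1 / q) := by
          have h4 : ENNReal.ofReal (CS q * (1 / 2 ^ s.1.1) ^ (1 - 2 / q)) =
              4 * ENNReal.ofReal (CM q * (1 / 2 ^ s.1.1) ^ (1 - 2 / q)) := by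
            unfold CS
            rw [mul_assoc, ENNReal.ofReal_mul (by norm_num : (0:ℝ) ≤ 4)]
            norm_num
          rw [h4]
          ring

end Vale.Agent.P073.H83
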