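import Vale.Agent.P073.AB.FinalA
import Vale.Agent.P073.ConicalStrata2
import Vale.Agent.P073.MathlibUsed

/-!
# P073, block H83, [SOB-CON]: locally Lipschitz maps with finite energy are Sobolev maps
-/

namespace Vale.Agent.P073.H83

open MeasureTheory Set Filter Topology Metric Vale.Agent.P073.St
open Vale.Agent.P073.SQ (ev)
open Vale.Agent.P073.AB (cl)
open _root_.P073 (ConHomeo)
open scoped ContDiff ENNReal NNReal

/-- the matrix of the derivative -/
noncomputable def fdM (g : V → V) (x : V) : Mat := fun i j => fderiv ℝ g x (ev j) i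

theorem cl_fdM (g : V → V) (x : V) : cl (fdM g x) = fderiv ℝ g x := by
  ext w i
  rw [PK.cl_apply]
  have h1 : w = ∑ j, w j • ev j := by
    funext k
    simp [ev, Finset.sum_apply, Pi.single_apply]
  conv_rhs => rw [h1, map_sum, Finset.sum_apply]
  refine Finset.sum_congr rfl fun j _ => ?_
  rw [map_smul, Pi.smul_apply, smul_eq_mul, mul_comm]
  rfl

theorem jac_eq_fdM {g : V → V} {x : V} (h : DifferentiableAt ℝ g x) : jac g x = fdM g x := by
  funext i j
  have h1 : HasDerivAt (fun t : ℝ => Function.update x j t) (Pi.single j 1) (x j) :=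
    hasDerivAt_update x j (x j)
  have h2 : HasFDerivAt g (fderiv ℝ g x) (Function.update x j (x j)) := by
    rw [Function.update_eq_self]
    exact h.hasFDerivAt
  have h3 := h2.comp_hasDerivAt (x j) h1
  exact (hasDerivAt_pi.1 h3 i).deriv

/-- Lipschitz extension from a compact set, equal to the map near the set -/
theorem exists_lip_ext {R K : Set V} (hR : IsOpen R) (hK : IsCompact K) (hKR : K ⊆ R) {u : V → ℝ}
    (hu : ∀ x ∈ R, ∃ δ > 0, ∃ M : ℝ≥0, LipschitzOnWith M u (ball x δ)) :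
    ∃ (U : V → ℝ) (C : ℝ≥0), LipschitzWith C U ∧ ∀ x ∈ K, U =ᶠ[𝓝 x] u := by
  obtain ⟨δ, hδ, hδR⟩ := hK.exists_cthickening_subset_open hR hKR
  have hc : IsCompact (cthickening δ K) := hK.cthickening
  have hl : LocallyLipschitzOn (cthickening δ K) u := by
    intro x hx
    obtain ⟨r, hr, M, hM⟩ := hu x (hδR hx)
    exact ⟨M, ball x r, mem_nhdsWithin_of_mem_nhds (ball_mem_nhds x hr), hM⟩
  obtain ⟨C, hC⟩ := hl.exists_lipschitzOnWith_of_compact hc
  obtain ⟨U, hU, hE⟩ := hC.extend_real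
  refine ⟨U, C, hU, fun x hx => ?_⟩
  have h1 : thickening δ K ∈ 𝓝 x :=
    isOpen_thickening.mem_nhds (self_subset_thickening hδ K hx)
  filter_upwards [h1] with y hy
  exact (hE (thickening_subset_cthickening δ K hy)).symm

/-- integration by parts for a locally Lipschitz function -/
theorem weak_of_locLip {R : Set V} (hR : IsOpen R) {u : V → ℝ}
    (hu : ∀ x ∈ R, ∃ δ > 0, ∃ M : ℝ≥0, LipschitzOnWith M u (ball x δ)) {φ : V → ℝ}
    (hφ : IsTest R φ) (j : Fin 3) :
    int R (fun x => φ x * fderiv ℝ u x (ev j)) = - int R (fun x => pd φ x j * u x) := by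
  obtain ⟨hφ1, hφ2, hφ3⟩ := hφ
  have hφs : ContDiff ℝ ∞ φ := contDiffOn_univ.1 hφ1
  obtain ⟨D, hD⟩ : ∃ D, LipschitzWith D φ :=
    ContDiff.lipschitzWith_of_hasCompactSupport hφ2 hφs (by simp)
  obtain ⟨U, C, hU, hE⟩ := exists_lip_ext hR hφ2 hφ3 hu
  have hmain := LipschitzWith.integral_lineDeriv_mul_eq (μ := (volume : Measure V)) hU hD hφ2 (ev j)
  have hpd : ∀ x, pd φ x j = fderiv ℝ φ x (ev j) := fun x => PK.pd_eq_fderiv hφs x j
  have hz : ∀ x, x ∉ tsupport φ → fderiv ℝ φ x = 0 := fun x hx => by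
    by_contra h
    exact hx (tsupport_fderiv_subset ℝ (subset_closure h))
  have e1 : int R (fun x => φ x * fderiv ℝ u x (ev j)) = ∫ x, lineDeriv ℝ U x (ev j) * φ x := by
    unfold int
    rw [setIntegral_eq_integral_of_forall_compl_eq_zero]
    · refine integral_congr_ae ?_
      filter_upwards [hU.ae_differentiableAt] with x hx
      by_cases h : x ∈ tsupport φ
      · rw [hx.lineDeriv_eq_fderiv, (hE x h).fderiv_eq, mul_comm]
      · rw [image_eq_zero_of_notMem_tsupport h, zero_mul, mul_zero]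
    · intro x hx
      rw [image_eq_zero_of_notMem_tsupport (fun h => hx (hφ3 h)), zero_mul]
  have e2 : int R (fun x => pd φ x j * u x) = ∫ x, fderiv ℝ φ x (ev j) * U x := by
    unfold int
    rw [setIntegral_eq_integral_of_forall_compl_eq_zero]
    · refine integral_congr_ae (Eventually.of_forall fun x => ?_)
      show pd φ x j * u x = fderiv ℝ φ x (ev j) * U x
      rw [hpd]
      by_cases h : x ∈ tsupport φ
      · rw [(hE x h).self_of_nhds]
      · rw [hz x h]; simp
    · intro x hx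
      rw [hpd, hz x (fun h => hx (hφ3 h))]; simp
  rw [e1, e2, hmain, ← integral_neg]
  refine integral_congr_ae (Eventually.of_forall fun x => ?_)
  show lineDeriv ℝ φ x (-ev j) * U x = -(fderiv ℝ φ x (ev j) * U x)
  rw [((hφs.differentiable (by simp)) x).lineDeriv_eq_fderiv, map_neg, neg_mul]

/-- **locally Lipschitz maps with finite energy are Sobolev maps** -/
theorem isSobolev_of_locLip {q : ℝ} (hq : 1 ≤ q) {R : Set V} (hR : IsOpen R) (hv : volume R ≠ ⊤)
    {g : V → V} (hg : ∀ x ∈ R, ∃ δ > 0, ∃ M : ℝ≥0, LipschitzOnWith M g (ball x δ)) {D : ℝ}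
    (hD : ∀ x ∈ R, ‖g x‖ ≤ D) (hE : ∫⁻ x in R, ‖fderiv ℝ g x‖ₑ ^ q ≠ ⊤) :
    IsSobolev q R g (fdM g) := by
  have hq0 : 0 < q := by linarith
  have : IsFiniteMeasure (volume.restrict R) := ⟨by
    rw [Measure.restrict_apply_univ]; exact lt_top_iff_ne_top.2 hv⟩
  have hc : ContinuousOn g R := fun x hx => by
    obtain ⟨δ, hδ, M, hM⟩ := hg x hx
    exact ((hM.continuousOn.continuousAt (ball_mem_nhds x hδ))).continuousWithinAt
  have hev : ∀ j, ‖ev j‖ = 1 := fun j => by unfold ev; rw [Pi.norm_single]; simp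
  have hgi : ∀ i, ∀ x ∈ R, ∃ δ > 0, ∃ M : ℝ≥0, LipschitzOnWith M (fun x => g x i) (ball x δ) := by
    intro i x hx
    obtain ⟨δ, hδ, M, hM⟩ := hg x hx
    refine ⟨δ, hδ, M, LipschitzOnWith.of_dist_le_mul fun y hy z hz => ?_⟩
    exact (dist_le_pi_dist (g y) (g z) i).trans (hM.dist_le_mul y hy z hz)
  refine ⟨fun i => ?_, fun i j => ?_, fun φ hφ i j => ?_⟩
  · refine MemLp.of_bound
      (((continuous_apply i).comp_continuousOn hc).aestronglyMeasurable hR.measurableSet) D ?_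
    filter_upwards [ae_restrict_mem hR.measurableSet] with x hx
    exact (norm_le_pi_norm (g x) i).trans (hD x hx)
  · have hm : Measurable fun x => fdM g x i j :=
      (measurable_pi_apply i).comp (measurable_fderiv_apply_const ℝ g (ev j))
    refine ⟨hm.aestronglyMeasurable, ?_⟩
    rw [eLpNorm_lt_top_iff_lintegral_rpow_enorm_lt_top
      (by rw [Ne, ENNReal.ofReal_eq_zero]; linarith) ENNReal.ofReal_ne_top,
      ENNReal.toReal_ofReal hq0.le]
    refine lt_of_le_of_lt (lintegral_mono fun x => ?_) (lt_top_iff_ne_top.2 hE)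
    refine ENNReal.rpow_le_rpow ?_ hq0.le
    rw [← ofReal_norm, ← ofReal_norm]
    refine ENNReal.ofReal_le_ofReal ?_
    calc ‖fdM g x i j‖ ≤ ‖fderiv ℝ g x (ev j)‖ := norm_le_pi_norm _ i
      _ ≤ ‖fderiv ℝ g x‖ * ‖ev j‖ := ContinuousLinearMap.le_opNorm _ _
      _ = _ := by rw [hev, mul_one]
  · have hw := weak_of_locLip hR (hgi i) hφ j
    rw [← hw]
    unfold int
    -- the map is differentiable almost everywhere in `R`
    obtain ⟨hφ1, hφ2, hφ3⟩ := hφ
    have h1 : ∀ᵐ x : V, x ∈ tsupport φ → DifferentiableAt ℝ g x := by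
      choose U C hU hUE using fun i => exists_lip_ext hR hφ2 hφ3 (hgi i)
      have h2 : ∀ᵐ x : V, ∀ i, DifferentiableAt ℝ (U i) x :=
        ae_all_iff.2 fun i => (hU i).ae_differentiableAt
      filter_upwards [h2] with x hx hxs
      rw [differentiableAt_pi]
      exact fun i => (hx i).congr_of_eventuallyEq (hUE i x hxs).symm
    refine integral_congr_ae (ae_restrict_of_ae ?_)
    filter_upwards [h1] with x hx
    by_cases h : x ∈ tsupport φ
    · show φ x * fdM g x i j = φ x * fderiv ℝ (fun x => g x i) x (ev j)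
      have h3 := (hasFDerivAt_pi'.1 (hx h).hasFDerivAt) i
      have h4 : fderiv ℝ (fun x => g x i) x =
        (ContinuousLinearMap.proj i).comp (fderiv ℝ g x) := h3.fderiv
      rw [h4]
      rfl
    · show φ x * fdM g x i j = φ x * fderiv ℝ (fun x => g x i) x (ev j)
      rw [image_eq_zero_of_notMem_tsupport h, zero_mul, zero_mul]

/-- a conical homeomorphism is differentiable almost everywhere -/
theorem con_ae_diff {Ω Λ : Set V} (hΩ : IsOpen Ω) (H : ConHomeo Ω Λ) :
    ∀ᵐ x ∂(volume : Measure V), x ∈ Ω → DifferentiableAt ℝ H.toFun x := by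
  have hnull := _root_.P073.measure_singular_eq_zero (volume : Measure V) hΩ H.conical H.cont
  rw [measure_eq_zero_iff_ae_notMem] at hnull
  filter_upwards [hnull] with x hx hxΩ
  have htop : _root_.P073.linSpace H.toFun x = ⊤ := by
    by_contra h
    exact hx ⟨hxΩ, h⟩
  have h1 : ContDiffAt ℝ ∞ H.toFun x :=
    _root_.P073.contDiffAt_of_top (H.conical.conicalAt hΩ hxΩ) htop
  exact h1.differentiableAt (by simp)

/-- **[SOB-CON]** conical homeomorphisms of finite energy are Sobolev maps -/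
theorem isSobolev_con {q : ℝ} (hq : 1 ≤ q) {R Λ : Set V} (hR : IsOpen R)
    (hRb : Bornology.IsBounded R) (hΛ : Bornology.IsBounded Λ) (φ : ConHomeo R Λ)
    (hE : ∫⁻ x in R, ‖fderiv ℝ φ.toFun x‖ₑ ^ q ≠ ⊤) :
    IsSobolev q R φ.toFun (fdM φ.toFun) := by
  obtain ⟨D, hD⟩ := hΛ.exists_norm_le
  refine isSobolev_of_locLip hq hR hRb.measure_lt_top.ne (fun x hx => ?_)
    (fun x hx => hD _ (φ.mapsTo hx)) hE
  obtain ⟨δ, hδ, _, M, hM⟩ := _root_.P073.exists_lipschitz_near hR φ.conical φ.cont hx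
  exact ⟨δ, hδ, M, hM⟩

/-- the field may be changed on a null set -/
theorem isSobolev_congr_ae {q : ℝ} {R : Set V} {g : V → V} {G H : V → Mat}
    (h : IsSobolev q R g G) (he : ∀ᵐ x ∂(volume.restrict R), G x = H x) : IsSobolev q R g H := by
  refine ⟨h.1, fun i j => ?_, fun φ hφ i j => ?_⟩
  · refine (memLp_congr_ae ?_).1 (h.2.1 i j)
    filter_upwards [he] with x hx
    rw [hx]
  · rw [← h.2.2 φ hφ i j]
    unfold int
    refine integral_congr_ae ?_
    filter_upwards [he] with x hx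
    rw [hx]

theorem isSobolev_con_jac {q : ℝ} (hq : 1 ≤ q) {R Λ : Set V} (hR : IsOpen R)
    (hRb : Bornology.IsBounded R) (hΛ : Bornology.IsBounded Λ) (φ : ConHomeo R Λ)
    (hE : ∫⁻ x in R, ‖fderiv ℝ φ.toFun x‖ₑ ^ q ≠ ⊤) :
    IsSobolev q R φ.toFun (jac φ.toFun) := by
  refine isSobolev_congr_ae (isSobolev_con hq hR hRb hΛ φ hE) ?_
  filter_upwards [ae_restrict_of_ae (con_ae_diff hR φ), ae_restrict_mem hR.measurableSet]
    with x hx hxR
  exact (jac_eq_fdM (hx hxR)).symm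

/-- finiteness of the energy -/
theorem energy_ne_top {q : ℝ} (hq : 1 ≤ q) {R : Set V} {g : V → V} {F : V → Mat}
    (hm : AEMeasurable (fun x => cl (F x)) (volume.restrict R))
    (h1 : ∫⁻ x in R, ‖fderiv ℝ g x - cl (F x)‖ₑ ^ q ≠ ⊤)
    (h2 : ∫⁻ x in R, ‖cl (F x)‖ₑ ^ q ≠ ⊤) : ∫⁻ x in R, ‖fderiv ℝ g x‖ₑ ^ q ≠ ⊤ := by
  have hq0 : 0 < q := by linarith
  have h3 : ∫⁻ x in R, ‖fderiv ℝ g x‖ₑ ^ q ≤ 2 ^ (q - 1) *
      ((∫⁻ x in R, ‖cl (F x)‖ₑ ^ q) + ∫⁻ x in R, ‖fderiv ℝ g x - cl (F x)‖ₑ ^ q) := by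
    rw [← lintegral_add_left' (hm.enorm.pow_const q),
      ← lintegral_const_mul' _ _ (by finiteness)]
    refine lintegral_mono fun x => ?_
    refine le_trans ?_ (ENNReal.rpow_add_le_mul_rpow_add_rpow _ _ hq)
    refine ENNReal.rpow_le_rpow ?_ hq0.le
    rw [← ofReal_norm, ← ofReal_norm, ← ofReal_norm,
      ← ENNReal.ofReal_add (norm_nonneg _) (norm_nonneg _)]
    refine ENNReal.ofReal_le_ofReal ?_
    calc ‖fderiv ℝ g x‖ = ‖cl (F x) + (fderiv ℝ g x - cl (F x))‖ := by
          rw [add_sub_cancel]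
      _ ≤ _ := norm_add_le _ _
  exact ne_top_of_le_ne_top (by finiteness) h3

end Vale.Agent.P073.H83
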