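import Vale.Agent.P073.H253.R1Spec

/-!
# P073, rank one: smoothing of the density of the reparametrisation ([RP-A])
-/

namespace Vale.Agent.P073.H83

open MeasureTheory Set Filter Topology Metric
open scoped ContDiff ENNReal Convolution

section smooth

variable {ρ : ℝ → ℝ} {a b M τ : ℝ}

/-- hypotheses on a density -/
structure Dens (ρ : ℝ → ℝ) (a b M τ : ℝ) : Prop where
  one : 1 ≤ M
  lt : a < b
  meas : Measurable ρ
  lo : ∀ u, 1 / M ≤ ρ u
  hi : ∀ u, ρ u ≤ M
  off : ∀ u, u ∉ Icc a b → ρ u = 1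
  tot : ∫ u in a..b, ρ u = b - a
  prim : ∀ u ∈ Icc a b, |∫ t in a..u, (ρ t - 1)| ≤ τ

theorem Dens.bd (h : Dens ρ a b M τ) (u : ℝ) : |ρ u| ≤ M := by
  have h0 := h.one
  have h1 : 0 < 1 / M := by positivity
  rw [abs_of_nonneg (h1.le.trans (h.lo u))]
  exact h.hi u

theorem Dens.bd' (h : Dens ρ a b M τ) (u : ℝ) : |ρ u - 1| ≤ M + 1 := by
  have h2 := _root_.abs_le.1 (h.bd u)
  exact _root_.abs_le.2 ⟨by linarith, by linarith⟩

theorem Dens.locInt (h : Dens ρ a b M τ) : LocallyIntegrable ρ volume := by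
  refine (locallyIntegrable_const M).mono h.meas.aestronglyMeasurable
    (Eventually.of_forall fun u => ?_)
  rw [Real.norm_eq_abs, Real.norm_eq_abs]
  exact (h.bd u).trans (le_abs_self _)

theorem Dens.ii₀ (h : Dens ρ a b M τ) (c d : ℝ) : IntervalIntegrable ρ volume c d :=
  ((h.locInt).integrableOn_isCompact isCompact_uIcc).intervalIntegrable

theorem Dens.ii (h : Dens ρ a b M τ) (c d : ℝ) :
    IntervalIntegrable (fun t => ρ t - 1) volume c d :=
  (h.ii₀ c d).sub intervalIntegrable_const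

theorem Dens.prim_abs (h : Dens ρ a b M τ) (u : ℝ) :
    |∫ t in a..u, (ρ t - 1)| ≤ τ ∧ (u ≤ a → ∫ t in a..u, (ρ t - 1) = 0) ∧
      (b ≤ u → ∫ t in a..u, (ρ t - 1) = 0) := by
  have hτ : 0 ≤ τ := by
    have := h.prim a (left_mem_Icc.2 h.lt.le)
    simpa using this
  have h1 : u ≤ a → ∫ t in a..u, (ρ t - 1) = 0 := by
    intro hu
    rw [intervalIntegral.integral_symm, neg_eq_zero,
      intervalIntegral.integral_of_le hu, MeasureTheory.integral_Ioc_eq_integral_Ioo]
    refine setIntegral_eq_zero_of_forall_eq_zero fun t ht => ?_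
    rw [h.off t fun h' => not_lt.2 h'.1 ht.2, sub_self]
  have h2 : b ≤ u → ∫ t in a..u, (ρ t - 1) = 0 := by
    intro hu
    rw [← intervalIntegral.integral_add_adjacent_intervals (h.ii a b) (h.ii b u)]
    have e1 : ∫ t in a..b, (ρ t - 1) = 0 := by
      rw [intervalIntegral.integral_sub (h.ii₀ a b) intervalIntegrable_const, h.tot]
      simp
    have e2 : ∫ t in b..u, (ρ t - 1) = 0 := by
      rw [intervalIntegral.integral_of_le hu]
      refine setIntegral_eq_zero_of_forall_eq_zero fun t ht => ?_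
      rw [h.off t fun h' => not_lt.2 h'.2 ht.1, sub_self]
    rw [e1, e2, add_zero]
  refine ⟨?_, h1, h2⟩
  rcases le_total u a with hu | hu
  · rw [h1 hu]; simpa using hτ
  · rcases le_total u b with hu' | hu'
    · exact h.prim u ⟨hu, hu'⟩
    · rw [h2 hu']; simpa using hτ

/-- the mollified density -/
noncomputable def moll (φ : ContDiffBump (0 : ℝ)) (ρ : ℝ → ℝ) : ℝ → ℝ :=
  (φ.normed volume ⋆[ContinuousLinearMap.lsmul ℝ ℝ, volume] ρ)

theorem moll_eq (φ : ContDiffBump (0 : ℝ)) (ρ : ℝ → ℝ) (u : ℝ) :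
    moll φ ρ u = ∫ t, φ.normed volume t * ρ (u - t) := rfl

theorem int_phi (φ : ContDiffBump (0 : ℝ)) {g : ℝ → ℝ} (hg : Measurable g) {K : ℝ}
    (hK : ∀ t, |g t| ≤ K) : Integrable (fun t => φ.normed volume t * g t) volume := by
  refine ((φ.integrable_normed (μ := volume)).mul_const K).mono'
    ((φ.continuous_normed.measurable.mul hg).aestronglyMeasurable)
    (Eventually.of_forall fun t => ?_)
  rw [Real.norm_eq_abs, abs_mul, abs_of_nonneg (φ.nonneg_normed t)]
  exact mul_le_mul_of_nonneg_left (hK t) (φ.nonneg_normed t)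

theorem phi_zero (φ : ContDiffBump (0 : ℝ)) {t : ℝ} (ht : φ.rOut ≤ |t|) :
    φ.normed (volume : Measure ℝ) t = 0 := by
  by_contra h
  have : t ∈ Function.support (φ.normed (volume : Measure ℝ)) := h
  rw [φ.support_normed_eq, mem_ball, dist_zero_right, Real.norm_eq_abs] at this
  exact not_le.2 this ht

/-- average of a function with values in `[m, K]` on the support -/
theorem avg_mem (φ : ContDiffBump (0 : ℝ)) {g : ℝ → ℝ} (hg : Measurable g) {K m₁ m₂ : ℝ}
    (hK : ∀ t, |g t| ≤ K) (h1 : ∀ t, |t| < φ.rOut → m₁ ≤ g t ∧ g t ≤ m₂) :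
    m₁ ≤ ∫ t, φ.normed volume t * g t ∧ ∫ t, φ.normed volume t * g t ≤ m₂ := by
  have hi := int_phi φ hg hK
  have e : ∀ m : ℝ, ∫ t, φ.normed volume t * m = m := by
    intro m
    rw [integral_mul_const, φ.integral_normed, one_mul]
  constructor
  · rw [← e m₁]
    refine integral_mono (φ.integrable_normed.mul_const _) hi fun t => ?_
    rcases lt_or_ge |t| φ.rOut with ht | ht
    · exact mul_le_mul_of_nonneg_left (h1 t ht).1 (φ.nonneg_normed t)
    · simp only [phi_zero φ ht, zero_mul, le_refl]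
  · rw [← e m₂]
    refine integral_mono hi (φ.integrable_normed.mul_const _) fun t => ?_
    rcases lt_or_ge |t| φ.rOut with ht | ht
    · exact mul_le_mul_of_nonneg_left (h1 t ht).2 (φ.nonneg_normed t)
    · simp only [phi_zero φ ht, zero_mul, le_refl]

theorem Dens.contDiff_moll (h : Dens ρ a b M τ) (φ : ContDiffBump (0 : ℝ)) :
    ContDiff ℝ ∞ (moll φ ρ) :=
  φ.hasCompactSupport_normed.contDiff_convolution_left _ φ.contDiff_normed h.locInt

theorem Dens.moll_mem (h : Dens ρ a b M τ) (φ : ContDiffBump (0 : ℝ)) (u : ℝ) :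
    1 / M ≤ moll φ ρ u ∧ moll φ ρ u ≤ M := by
  rw [moll_eq]
  exact avg_mem φ (h.meas.comp (measurable_const.sub measurable_id)) (fun t => h.bd (u - t))
    fun t _ => ⟨h.lo _, h.hi _⟩

theorem Dens.moll_off (h : Dens ρ a b M τ) (φ : ContDiffBump (0 : ℝ)) {δ : ℝ}
    (hδ : φ.rOut ≤ δ) (u : ℝ) (hu : u ∉ Icc (a - δ) (b + δ)) : moll φ ρ u = 1 := by
  have : ∀ t, |t| < φ.rOut → (1:ℝ) ≤ ρ (u - t) ∧ ρ (u - t) ≤ 1 := by
    intro t ht
    have h1 := _root_.abs_lt.1 (ht.trans_le hδ)
    have : u - t ∉ Icc a b := fun h' => hu ⟨by linarith [h'.1], by linarith [h'.2]⟩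
    rw [h.off _ this]
    exact ⟨le_rfl, le_rfl⟩
  have h2 := avg_mem φ (h.meas.comp (measurable_const.sub measurable_id))
    (fun t => h.bd (u - t)) this
  rw [moll_eq]
  exact le_antisymm h2.2 h2.1

theorem Dens.moll_sub_one (h : Dens ρ a b M τ) (φ : ContDiffBump (0 : ℝ)) (u : ℝ) :
    moll φ ρ u - 1 = ∫ t, φ.normed volume t * (ρ (u - t) - 1) := by
  have e : ∫ t, φ.normed volume t * (1:ℝ) = 1 := by
    rw [integral_mul_const, φ.integral_normed, one_mul]
  rw [moll_eq]
  conv_lhs => rw [← e]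
  have hi : Integrable (fun t => φ.normed volume t * ρ (u - t)) volume :=
    int_phi φ (h.meas.comp (measurable_const.sub measurable_id)) (fun t => h.bd (u - t))
  rw [← integral_sub hi (φ.integrable_normed.mul_const _)]
  refine integral_congr_ae (Eventually.of_forall fun t => ?_)
  show φ.normed volume t * ρ (u - t) - φ.normed volume t * 1 =
    φ.normed volume t * (ρ (u - t) - 1)
  ring

/-- the primitive of the mollified density -/
theorem Dens.prim_moll (h : Dens ρ a b M τ) (φ : ContDiffBump (0 : ℝ)) {c : ℝ}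
    (hc : c ≤ a - φ.rOut) (u : ℝ) :
    ∫ s in c..u, (moll φ ρ s - 1) =
      ∫ t, φ.normed volume t * ∫ s in a..(u - t), (ρ s - 1) := by
  have e1 : ∫ s in c..u, (moll φ ρ s - 1) =
      ∫ t, ∫ s in c..u, φ.normed volume t * (ρ (s - t) - 1) := by
    simp_rw [h.moll_sub_one φ]
    have key : Integrable (Function.uncurry fun s t => φ.normed volume t * (ρ (s - t) - 1))
        ((volume.restrict (uIoc c u)).prod volume) := by
      have hb : Integrable (fun z : ℝ × ℝ => (1:ℝ) * (φ.normed volume z.2 * (M + 1)))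
          ((volume.restrict (uIoc c u)).prod volume) := by
        refine Integrable.mul_prod (f := fun _ : ℝ => (1:ℝ))
          (g := fun t => φ.normed volume t * (M + 1)) ?_ (φ.integrable_normed.mul_const _)
        exact (intervalIntegrable_const (c := (1:ℝ))).def'
      refine hb.mono' ?_ (Eventually.of_forall fun z => ?_)
      · refine Measurable.aestronglyMeasurable ?_
        exact (φ.continuous_normed.measurable.comp measurable_snd).mul
          ((h.meas.comp (measurable_fst.sub measurable_snd)).sub_const _)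
      · simp only [Function.uncurry, one_mul]
        rw [Real.norm_eq_abs, abs_mul, abs_of_nonneg (φ.nonneg_normed _)]
        exact mul_le_mul_of_nonneg_left (h.bd' _) (φ.nonneg_normed _)
    have := integral_integral_swap key
    rcases le_total c u with hcu | hcu
    · rw [intervalIntegral.integral_of_le hcu]
      rw [uIoc_of_le hcu] at this
      rw [this]
      simp_rw [intervalIntegral.integral_of_le hcu]
    · rw [intervalIntegral.integral_of_ge hcu]
      rw [uIoc_of_ge hcu] at this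
      rw [this]
      simp_rw [intervalIntegral.integral_of_ge hcu]
      rw [integral_neg]
  rw [e1]
  refine integral_congr_ae (Eventually.of_forall fun t => ?_)
  show ∫ s in c..u, φ.normed volume t * (ρ (s - t) - 1) = _
  rw [intervalIntegral.integral_const_mul]
  rcases lt_or_ge |t| φ.rOut with ht | ht
  · congr 1
    rw [intervalIntegral.integral_comp_sub_right (fun s => ρ s - 1) t,
      ← intervalIntegral.integral_add_adjacent_intervals (h.ii a (c - t)) (h.ii (c - t) (u - t)),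
      (h.prim_abs (c - t)).2.1 (by linarith [(_root_.abs_lt.1 ht).1]), zero_add]
  · simp only [phi_zero φ ht, zero_mul]

theorem Dens.measurable_prim (h : Dens ρ a b M τ) :
    Measurable fun u => ∫ s in a..u, (ρ s - 1) :=
  (intervalIntegral.continuous_primitive (fun c d => h.ii c d) a).measurable

theorem Dens.abs_prim_moll (h : Dens ρ a b M τ) (φ : ContDiffBump (0 : ℝ)) {δ : ℝ}
    (hδ : φ.rOut ≤ δ) (u : ℝ) : |∫ s in (a - δ)..u, (moll φ ρ s - 1)| ≤ τ := by
  rw [h.prim_moll φ (by linarith) u]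
  have := avg_mem φ (h.measurable_prim.comp (measurable_const.sub measurable_id))
    (fun t => (h.prim_abs (u - t)).1) (m₁ := -τ) (m₂ := τ)
    fun t _ => _root_.abs_le.1 (h.prim_abs (u - t)).1
  exact _root_.abs_le.2 this

theorem Dens.tot_moll (h : Dens ρ a b M τ) (φ : ContDiffBump (0 : ℝ)) {δ : ℝ}
    (hδ : φ.rOut ≤ δ) : ∫ s in (a - δ)..(b + δ), moll φ ρ s = b + δ - (a - δ) := by
  have e := h.prim_moll φ (c := a - δ) (by linarith) (b + δ)
  have : ∀ t, |t| < φ.rOut → (0:ℝ) ≤ (∫ s in a..(b + δ - t), (ρ s - 1)) ∧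
      (∫ s in a..(b + δ - t), (ρ s - 1)) ≤ 0 := by
    intro t ht
    have h1 := _root_.abs_lt.1 (ht.trans_le hδ)
    rw [(h.prim_abs (b + δ - t)).2.2 (by linarith)]
    exact ⟨le_rfl, le_rfl⟩
  have h2 := avg_mem φ (h.measurable_prim.comp (measurable_const.sub measurable_id))
    (fun t => (h.prim_abs (b + δ - t)).1) this
  have h3 : ∫ s in (a - δ)..(b + δ), (moll φ ρ s - 1) = 0 := by
    rw [e]
    exact le_antisymm h2.2 h2.1
  rw [intervalIntegral.integral_sub ((h.contDiff_moll φ).continuous.intervalIntegrable _ _)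
    intervalIntegrable_const] at h3
  simp only [intervalIntegral.integral_const, smul_eq_mul, mul_one] at h3
  linarith

/-- a sequence of bumps -/
noncomputable def bmp (δ : ℝ) (hδ : 0 < δ) (n : ℕ) : ContDiffBump (0 : ℝ) where
  rIn := δ / (2 * (n + 1))
  rOut := δ / (n + 1)
  rIn_pos := by positivity
  rIn_lt_rOut := by
    apply div_lt_div_of_pos_left hδ (by positivity)
    have : (0:ℝ) < n + 1 := by positivity
    linarith

/-- **smoothing of a density** -/
theorem Dens.exists_smooth {E : Type*} [NormedAddCommGroup E] [NormedSpace ℝ E]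
    (h : Dens ρ a b M τ) {p ε : ℝ} {w : E} {G : ℝ → E} (hp : 0 < p) (hε : 0 < ε)
    (hG : ContinuousOn G (Icc a b))
    (hl : ∫⁻ u in Icc a b, ENNReal.ofReal (‖(ρ u)⁻¹ • G u - w‖ ^ p * ρ u) ≤ ENNReal.ofReal ε)
    {δ : ℝ} (hδ : 0 < δ) :
    ∃ φ : ContDiffBump (0 : ℝ), φ.rOut ≤ δ ∧
      ∫⁻ u in Icc a b, ENNReal.ofReal (‖(moll φ ρ u)⁻¹ • G u - w‖ ^ p * moll φ ρ u) ≤
        ENNReal.ofReal (2 * ε) := by
  have hM := h.one
  have hM0 : (0:ℝ) < M := by linarith
  obtain ⟨K, hK⟩ : ∃ K, ∀ u ∈ Icc a b, ‖G u‖ ≤ K := isCompact_Icc.exists_bound_of_continuousOn hG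
  have hK0 : 0 ≤ K := (norm_nonneg _).trans (hK a (left_mem_Icc.2 h.lt.le))
  have hconv : ∀ᵐ u ∂(volume : Measure ℝ),
      Tendsto (fun n => moll (bmp δ hδ n) ρ u) atTop (𝓝 (ρ u)) := by
    refine ContDiffBump.ae_convolution_tendsto_right_of_locallyIntegrable (K := 2) ?_ ?_ h.locInt
    · show Tendsto (fun n : ℕ => δ / ((n:ℝ) + 1)) atTop (𝓝 0)
      have := tendsto_one_div_add_atTop_nhds_zero_nat (𝕜 := ℝ)
      have h2 := this.const_mul δ
      rw [mul_zero] at h2
      refine h2.congr fun n => ?_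
      ring
    · refine Eventually.of_forall fun n => ?_
      show δ / ((n:ℝ) + 1) ≤ 2 * (δ / (2 * (n + 1)))
      have : (0:ℝ) < n + 1 := by positivity
      apply le_of_eq
      field_simp
  have hlim : Tendsto (fun n => ∫⁻ u in Icc a b,
      ENNReal.ofReal (‖(moll (bmp δ hδ n) ρ u)⁻¹ • G u - w‖ ^ p * moll (bmp δ hδ n) ρ u)) atTop
      (𝓝 (∫⁻ u in Icc a b, ENNReal.ofReal (‖(ρ u)⁻¹ • G u - w‖ ^ p * ρ u))) := by
    refine tendsto_lintegral_of_dominated_convergence'
      (fun _ => ENNReal.ofReal ((M * K + ‖w‖) ^ p * M)) ?_ ?_ ?_ ?_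
    · intro n
      refine ENNReal.measurable_ofReal.comp_aemeasurable ?_
      have hc : Continuous (moll (bmp δ hδ n) ρ) := (h.contDiff_moll _).continuous
      refine ContinuousOn.aemeasurable ?_ measurableSet_Icc
      refine ContinuousOn.mul ?_ hc.continuousOn
      refine ContinuousOn.rpow_const ?_ fun _ _ => Or.inr hp.le
      refine (((hc.continuousOn.inv₀ fun u _ => ?_).smul hG).sub continuousOn_const).norm
      have h1 := (h.moll_mem (bmp δ hδ n) u).1
      exact (lt_of_lt_of_le (by positivity) h1 : 0 < moll (bmp δ hδ n) ρ u).ne'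
    · intro n
      refine (ae_restrict_iff' measurableSet_Icc).2 (Eventually.of_forall fun u hu => ?_)
      refine ENNReal.ofReal_le_ofReal ?_
      obtain ⟨h1, h2⟩ := h.moll_mem (bmp δ hδ n) u
      have h0 : 0 < moll (bmp δ hδ n) ρ u := lt_of_lt_of_le (by positivity) h1
      have h3 : (moll (bmp δ hδ n) ρ u)⁻¹ ≤ M := by
        rw [inv_le_comm₀ h0 hM0, ← one_div]
        exact h1
      have h4 : ‖(moll (bmp δ hδ n) ρ u)⁻¹ • G u - w‖ ≤ M * K + ‖w‖ := by
        refine (norm_sub_le _ _).trans (add_le_add_left ?_ _)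
        rw [norm_smul, Real.norm_eq_abs, abs_of_pos (inv_pos.2 h0)]
        exact mul_le_mul h3 (hK u hu) (norm_nonneg _) hM0.le
      exact mul_le_mul (Real.rpow_le_rpow (norm_nonneg _) h4 hp.le) h2 h0.le (by positivity)
    · rw [lintegral_const, Measure.restrict_apply_univ, Real.volume_Icc]
      exact ENNReal.mul_ne_top ENNReal.ofReal_ne_top ENNReal.ofReal_ne_top
    · refine ae_restrict_of_ae ?_
      filter_upwards [hconv] with u hu
      have h1 := h.lo u
      have h0 : 0 < ρ u := lt_of_lt_of_le (by positivity) h1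
      refine (ENNReal.continuous_ofReal.tendsto _).comp ?_
      refine Tendsto.mul ?_ hu
      refine Tendsto.rpow_const ?_ (Or.inr hp.le)
      exact (((hu.inv₀ h0.ne').smul_const _).sub_const _).norm
  have h5 : ∫⁻ u in Icc a b, ENNReal.ofReal (‖(ρ u)⁻¹ • G u - w‖ ^ p * ρ u) <
      ENNReal.ofReal (2 * ε) :=
    lt_of_le_of_lt hl ((ENNReal.ofReal_lt_ofReal_iff (by positivity)).2 (by linarith))
  obtain ⟨n, hn⟩ := (hlim.eventually (gt_mem_nhds h5)).exists
  refine ⟨bmp δ hδ n, ?_, hn.le⟩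
  show δ / ((n:ℝ) + 1) ≤ δ
  apply div_le_self hδ.le
  have : (0:ℝ) ≤ n := Nat.cast_nonneg n
  linarith

/-- **[RP-A]** -/
theorem specRPA : H253.SpecRPA := by
  intro p ε M τ a b w G hp hM hab hε hG hl δ hδ
  obtain ⟨ρ, h1, h2, h3, h4, h5, h6⟩ := hl
  have h : Dens ρ a b M τ := ⟨hM, hab, h1, fun u => (h2 u).1, fun u => (h2 u).2, h3, h4, h5⟩
  obtain ⟨φ, hφ, h7⟩ := h.exists_smooth (by linarith : 0 < p) hε hG h6 hδ
  exact ⟨moll φ ρ, h.contDiff_moll φ, h.moll_mem φ, h.moll_off φ hφ, h.tot_moll φ hφ,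
    h.abs_prim_moll φ hφ, h7⟩

end smooth

end Vale.Agent.P073.H83
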