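import Vale.Agent.P073.H239.FSpec

/-!
# P073, block B10: `SpecRectQ`
-/

namespace Vale.Agent.P073.H83

open MeasureTheory Set Filter Topology Metric Vale.Agent.P073.St Vale.Agent.P073.AB
open Vale.Agent.P073.H235 (Bx fl Co rect)
open Vale.Agent.P073.H194 (Rg)

/-- **[RECT-Q]** -/
theorem specRectQ : H239.SpecRectQ := by
  intro ν θ v m B hν hν1 hθ hm1 hm2 hB
  have hp : (0:ℝ) < 2 ^ m := by positivity
  have hpν : 16 ≤ ν * 2 ^ m := by
    have := hm1
    rw [div_le_iff₀ hp] at this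
    linarith
  set L : ℤ := ⌈(1 - ν / 4) * 2 ^ m⌉ + 1 with hL
  have hL1 : (1 - ν / 4) * 2 ^ m + 1 ≤ (L : ℝ) := by
    have := Int.le_ceil ((1 - ν / 4) * 2 ^ m)
    rw [hL]
    push_cast
    linarith
  have hL2 : (L : ℝ) < (1 - ν / 4) * 2 ^ m + 2 := by
    have := Int.ceil_lt_add_one ((1 - ν / 4) * 2 ^ m)
    rw [hL]
    push_cast
    linarith
  have hL0 : 0 < L := by
    have : (0:ℝ) < L := by nlinarith
    exact_mod_cast this
  have hLm : L ≤ 2 ^ m := by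
    have : (L : ℝ) ≤ 2 ^ m := by nlinarith
    exact_mod_cast this
  have hLm2 : (2:ℤ) ^ m ≤ 2 * L := by
    have : (2:ℝ) ^ m ≤ 2 * L := by nlinarith
    exact_mod_cast this
  set a : Fin 3 → ℤ := fun j => ⌊(ν / 8 - v j) * 2 ^ m⌋ with ha
  have ha1 : ∀ j, (a j : ℝ) / 2 ^ m ≤ ν / 8 - v j := by
    intro j
    rw [div_le_iff₀ hp]
    exact Int.floor_le _
  have ha2 : ∀ j, ν / 8 - v j < ((a j : ℝ) + 1) / 2 ^ m := by
    intro j
    rw [lt_div_iff₀ hp]
    exact Int.lt_floor_add_one _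
  obtain ⟨α, e2, ej⟩ : ∃ α : Fin 3 → ℤ, α 2 = B ∧ ∀ j, j ≠ 2 → α j = a j :=
    ⟨Function.update a 2 B, Function.update_self .., fun j hj => Function.update_of_ne hj ..⟩
  have h0 : (0 : Fin 3) ≠ 2 := by decide
  have h1 : (1 : Fin 3) ≠ 2 := by decide
  -- the sides
  have hlo : ∀ j, 0 < v j + (a j : ℝ) / 2 ^ m := by
    intro j
    have h := ha2 j
    rw [add_div] at h
    linarith
  have hhi : ∀ j, v j + ((a j + L : ℤ) : ℝ) / 2 ^ m < 1 := by
    intro j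
    have h3 : (L : ℝ) / 2 ^ m < 1 - ν / 4 + 2 * (1 / 2 ^ m) := by
      rw [div_lt_iff₀ hp]
      have : (1 - ν / 4 + 2 * (1 / 2 ^ m)) * 2 ^ m = (1 - ν / 4) * 2 ^ m + 2 := by
        field_simp
      rw [this]
      exact hL2
    have h4 := ha1 j
    push_cast
    rw [add_div]
    linarith
  have hco : ∀ j, 1 - ν / 8 ≤ v j + ((a j + L : ℤ) : ℝ) / 2 ^ m := by
    intro j
    have h3 : 1 - ν / 4 + 1 / 2 ^ m ≤ (L : ℝ) / 2 ^ m := by
      rw [le_div_iff₀ hp]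
      have : (1 - ν / 4 + 1 / 2 ^ m) * 2 ^ m = (1 - ν / 4) * 2 ^ m + 1 := by
        field_simp
      rw [this]
      exact hL1
    have h4 := ha2 j
    rw [add_div] at h4
    push_cast
    rw [add_div]
    linarith
  refine ⟨α, fun j => α j + L, e2, by show α 0 < α 0 + L; omega, by
    show α 1 + L - α 1 = α 0 + L - α 0; ring, ⟨by show α 0 + L - α 0 ≤ 2 ^ m; linarith, by
    show (2:ℤ) ^ m ≤ 2 * (α 0 + L - α 0); linarith⟩, fun x hx => ?_, ?_, fun x hx j hj => ?_⟩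
  · obtain ⟨hx2, hx⟩ := hx
    rw [e2] at hx2
    have hj : ∀ j, j ≠ 2 → 0 < x j ∧ x j < 1 := by
      intro j hj
      have h5 : v j + (α j : ℝ) / 2 ^ m ≤ x j ∧ x j ≤ v j + ((α j + L : ℤ) : ℝ) / 2 ^ m :=
        hx j hj
      rw [ej j hj] at h5
      exact ⟨(hlo j).trans_le h5.1, h5.2.trans_lt (hhi j)⟩
    intro i
    fin_cases i
    · exact hj 0 h0
    · exact hj 1 h1
    · show 0 < x 2 ∧ x 2 < 2 * θ
      rw [hx2]
      rw [_root_.abs_le] at hB
      constructor <;> linarith [hB.1, hB.2]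
  · rw [rect, Fintype.card_piFinset, Fin.prod_univ_three]
    rw [if_neg h0, if_neg h1, if_pos rfl, Finset.card_singleton, mul_one, Int.card_Ico,
      Int.card_Ico]
    have hc : ∀ z : ℤ, (z + L - z).toNat ≤ 2 ^ m := by
      intro z
      rw [add_sub_cancel_left, Int.toNat_le]
      push_cast
      exact hLm
    calc _ ≤ 2 ^ m * 2 ^ m := Nat.mul_le_mul (hc _) (hc _)
      _ = 4 ^ m := by rw [← mul_pow]; norm_num
  · show v j + (α j : ℝ) / 2 ^ m ≤ x j ∧ x j ≤ v j + ((α j + L : ℤ) : ℝ) / 2 ^ m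
    rw [ej j hj]
    have h5 := hx.2 j (by fin_cases j <;> simp_all)
    rw [Pi.one_apply, mul_one, mul_one] at h5
    constructor
    · linarith [h5.1, ha1 j]
    · linarith [h5.2, hco j]

end Vale.Agent.P073.H83
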