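import Vale.Agent.P073.H83.Grid2

/-!
# P073, block A15-GRID: the boxes fill the protected boxes of the good cells
-/

namespace Vale.Agent.P073.H83

open MeasureTheory Set Filter Topology Metric Vale.Agent.P073.St Vale.Agent.P073.AB
open Vale.Agent.P073.SQ (ev)
open Vale.Agent.P073.AB.P86
open _root_.P073.Net (dyc dyo IsTile SizeFn Adm)
open scoped ENNReal

variable {w v : V} {θ M κ : ℝ} {m₁ n k mt m' : ℕ} {Ω Λ : Set V} {f : V → V}
  {J : Finset (Fin 3 → ℤ)} {A : (Fin 3 → ℤ) → V → V} {L : (Fin 3 → ℤ) → V →L[ℝ] V}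

theorem mem_ball_of_dyc {v : V} {n : ℕ} {z : Fin 3 → ℤ} {x : V} (hx : x ∈ dyc v n z) :
    x ∈ closedBall (cen v n z) (1 / 2 * (1 / 2 ^ n)) := by
  have hp : (0:ℝ) < 1 / 2 ^ n := by positivity
  rw [mem_closedBall, dist_eq_norm, pi_norm_le_iff_of_nonneg (by positivity)]
  intro i
  rw [Pi.sub_apply, Real.norm_eq_abs, abs_le]
  have e1 : cen v n z i = v i + (z i + 1 / 2) / 2 ^ n := rfl
  have e2 : (z i + 1 / 2 : ℝ) / 2 ^ n = z i / 2 ^ n + 1 / 2 * (1 / 2 ^ n) := by ring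
  have e3 : (z i + 1 : ℝ) / 2 ^ n = z i / 2 ^ n + 1 / 2 ^ n := by ring
  have h := hx i
  rw [e1, e2]
  rw [e3] at h
  constructor <;> linarith [h.1, h.2]

/-- the slab of a coordinate -/
theorem volume_coord_le (v : V) (n : ℕ) (z : Fin 3 → ℤ) (i : Fin 3) {α β : ℝ} (hαβ : α ≤ β) :
    volume {x | x ∈ dyc v n z ∧ α ≤ x i ∧ x i ≤ β} ≤
      ENNReal.ofReal ((β - α) * (1 / 2 ^ n) ^ 2) := by
  have h1 := volume_slab_le (ContinuousLinearMap.proj (R := ℝ) (φ := fun _ : Fin 3 => ℝ) i)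
    (k := i) (c := 1) one_pos (by simp [ev]) (cen v n z) (r := 1 / 2 * (1 / 2 ^ n))
    (by positivity) hαβ
  refine (measure_mono ?_).trans (h1.trans (le_of_eq (congrArg _ ?_)))
  · rintro x ⟨hx, h2, h3⟩
    exact ⟨mem_ball_of_dyc hx, h2, h3⟩
  · rw [div_one]; ring

/-- the volume between two shrunk cubes -/
theorem volume_shrink_le (v : V) (n : ℕ) (z : Fin 3 → ℤ) {δ r : ℝ} (hδ : 0 ≤ δ) (hr : 0 ≤ r) :
    volume (shrink v n z δ \ shrink v n z (δ + r)) ≤
      ENNReal.ofReal (6 * (r * (1 / 2 ^ n) ^ 2)) := by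
  set lo : Fin 3 → ℝ := fun i => v i + z i / 2 ^ n with hlo
  set hi : Fin 3 → ℝ := fun i => v i + (z i + 1) / 2 ^ n with hhi
  have hcov : shrink v n z δ \ shrink v n z (δ + r) ⊆ ⋃ i ∈ (Finset.univ : Finset (Fin 3)),
      ({x | x ∈ dyc v n z ∧ lo i + δ ≤ x i ∧ x i ≤ lo i + δ + r} ∪
        {x | x ∈ dyc v n z ∧ hi i - δ - r ≤ x i ∧ x i ≤ hi i - δ}) := by
    rintro x ⟨hx, hx'⟩
    have hxd : x ∈ dyc v n z := fun i => by
      have := hx i
      constructor <;> linarith [this.1, this.2]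
    have h3 : ∃ i, x i < lo i + (δ + r) ∨ hi i - (δ + r) < x i := by
      by_contra hcon
      push Not at hcon
      exact hx' fun i => ⟨(hcon i).1, (hcon i).2⟩
    obtain ⟨i, hi'⟩ := h3
    refine mem_biUnion (Finset.mem_coe.2 (Finset.mem_univ i)) ?_
    have h4 := hx i
    rcases hi' with h | h
    · left; exact ⟨hxd, h4.1, by linarith⟩
    · right; exact ⟨hxd, by linarith, h4.2⟩
  refine (measure_mono hcov).trans ((measure_biUnion_finset_le _ _).trans ?_)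
  have h1 : ∀ i ∈ (Finset.univ : Finset (Fin 3)),
      volume ({x | x ∈ dyc v n z ∧ lo i + δ ≤ x i ∧ x i ≤ lo i + δ + r} ∪
        {x | x ∈ dyc v n z ∧ hi i - δ - r ≤ x i ∧ x i ≤ hi i - δ}) ≤
        2 * ENNReal.ofReal (r * (1 / 2 ^ n) ^ 2) := by
    intro i _
    rw [two_mul]
    refine (measure_union_le _ _).trans (add_le_add ?_ ?_)
    · have := volume_coord_le v n z i (α := lo i + δ) (β := lo i + δ + r) (by linarith)
      rwa [add_sub_cancel_left] at this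
    · have := volume_coord_le v n z i (α := hi i - δ - r) (β := hi i - δ) (by linarith)
      rwa [sub_sub_cancel] at this
  refine (Finset.sum_le_sum h1).trans (le_of_eq ?_)
  rw [Finset.sum_const, Finset.card_univ, Fintype.card_fin, nsmul_eq_mul,
    ENNReal.ofReal_mul (p := 6) (by norm_num), ← mul_assoc]
  congr 1
  norm_num

/-- the deep points are in the boxes -/
theorem fam_of_deep (H : CellsG θ M κ m₁ n k Ω Λ f v J A L) {z : Fin 3 → ℤ} (hz : z ∈ J) {x : V}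
    (hx : x ∈ shrink v n z (2 / 2 ^ (n + k) + 4 / (θ * 2 ^ m₁))) {d : Fin 3 → ℤ}
    (hd : A z x ∈ dyc w m₁ d) : (z, d) ∈ Fam w v n k m₁ J A := by
  refine ⟨hz, ?_⟩
  rintro y ⟨y', hy', hyy⟩
  obtain ⟨u, rfl⟩ := H.surjective hz y
  refine ⟨u, ?_, rfl⟩
  have h1 := P073.Net.NC.dist_le hy' hd
  have h2 : ‖A z u - A z x‖ ≤ 4 / 2 ^ m₁ := by
    have : A z u - A z x = (A z u - y') + (y' - A z x) := by abel
    rw [this]
    refine (norm_add_le _ _).trans ?_
    have e : (4:ℝ) / 2 ^ m₁ = 3 / 2 ^ m₁ + 1 / 2 ^ m₁ := by ring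
    rw [e]
    exact add_le_add hyy h1
  have h3 : ‖u - x‖ ≤ 4 / (θ * 2 ^ m₁) := by
    have h4 := (H.le_dist hz u x).trans h2
    have h5 : (4:ℝ) / (θ * 2 ^ m₁) = 4 / 2 ^ m₁ / θ := by rw [div_div, mul_comm]
    rw [h5, le_div_iff₀ H.θ0, mul_comm]
    exact h4
  intro i
  have h4 := hx i
  have h5 := norm_le_pi_norm (u - x) i
  rw [Pi.sub_apply, Real.norm_eq_abs] at h5
  have h6 := abs_le.1 (h5.trans h3)
  constructor <;> linarith [h4.1, h4.2, h6.1, h6.2]

/-- the volume of preimages -/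
theorem exists_vol (H : CellsG θ M κ m₁ n k Ω Λ f v J A L) {z : Fin 3 → ℤ} (hz : z ∈ J) :
    ∃ c : ℝ≥0∞, ∀ S : Set V, volume (A z ⁻¹' S) = c * volume S := by
  obtain ⟨N, hN1, hN2⟩ := H.exists_inv hz
  have hdet : LinearMap.det (L z : V →ₗ[ℝ] V) ≠ 0 := by
    intro h0
    have h1 : LinearMap.det ((L z : V →ₗ[ℝ] V) ∘ₗ (N : V →ₗ[ℝ] V)) = 1 := by
      have : (L z : V →ₗ[ℝ] V) ∘ₗ (N : V →ₗ[ℝ] V) = LinearMap.id :=
        LinearMap.ext fun y => hN1 y
      rw [this, LinearMap.det_id]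
    rw [LinearMap.det_comp, h0, zero_mul] at h1
    exact zero_ne_one h1
  refine ⟨ENNReal.ofReal |(LinearMap.det (L z : V →ₗ[ℝ] V))⁻¹|, fun S => ?_⟩
  have h1 : A z ⁻¹' S = (L z : V →ₗ[ℝ] V) ⁻¹' ((fun y => A z 0 + y) ⁻¹' S) := by
    ext x
    have h3 := H.eq_add hz 0 x
    rw [zero_add] at h3
    simp only [mem_preimage, ContinuousLinearMap.coe_coe, h3]
  rw [h1, Measure.addHaar_preimage_linearMap _ hdet, measure_preimage_add]

theorem volume_dyo_eq (w : V) (m : ℕ) (d : Fin 3 → ℤ) :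
    volume (dyo w m d) = ENNReal.ofReal ((1 / 2 ^ m) ^ 3) := by
  have h1 : dyo w m d = univ.pi fun i => Ioo (w i + d i / 2 ^ m) (w i + (d i + 1) / 2 ^ m) := by
    ext x; simp [dyo]
  have h2 : ∀ i, w i + (d i + 1) / 2 ^ m - (w i + (d i : ℝ) / 2 ^ m) = 1 / 2 ^ m := by
    intro i; rw [div_add_one]; ring
  rw [h1, Real.volume_pi_Ioo]
  simp only [h2]
  rw [Finset.prod_const, Finset.card_univ, Fintype.card_fin, ENNReal.ofReal_pow (by positivity)]

/-- **FILL** -/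
theorem volume_fill_le (H : CellsG θ M κ m₁ n k Ω Λ f v J A L) (w : V) {z : Fin 3 → ℤ}
    (hz : z ∈ J) {t : ℝ} (ht : 0 ≤ t) :
    volume (boxR v n k z \ ⋃ d ∈ {d | (z, d) ∈ Fam w v n k m₁ J A}, A z ⁻¹' shrink w m₁ d t) ≤
      ENNReal.ofReal (24 / (θ * 2 ^ m₁) * (1 / 2 ^ n) ^ 2) +
        ENNReal.ofReal (6 * t * 2 ^ m₁ * (1 / 2 ^ n) ^ 3) := by
  classical
  have hθ := H.θ0
  set D : Set (Fin 3 → ℤ) := {d | (z, d) ∈ Fam w v n k m₁ J A} with hD
  have hDfin : D.Finite := (finite_Fam H w).preimage (fun a _ b _ h => (Prod.ext_iff.1 h).2)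
  set DF := hDfin.toFinset with hDF
  have hcov : boxR v n k z \ ⋃ d ∈ D, A z ⁻¹' shrink w m₁ d t ⊆
      (shrink v n z (2 / 2 ^ (n + k)) \ shrink v n z (2 / 2 ^ (n + k) + 4 / (θ * 2 ^ m₁))) ∪
      ⋃ d ∈ DF, A z ⁻¹' (shrink w m₁ d 0 \ shrink w m₁ d (0 + t)) := by
    rintro x ⟨hx, hx'⟩
    by_cases hxs : x ∈ shrink v n z (2 / 2 ^ (n + k) + 4 / (θ * 2 ^ m₁))
    · right
      obtain ⟨d, hd⟩ := P073.Net.NC.exists_mem w m₁ (A z x)
      have hdD : d ∈ D := fam_of_deep H hz hxs hd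
      refine mem_biUnion (x := d) (by rw [hDF, Set.Finite.coe_toFinset]; exact hdD) ⟨?_, ?_⟩
      · intro i
        have := hd i
        constructor <;> linarith [this.1, this.2]
      · rw [zero_add]
        intro hcon
        exact hx' (mem_biUnion hdD hcon)
    · exact Or.inl ⟨hx, hxs⟩
  obtain ⟨c, hc⟩ := exists_vol H hz
  refine (measure_mono hcov).trans ((measure_union_le _ _).trans (add_le_add ?_ ?_))
  · refine (volume_shrink_le v n z (by positivity) (by positivity)).trans (le_of_eq ?_)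
    congr 1
    ring
  · have h1 : ∀ d ∈ DF, volume (A z ⁻¹' (shrink w m₁ d 0 \ shrink w m₁ d (0 + t))) ≤
        ENNReal.ofReal (6 * t * 2 ^ m₁) * volume (A z ⁻¹' dyo w m₁ d) := by
      intro d _
      rw [hc, hc, volume_dyo_eq]
      have h2 := volume_shrink_le w m₁ d (le_refl (0:ℝ)) ht
      calc c * volume (shrink w m₁ d 0 \ shrink w m₁ d (0 + t))
          ≤ c * ENNReal.ofReal (6 * (t * (1 / 2 ^ m₁) ^ 2)) := by gcongr
        _ = c * (ENNReal.ofReal (6 * t * 2 ^ m₁) * ENNReal.ofReal ((1 / 2 ^ m₁) ^ 3)) := by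
            rw [← ENNReal.ofReal_mul (by positivity)]
            congr 2
            field_simp
        _ = _ := by ring
    have hdisj : (DF : Set (Fin 3 → ℤ)).PairwiseDisjoint fun d => A z ⁻¹' dyo w m₁ d := by
      intro d _ d' _ hne
      refine Disjoint.preimage _ (Set.disjoint_left.2 fun y hy hy' => hne ?_)
      have h3 : (0:ℝ) < 2 ^ m₁ := by positivity
      funext i
      have h4 := hy i
      have h5 := hy' i
      have h6 : (d i : ℝ) / 2 ^ m₁ < ((d' i : ℝ) + 1) / 2 ^ m₁ := by linarith [h4.1, h5.2]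
      have h7 : (d' i : ℝ) / 2 ^ m₁ < ((d i : ℝ) + 1) / 2 ^ m₁ := by linarith [h5.1, h4.2]
      have h8 : (d i : ℝ) < d' i + 1 := (div_lt_div_iff_of_pos_right h3).1 h6
      have h9 : (d' i : ℝ) < d i + 1 := (div_lt_div_iff_of_pos_right h3).1 h7
      have h8' : d i < d' i + 1 := by exact_mod_cast h8
      have h9' : d' i < d i + 1 := by exact_mod_cast h9
      omega
    have hsub : (⋃ d ∈ DF, A z ⁻¹' dyo w m₁ d) ⊆ dyc v n z := by
      refine iUnion₂_subset fun d hd => ?_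
      rw [hDF, Set.Finite.mem_toFinset] at hd
      intro x hx
      obtain ⟨u, hu, hux⟩ := Fam_sub hd (dyo_sub_dyc hx)
      have : u = x := H.injective hz hux
      subst this
      exact CellsG.boxR_sub_dyc v n k z hu
    have hvd : volume (dyc v n z) = ENNReal.ofReal ((1 / 2 ^ n) ^ 3) := by
      rw [dyc_eq_Icc, Real.volume_Icc_pi]
      have h2 : ∀ i, v i + (z i + 1) / 2 ^ n - (v i + (z i : ℝ) / 2 ^ n) = 1 / 2 ^ n := by
        intro i; rw [div_add_one]; ring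
      simp only [h2]
      rw [Finset.prod_const, Finset.card_univ, Fintype.card_fin,
        ENNReal.ofReal_pow (by positivity)]
    calc volume (⋃ d ∈ DF, A z ⁻¹' (shrink w m₁ d 0 \ shrink w m₁ d (0 + t)))
        ≤ ∑ d ∈ DF, volume (A z ⁻¹' (shrink w m₁ d 0 \ shrink w m₁ d (0 + t))) :=
          measure_biUnion_finset_le _ _
      _ ≤ ∑ d ∈ DF, ENNReal.ofReal (6 * t * 2 ^ m₁) * volume (A z ⁻¹' dyo w m₁ d) :=
          Finset.sum_le_sum h1
      _ = ENNReal.ofReal (6 * t * 2 ^ m₁) * volume (⋃ d ∈ DF, A z ⁻¹' dyo w m₁ d) := by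
          rw [← Finset.mul_sum, measure_biUnion_finset hdisj fun d _ =>
            ((isOpen_dyo' w m₁ d).preimage (H.continuous hz)).measurableSet]
      _ ≤ ENNReal.ofReal (6 * t * 2 ^ m₁) * volume (dyc v n z) := by gcongr
      _ = _ := by
          rw [hvd, ← ENNReal.ofReal_mul (by positivity)]

end Vale.Agent.P073.H83
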