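import Vale.Agent.P073.H471.Avg

/-!
# P073, block A15-GRID: centres which are good for finitely many measures, off a set of relative
volume at most one half
-/

open Set Metric Topology Filter MeasureTheory
open scoped ENNReal NNReal

namespace Vale.Agent.P073.H83

open Vale.Agent.P073.H471 (wt Cw measurable_wt lintegral_wt_le)

/-- the average of the weight over the centres -/
theorem lintegral_center_le {p s : ℝ} {X : Type*} [MeasurableSpace X] (ν : Measure X)
    [SFinite ν] {f : X → Fin 3 → ℝ} (hf : AEMeasurable f ν) (a : Fin 3 → ℝ) (hs : 0 < s) :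
    ∃ I : (Fin 3 → ℝ) → ℝ≥0∞, Measurable I ∧
      (∀ c, ∫⁻ x in f ⁻¹' closedBall a s, wt p s (f x - c) ∂ν = I c) ∧
      ∫⁻ c in closedBall a (s / 2), I c ≤
        Cw p * ν (f ⁻¹' closedBall a s) * volume (closedBall a (s / 2)) := by
  set B := closedBall a s with hB
  set A := closedBall a (s / 2) with hA
  set g := hf.mk f with hg
  have hgm : Measurable g := hf.measurable_mk
  have hfg : f =ᵐ[ν] g := hf.ae_eq_mk
  have hBm : MeasurableSet B := isClosed_closedBall.measurableSet
  have hpre : f ⁻¹' B =ᵐ[ν] g ⁻¹' B := by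
    filter_upwards [hfg] with x hx
    show (f x ∈ B) = (g x ∈ B)
    rw [hx]
  have hset : ν (f ⁻¹' B) = ν (g ⁻¹' B) := measure_congr hpre
  have hjoint : Measurable (fun q : (Fin 3 → ℝ) × X => wt p s (g q.2 - q.1)) :=
    (measurable_wt p s).comp ((hgm.comp measurable_snd).sub measurable_fst)
  refine ⟨fun c => ∫⁻ x in g ⁻¹' B, wt p s (g x - c) ∂ν, hjoint.lintegral_prod_right', ?_, ?_⟩
  · intro c
    rw [Measure.restrict_congr_set hpre]
    refine lintegral_congr_ae (ae_restrict_of_ae ?_)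
    filter_upwards [hfg] with x hx
    rw [hx]
  · have hsw : ∫⁻ c in A, ∫⁻ x in g ⁻¹' B, wt p s (g x - c) ∂ν =
        ∫⁻ x in g ⁻¹' B, (∫⁻ c in A, wt p s (g x - c)) ∂ν :=
      lintegral_lintegral_swap hjoint.aemeasurable
    rw [hsw, hset]
    calc ∫⁻ x in g ⁻¹' B, (∫⁻ c in A, wt p s (g x - c)) ∂ν
        ≤ ∫⁻ x in g ⁻¹' B, Cw p * volume A ∂ν := by
          refine setLIntegral_mono' (hgm hBm) fun x hx => ?_
          exact lintegral_wt_le hs hx
      _ = Cw p * ν (g ⁻¹' B) * volume A := by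
          rw [setLIntegral_const]; ring

/-- Chebyshev: the bad set has relative volume at most `1 / l` -/
theorem measure_bad_le {α : Type*} [MeasurableSpace α] {μ : Measure α} {I : α → ℝ≥0∞}
    (hI : Measurable I) {K W l : ℝ≥0∞} (h : ∫⁻ c, I c ∂μ ≤ K * W) (hl0 : l ≠ 0) (hl : l ≠ ⊤) :
    μ {c | l * K < I c} ≤ W / l := by
  rcases eq_or_ne K 0 with hK | hK
  · rw [hK, zero_mul] at h
    have h1 : I =ᵐ[μ] 0 := (lintegral_eq_zero_iff hI).1 (le_antisymm h bot_le)
    have h2 : μ {c | l * K < I c} = 0 := by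
      rw [hK, mul_zero]
      rw [Filter.EventuallyEq, ae_iff] at h1
      refine measure_mono_null ?_ h1
      intro c hc
      exact (ne_of_gt hc)
    rw [h2]; exact bot_le
  rcases eq_or_ne K ⊤ with hK' | hK'
  · have h2 : {c | l * K < I c} = ∅ := by
      rw [hK', ENNReal.mul_top hl0]
      ext c; simp
    rw [h2, measure_empty]; exact bot_le
  have h1 := mul_meas_ge_le_lintegral₀ (μ := μ) hI.aemeasurable (l * K)
  have h2 : l * K * μ {c | l * K < I c} ≤ K * W := by
    refine le_trans ?_ (h1.trans h)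
    have h3 : {c | l * K < I c} ⊆ {c | l * K ≤ I c} := by
      intro c hc
      simp only [mem_setOf_eq] at hc ⊢
      exact hc.le
    gcongr
  rw [ENNReal.le_div_iff_mul_le (Or.inl hl0) (Or.inl hl)]
  have h3 : K * (μ {c | l * K < I c} * l) ≤ K * W := by
    calc K * (μ {c | l * K < I c} * l) = l * K * μ {c | l * K < I c} := by ring
      _ ≤ _ := h2
  exact (ENNReal.mul_le_mul_iff_right hK hK').1 h3

/-- **the choice of the centre**: finitely many measures, and an excluded set -/
theorem exists_center_fin {p s : ℝ} {J : Type*} [Fintype J] {X : J → Type*}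
    [∀ j, MeasurableSpace (X j)] (ν : ∀ j, Measure (X j)) [∀ j, SFinite (ν j)]
    {f : ∀ j, X j → Fin 3 → ℝ} (hf : ∀ j, AEMeasurable (f j) (ν j)) (a : Fin 3 → ℝ)
    (hs : 0 < s) {N E : Set (Fin 3 → ℝ)} (hN : volume N = 0)
    (hE : volume (E ∩ closedBall a (s / 2)) ≤ volume (closedBall a (s / 2)) / 2) :
    ∃ c ∈ closedBall a (s / 2), c ∉ N ∧ c ∉ E ∧ ∀ j,
      ∫⁻ x in f j ⁻¹' closedBall a s, wt p s (f j x - c) ∂(ν j) ≤
        4 * Fintype.card J * (Cw p * ν j (f j ⁻¹' closedBall a s)) := by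
  classical
  choose I hIm hIe hIi using fun j => lintegral_center_le (p := p) (ν j) (hf j) a hs
  set A := closedBall a (s / 2) with hA
  set W := volume A with hW
  have hAm : MeasurableSet A := isClosed_closedBall.measurableSet
  have hW0 : W ≠ 0 := by
    rw [hW, hA, Real.volume_pi_closedBall _ (by positivity)]
    exact (ENNReal.ofReal_pos.2 (by positivity)).ne'
  have hWt : W ≠ ∞ := measure_closedBall_lt_top.ne
  set n : ℝ≥0∞ := ((Fintype.card J : ℕ) : ℝ≥0∞) with hn
  by_contra hcon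
  push Not at hcon
  have hcov : A ⊆ (N ∪ E ∩ A) ∪ ⋃ j ∈ (Finset.univ : Finset J),
      ({c | 4 * n * (Cw p * ν j (f j ⁻¹' closedBall a s)) < I j c} ∩ A) := by
    intro c hc
    by_cases h1 : c ∈ N
    · exact Or.inl (Or.inl h1)
    by_cases h2 : c ∈ E
    · exact Or.inl (Or.inr ⟨h2, hc⟩)
    obtain ⟨j, hj⟩ := hcon c hc h1 h2
    rw [hIe j c] at hj
    exact Or.inr (mem_biUnion (Finset.mem_coe.2 (Finset.mem_univ j)) ⟨hj, hc⟩)
  have hbad : ∀ j, volume ({c | 4 * n * (Cw p * ν j (f j ⁻¹' closedBall a s)) < I j c} ∩ A) ≤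
      W / (4 * n) := by
    intro j
    have hn0 : n ≠ 0 := by
      rw [hn, Nat.cast_ne_zero]
      have : Nonempty J := ⟨j⟩
      exact Fintype.card_ne_zero
    have h1 := measure_bad_le (μ := volume.restrict A) (hIm j) (K := Cw p * ν j
      (f j ⁻¹' closedBall a s)) (W := W) (l := 4 * n) (hIi j)
      (mul_ne_zero (by norm_num) hn0) (ENNReal.mul_ne_top (by norm_num) (ENNReal.natCast_ne_top _))
    rwa [Measure.restrict_apply (measurableSet_lt measurable_const (hIm j))] at h1
  have hsum : W ≤ W / 2 + W / 4 := by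
    calc W ≤ volume ((N ∪ E ∩ A) ∪ ⋃ j ∈ (Finset.univ : Finset J),
        ({c | 4 * n * (Cw p * ν j (f j ⁻¹' closedBall a s)) < I j c} ∩ A)) := measure_mono hcov
      _ ≤ (volume N + volume (E ∩ A)) + ∑ j, volume
          ({c | 4 * n * (Cw p * ν j (f j ⁻¹' closedBall a s)) < I j c} ∩ A) := by
          refine (measure_union_le _ _).trans (add_le_add (measure_union_le _ _) ?_)
          exact measure_biUnion_finset_le _ _
      _ ≤ (0 + W / 2) + ∑ _j : J, W / (4 * n) := by
          gcongr with j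
          · exact hN.le
          · exact hbad j
      _ ≤ W / 2 + W / 4 := by
          rw [zero_add, Finset.sum_const, Finset.card_univ, nsmul_eq_mul, ← hn]
          gcongr
          rcases eq_or_ne n 0 with h | h
          · rw [h, zero_mul]; exact bot_le
          · rw [ENNReal.div_eq_inv_mul, ENNReal.div_eq_inv_mul, ENNReal.mul_inv (Or.inl (by norm_num))
              (Or.inl (by norm_num)), ← mul_assoc, ← mul_assoc, mul_comm n (4⁻¹), mul_assoc (4⁻¹),
              ENNReal.mul_inv_cancel h (by rw [hn]; exact ENNReal.natCast_ne_top _), mul_one]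
  have h34 : W / 2 + W / 4 < W := by
    have h1 : W / 2 + W / 4 = W * (2⁻¹ + 4⁻¹) := by
      rw [mul_add]; rfl
    rw [h1]
    have h2 : (2⁻¹ + 4⁻¹ : ℝ≥0∞) < 1 := by
      rw [← ENNReal.toReal_lt_toReal (by simp) (by simp)]
      rw [ENNReal.toReal_add (by simp) (by simp)]
      norm_num
    calc W * (2⁻¹ + 4⁻¹) < W * 1 := (ENNReal.mul_lt_mul_iff_right hW0 hWt).2 h2
      _ = W := mul_one W
  exact absurd hsum (not_le.2 h34)

end Vale.Agent.P073.H83
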