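import Vale.Agent.P073.H83.Grid2
import Vale.Agent.P073.H83.Center
import Vale.Agent.P073.H73.K2A

/-!
# P073, block A15-GRID: the centres
-/

namespace Vale.Agent.P073.H83

open MeasureTheory Set Filter Topology Metric Vale.Agent.P073.St Vale.Agent.P073.AB
open Vale.Agent.P073.SQ (ev)
open Vale.Agent.P073.AB.P86
open _root_.P073.Net (dyc dyo IsTile SizeFn Adm)
open Vale.Agent.P073.H471 (wt Cw)
open Vale.Agent.P073.H73 (ctr)
open scoped ENNReal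

theorem closedBall_ctr (w : V) (m : ℕ) (z : Fin 3 → ℤ) :
    closedBall (ctr w m z) (1 / 2 / 2 ^ m) = dyc w m z := by
  ext x
  have hp : (0:ℝ) < 1 / 2 / 2 ^ m := by positivity
  rw [mem_closedBall, dist_eq_norm, pi_norm_le_iff_of_nonneg hp.le]
  refine forall_congr' fun i => ?_
  rw [Pi.sub_apply, Real.norm_eq_abs, abs_le]
  have e1 : ctr w m z i = w i + (z i + 1 / 2) / 2 ^ m := rfl
  have e2 : (z i + 1 / 2 : ℝ) / 2 ^ m = z i / 2 ^ m + 1 / 2 / 2 ^ m := by ring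
  have e3 : (z i + 1 : ℝ) / 2 ^ m = z i / 2 ^ m + 1 / 2 / 2 ^ m + 1 / 2 / 2 ^ m := by ring
  rw [e1, e2, e3]
  constructor
  · rintro ⟨h1, h2⟩; constructor <;> linarith
  · rintro ⟨h1, h2⟩; constructor <;> linarith

/-- the constant in the condition on the layers -/
noncomputable def tauC (θ M : ℝ) : ℝ := 1152 * M * (8 * (1 + M) / θ) ^ 3

variable {w v : V} {θ M κ : ℝ} {m₁ n k mt m' : ℕ} {Ω Λ : Set V} {f : V → V}
  {J : Finset (Fin 3 → ℤ)} {A : (Fin 3 → ℤ) → V → V} {L : (Fin 3 → ℤ) → V →L[ℝ] V}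

/-- the relative volume of the thin sets in the middle cube of a tile -/
theorem volume_thin_le (H : CellsG θ M κ m₁ n k Ω Λ f v J A L) (hm₁ : 2 ≤ m₁) (hn : n ≤ m₁)
    {r₁ : ℝ} (hr₁ : 0 ≤ r₁) (hr₁' : r₁ ≤ 1 / 2 / 2 ^ m₁)
    (hthin : tauC θ M * (1 / 2 ^ (n + k) + r₁ / θ) ≤ 1 / 2 ^ m₁) {m : ℕ} {zz : Fin 3 → ℤ}
    (ht : IsTile (grho w v n k m₁ mt m' J A Λ) w m zz) :
    volume ((⋃ z ∈ J, CellsG.Th v n k A r₁ z) ∩ closedBall (ctr w m zz) (1 / 2 / 2 ^ m / 2)) ≤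
      volume (closedBall (ctr w m zz) (1 / 2 / 2 ^ m / 2)) / 2 := by
  classical
  set a := ctr w m zz with ha
  set r : ℝ := 1 / 2 / 2 ^ m / 2 with hr
  have hr0 : 0 < r := by positivity
  by_cases hemp : ((⋃ z ∈ J, CellsG.Th v n k A r₁ z) ∩ closedBall a r) = ∅
  · rw [hemp, measure_empty]; exact bot_le
  obtain ⟨y, hy, hya⟩ := nonempty_iff_ne_empty.2 hemp
  obtain ⟨z₀, hz₀, x₀, hx₀, hx₀R, hy₀⟩ := mem_iUnion₂.1 hy
  have hsubt : closedBall a r ⊆ dyc w m zz := by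
    rw [← closedBall_ctr]
    apply closedBall_subset_closedBall
    rw [hr]
    have : (0:ℝ) < 1 / 2 / 2 ^ m := by positivity
    linarith
  have hm : m ≤ m₁ + 3 := gen_near_layer H hm₁ hz₀ hx₀ hx₀R hr₁' hy₀.le ht (hsubt hya)
  have hθ := H.θ0
  have hθM := H.M_pos hz₀
  have hM : 0 < M := hθ.trans_le hθM
  have hm1 : m₁ ≤ m := gen_le_of_tile ht
  have hs1 : (1:ℝ) / 2 ^ m ≤ 1 / 2 ^ m₁ := by
    rw [div_le_div_iff_of_pos_left one_pos (by positivity) (by positivity)]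
    exact pow_le_pow_right₀ (by norm_num) hm1
  have hs2 : (1:ℝ) / 2 ^ m₁ ≤ 1 / 2 ^ n := by
    rw [div_le_div_iff_of_pos_left one_pos (by positivity) (by positivity)]
    exact pow_le_pow_right₀ (by norm_num) hn
  have hs3 : (1:ℝ) / 2 ^ m₁ / 8 ≤ 1 / 2 ^ m := by
    rw [div_div, div_le_div_iff_of_pos_left one_pos (by positivity) (by positivity)]
    calc (2:ℝ) ^ m ≤ 2 ^ (m₁ + 3) := pow_le_pow_right₀ (by norm_num) hm
      _ = 2 ^ m₁ * 8 := by rw [pow_add]; norm_num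
  have hrr : r = 1 / 2 ^ m / 4 := by rw [hr]; ring
  set J' := J.filter fun z => (A z '' dyc v n z ∩ closedBall a (r + r₁)).Nonempty with hJ'
  have hcard : (J'.card : ℝ) ≤ (8 * (1 + M) / θ) ^ 3 := by
    refine H.card_le ⟨z₀, hz₀⟩ a (r := r + r₁) ?_
    have e1 : (1:ℝ) / 2 / 2 ^ m₁ = 1 / 2 ^ m₁ / 2 := by ring
    have e2 : (2:ℝ) / 2 ^ n = 2 * (1 / 2 ^ n) := by ring
    have h0 : (0:ℝ) < 1 / 2 ^ n := by positivity
    rw [e1] at hr₁'
    rw [e2, hrr]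
    linarith
  set D : ℝ := 3 * M * (2 / 2 ^ (n + k) + 2 * (r₁ / θ)) * (2 * r) ^ 2 with hD
  have hD0 : 0 ≤ D := by
    have : 0 ≤ r₁ / θ := div_nonneg hr₁ hθ.le
    positivity
  have hcov : (⋃ z ∈ J, CellsG.Th v n k A r₁ z) ∩ closedBall a r ⊆
      ⋃ z ∈ J', (CellsG.Th v n k A r₁ z ∩ closedBall a r) := by
    rintro y ⟨hy, hya⟩
    obtain ⟨z, hz, hyz⟩ := mem_iUnion₂.1 hy
    have hyz' := hyz
    obtain ⟨x, hx, -, hyx⟩ := hyz'
    refine mem_biUnion (x := z) ?_ ⟨hyz, hya⟩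
    rw [Finset.mem_coe, hJ', Finset.mem_filter]
    refine ⟨hz, A z x, ⟨x, hx, rfl⟩, ?_⟩
    rw [mem_closedBall, dist_eq_norm] at hya ⊢
    have : A z x - a = (A z x - y) + (y - a) := by abel
    rw [this]
    refine (norm_add_le _ _).trans ?_
    rw [norm_sub_rev (A z x) y]
    linarith
  calc volume ((⋃ z ∈ J, CellsG.Th v n k A r₁ z) ∩ closedBall a r)
      ≤ ∑ z ∈ J', volume (CellsG.Th v n k A r₁ z ∩ closedBall a r) :=
        (measure_mono hcov).trans (measure_biUnion_finset_le _ _)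
    _ ≤ ∑ _z ∈ J', 6 * ENNReal.ofReal D := by
        refine Finset.sum_le_sum fun z hz => ?_
        rw [hJ', Finset.mem_filter] at hz
        exact H.volume_Th_le hz.1 a hr0.le hr₁
    _ = ENNReal.ofReal (J'.card * (6 * D)) := by
        have e6 : ENNReal.ofReal (6 * D) = 6 * ENNReal.ofReal D := by
          rw [ENNReal.ofReal_mul (by norm_num)]; norm_num
        rw [Finset.sum_const, nsmul_eq_mul, ENNReal.ofReal_mul (p := (J'.card : ℝ)) (by positivity),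
          ENNReal.ofReal_natCast, e6]
    _ ≤ ENNReal.ofReal ((2 * r) ^ 3 / 2) := by
        apply ENNReal.ofReal_le_ofReal
        have h1 : (J'.card : ℝ) * (6 * D) ≤ (8 * (1 + M) / θ) ^ 3 * (6 * D) := by gcongr
        refine h1.trans ?_
        have h2 : tauC θ M * (1 / 2 ^ (n + k) + r₁ / θ) = 1152 * M * (8 * (1 + M) / θ) ^ 3 *
          (1 / 2 ^ (n + k) + r₁ / θ) := rfl
        rw [h2] at hthin
        have h3 : (8 * (1 + M) / θ) ^ 3 * (6 * D) = 1152 * M * (8 * (1 + M) / θ) ^ 3 *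
            (1 / 2 ^ (n + k) + r₁ / θ) * ((2 * r) ^ 2 / 32) := by
          rw [hD]; ring
        rw [h3]
        calc 1152 * M * (8 * (1 + M) / θ) ^ 3 * (1 / 2 ^ (n + k) + r₁ / θ) * ((2 * r) ^ 2 / 32)
            ≤ 1 / 2 ^ m₁ * ((2 * r) ^ 2 / 32) := by gcongr
          _ ≤ (16 * (2 * r)) * ((2 * r) ^ 2 / 32) := by
              gcongr
              rw [hrr]; linarith
          _ = (2 * r) ^ 3 / 2 := by ring
    _ = volume (closedBall a r) / 2 := by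
        rw [Real.volume_pi_closedBall _ hr0.le, Fintype.card_fin,
          ENNReal.ofReal_div_of_pos (by norm_num)]
        norm_num

/-- **the centres** -/
theorem exists_centres (H : CellsG θ M κ m₁ n k Ω Λ f v J A L) (hm₁ : 2 ≤ m₁) (hn : n ≤ m₁)
    {r₁ : ℝ} (hr₁ : 0 ≤ r₁) (hr₁' : r₁ ≤ 1 / 2 / 2 ^ m₁)
    (hthin : tauC θ M * (1 / 2 ^ (n + k) + r₁ / θ) ≤ 1 / 2 ^ m₁)
    {p : ℝ} {T : Type*} [Fintype T] {X : T → Type*}
    [∀ j, MeasurableSpace (X j)] (ν : ∀ j, Measure (X j)) [∀ j, SFinite (ν j)]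
    {g : ∀ j, X j → V} (hg : ∀ j, AEMeasurable (g j) (ν j)) {N : Set V} (hN : volume N = 0) :
    ∃ c : ℕ → (Fin 3 → ℤ) → V,
      ∀ m zz, IsTile (grho w v n k m₁ mt m' J A Λ) w m zz →
        ‖c m zz - ctr w m zz‖ ≤ 1 / 4 / 2 ^ m ∧ c m zz ∉ N ∧
        (∀ z ∈ J, ∀ x ∈ dyc v n z, x ∉ boxR v n k z → r₁ ≤ ‖c m zz - A z x‖) ∧
        ∀ j, ∫⁻ x in g j ⁻¹' dyc w m zz, wt p (1 / 2 / 2 ^ m) (g j x - c m zz) ∂(ν j) ≤
          4 * Fintype.card T * (Cw p * ν j (g j ⁻¹' dyc w m zz)) := by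
  classical
  have key : ∀ m zz, ∃ c : V, IsTile (grho w v n k m₁ mt m' J A Λ) w m zz →
        ‖c - ctr w m zz‖ ≤ 1 / 4 / 2 ^ m ∧ c ∉ N ∧
        (∀ z ∈ J, ∀ x ∈ dyc v n z, x ∉ boxR v n k z → r₁ ≤ ‖c - A z x‖) ∧
        ∀ j, ∫⁻ x in g j ⁻¹' dyc w m zz, wt p (1 / 2 / 2 ^ m) (g j x - c) ∂(ν j) ≤
          4 * Fintype.card T * (Cw p * ν j (g j ⁻¹' dyc w m zz)) := by
    intro m zz
    by_cases ht : IsTile (grho w v n k m₁ mt m' J A Λ) w m zz
    · obtain ⟨c, hc1, hc2, hc3, hc4⟩ := exists_center_fin (p := p) (s := 1 / 2 / 2 ^ m) ν hg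
        (ctr w m zz) (by positivity) hN (volume_thin_le H hm₁ hn hr₁ hr₁' hthin ht)
      refine ⟨c, fun _ => ⟨?_, hc2, ?_, ?_⟩⟩
      · rw [mem_closedBall, dist_eq_norm] at hc1
        refine hc1.trans (le_of_eq ?_)
        ring
      · intro z hz x hx hxR
        by_contra hcon
        push Not at hcon
        exact hc3 (mem_iUnion₂.2 ⟨z, hz, x, hx, hxR, hcon⟩)
      · intro j
        have := hc4 j
        rwa [closedBall_ctr] at this
    · exact ⟨0, fun h => absurd h ht⟩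
  choose c hc using key
  exact ⟨c, hc⟩

end Vale.Agent.P073.H83
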