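import Vale.Agent.P073.H83.Own2b
import Vale.Agent.P073.H340.PEspec

/-!
# P073, PRE-2 (`p = 2`), [OWN2]: the outer faces of the outer layer
-/

namespace Vale.Agent.P073.H83

open MeasureTheory Set Filter Topology Metric Vale.Agent.P073.St Vale.Agent.P073.AB
open Vale.Agent.P073.SQ (ev)
open _root_.P073.Net (dyc dyo)
open Vale.Agent.P073.H234
open Vale.Agent.P073.H194 (idx sInt bInt faceP off off_false off_true)
open Vale.Agent.P073.H333 (base)
open Vale.Agent.P073.H340 (olay kept faceSum)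
open scoped ENNReal

section volume

variable {Ω : Set V} {v : V} {n N k₁ k₀ : ℕ} {J : Finset (Fin 3 → ℤ)}

/-- the cell, enlarged by the side of a tile -/
def ext (v : V) (n N : ℕ) (z : Fin 3 → ℤ) : Set V :=
  Icc (fun k => v k + z k / 2 ^ n - 1 / 2 ^ N) (fun k => v k + (z k + 1) / 2 ^ n + 1 / 2 ^ N)

theorem volume_ext (v : V) (n N : ℕ) (z : Fin 3 → ℤ) :
    volume (ext v n N z) = ENNReal.ofReal ((1 / 2 ^ n + 2 * (1 / 2 ^ N)) ^ 3) := by
  have h : ∀ l : Fin 3, v l + ((z l : ℝ) + 1) / 2 ^ n + 1 / 2 ^ N - (v l + z l / 2 ^ n - 1 / 2 ^ N) =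
      1 / 2 ^ n + 2 * (1 / 2 ^ N) := by
    intro l
    ring
  rw [ext, Real.volume_Icc_pi]
  simp_rw [h]
  rw [Finset.prod_const, Finset.card_univ, Fintype.card_fin, ENNReal.ofReal_pow (by positivity)]

theorem dyc_sub_ext (v : V) (n N : ℕ) (z : Fin 3 → ℤ) : dyc v n z ⊆ ext v n N z := by
  have h0 : (0:ℝ) < 1 / 2 ^ N := by positivity
  intro x hx
  refine ⟨fun k => ?_, fun k => ?_⟩
  · have := (hx k).1
    show v k + (z k : ℝ) / 2 ^ n - 1 / 2 ^ N ≤ x k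
    linarith
  · have := (hx k).2
    show x k ≤ v k + ((z k : ℝ) + 1) / 2 ^ n + 1 / 2 ^ N
    linarith

theorem volume_ext_diff (v : V) {n N : ℕ} (h : n ≤ N) (z : Fin 3 → ℤ) :
    volume (ext v n N z \ dyc v n z) ≤
      ENNReal.ofReal (26 / 2 ^ (N - n)) * volume (dyc v n z) := by
  have h1 : volume (dyc v n z) = ENNReal.ofReal ((1 / 2 ^ n) ^ 3) := H687.volume_dyc v n z
  rw [measure_sdiff (dyc_sub_ext v n N z)
    (P86.isCompact_dyc v n z).measurableSet.nullMeasurableSet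
    (P86.isCompact_dyc v n z).measure_lt_top.ne, volume_ext, h1,
    ← ENNReal.ofReal_sub _ (by positivity), ← ENNReal.ofReal_mul (by positivity)]
  apply ENNReal.ofReal_le_ofReal
  set t : ℝ := 1 / 2 ^ (N - n) with ht
  have ht0 : 0 < t := by positivity
  have ht1 : t ≤ 1 := by
    rw [ht, div_le_one (by positivity)]
    exact one_le_pow₀ (by norm_num)
  have e1 : (1 / 2 ^ N : ℝ) = 1 / 2 ^ n * t := by
    rw [ht, div_mul_div_comm, one_mul, ← pow_add]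
    congr 2
    omega
  have e2 : (26 / 2 ^ (N - n) : ℝ) = 26 * t := by rw [ht]; ring
  rw [e1, e2]
  have hr : (0:ℝ) < (1 / 2 ^ n) ^ 3 := by positivity
  have e3 : ((1 / 2 ^ n + 2 * (1 / 2 ^ n * t)) ^ 3 - (1 / 2 ^ n) ^ 3 : ℝ) =
      (6 * t + 12 * t ^ 2 + 8 * t ^ 3) * (1 / 2 ^ n) ^ 3 := by ring
  rw [e3]
  refine mul_le_mul_of_nonneg_right ?_ hr.le
  nlinarith [mul_le_mul_of_nonneg_left ht1 ht0.le, mul_pos ht0 ht0,
    mul_le_mul_of_nonneg_left ht1 (mul_pos ht0 ht0).le]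

/-- the open tiles of the outer layer are near a cell and off the cell -/
theorem olay_sub {i : Idx} (hi : i ∈ olay v n k₁ k₀ J) :
    ∃ z ∈ J, dyo v i.1 i.2 ⊆ ext v n (n + k₁ + k₀) z \ dyc v n z := by
  obtain ⟨h1, ⟨z, hz, w, hw1, hw2⟩, h3⟩ := hi
  refine ⟨z, hz, fun x hx => ⟨?_, fun hxz => h3 z hz ?_⟩⟩
  · rw [← h1] at hw1 ⊢
    have hx' := P86.dyo_sub_dyc hx
    have key : ∀ k, |x k - w k| ≤ 1 / 2 ^ i.1 := by
      intro k
      have h4 := hx' k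
      have h5 := hw1 k
      have e : ((i.2 k : ℝ) + 1) / 2 ^ i.1 = i.2 k / 2 ^ i.1 + 1 / 2 ^ i.1 := by ring
      rw [e] at h4 h5
      rw [_root_.abs_le]
      constructor <;> linarith [h4.1, h4.2, h5.1, h5.2]
    refine ⟨fun k => ?_, fun k => ?_⟩
    · have := (_root_.abs_le.1 (key k)).1
      have h6 := (hw2 k).1
      show v k + (z k : ℝ) / 2 ^ n - 1 / 2 ^ i.1 ≤ x k
      linarith
    · have := (_root_.abs_le.1 (key k)).2
      have h6 := (hw2 k).2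
      show x k ≤ v k + ((z k : ℝ) + 1) / 2 ^ n + 1 / 2 ^ i.1
      linarith
  · exact H669.dyo_sub_of_dyo (by rw [h1]; omega) hx hxz

/-- **[OWN2] (iv)**: the volume of the outer layer -/
theorem olay_volume (hsub : ∀ z ∈ J, dyc v n z ⊆ Ω) :
    ∑' i : {i : Idx // i ∈ olay v n k₁ k₀ J}, ENNReal.ofReal ((1 / 2 ^ i.1.1) ^ 3) ≤
      ENNReal.ofReal (26 / 2 ^ (k₁ + k₀)) * volume Ω := by
  have hm : ∀ i : Idx, MeasurableSet (dyo v i.1 i.2) := fun i =>
    (H333.isOpen_dyo v i.1 i.2).measurableSet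
  have h1 : ∀ i : {i : Idx // i ∈ olay v n k₁ k₀ J},
      ENNReal.ofReal ((1 / 2 ^ i.1.1) ^ 3) = volume (dyo v i.1.1 i.1.2) := by
    intro i
    rw [S308.volume_dyo, H687.ofReal_cube]
  simp_rw [h1]
  have hd : Pairwise fun a b : {i : Idx // i ∈ olay v n k₁ k₀ J} =>
      Disjoint (dyo v a.1.1 a.1.2) (dyo v b.1.1 b.1.2) := by
    intro a b hab
    rw [a.2.1, b.2.1]
    refine H989.dyo_disj fun h => hab (Subtype.ext (Prod.ext (a.2.1.trans b.2.1.symm) h))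
  calc ∑' i : {i : Idx // i ∈ olay v n k₁ k₀ J}, volume (dyo v i.1.1 i.1.2)
      ≤ volume (⋃ i : {i : Idx // i ∈ olay v n k₁ k₀ J}, dyo v i.1.1 i.1.2) :=
        tsum_meas_le_meas_iUnion_of_disjoint
          (As := fun i : {i : Idx // i ∈ olay v n k₁ k₀ J} => dyo v i.1.1 i.1.2)
          volume (fun i => hm i.1) hd
    _ ≤ volume (⋃ z ∈ J, ext v n (n + k₁ + k₀) z \ dyc v n z) := by
        refine measure_mono (iUnion_subset fun i => ?_)
        obtain ⟨z, hz, hs⟩ := olay_sub i.2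
        exact hs.trans (subset_iUnion₂ (s := fun z (_ : z ∈ J) =>
          ext v n (n + k₁ + k₀) z \ dyc v n z) z hz)
    _ ≤ ∑ z ∈ J, volume (ext v n (n + k₁ + k₀) z \ dyc v n z) := measure_biUnion_finset_le _ _
    _ ≤ ∑ z ∈ J, ENNReal.ofReal (26 / 2 ^ (k₁ + k₀)) * volume (dyc v n z) := by
        refine Finset.sum_le_sum fun z _ => ?_
        have h2 := volume_ext_diff v (n := n) (N := n + k₁ + k₀) (by omega) z
        have e : n + k₁ + k₀ - n = k₁ + k₀ := by omega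
        rwa [e] at h2
    _ ≤ _ := by
        rw [← Finset.mul_sum]
        gcongr
        have h3 := H989.sum_dyc_le (v := v) (n := n) J (B := Ω) hsub (fun _ => 1)
        simpa using h3

end volume

/-- general form: if `H` has small surface integrals on the tiles of the outer layer -/
theorem faceSum_le_of {Ω : Set V} {v : V} {n k₁ k₀ : ℕ} {J : Finset (Fin 3 → ℤ)}
    (hΩ : IsOpen Ω) (hF : H669.Fine Ω v n k₁ k₀ J) {H : V → ℝ≥0∞} {a : ℝ} (ha : 0 ≤ a)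
    (hmem : ∀ i ∈ olay v n k₁ k₀ J, i ∈ base Ω v n k₁ k₀ J)
    (hb : ∀ i ∈ olay v n k₁ k₀ J, bInt v i H ≤ ENNReal.ofReal (a / 4 ^ i.1)) :
    faceSum Ω v n k₁ k₀ J H ≤ ENNReal.ofReal (26 * a / 2 ^ (k₁ + k₀)) * volume Ω := by
  have hI := hF.part_base
  unfold faceSum
  calc _ ≤ ∑' i : {i : Idx // i ∈ olay v n k₁ k₀ J},
        ENNReal.ofReal a * ENNReal.ofReal ((1 / 2 ^ i.1.1) ^ 3) := by
        refine ENNReal.tsum_le_tsum fun i => ?_
        calc _ ≤ ∑' s : {s : Idx × Fin 3 // MinSq v (base Ω v n k₁ k₀ J) s ∧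
              squ v s ⊆ dyc v i.1.1 i.1.2}, ENNReal.ofReal (1 / 2 ^ i.1.1) * sInt v s.1 H :=
              H687.tsum_sub_le
                (Q := fun s : Idx × Fin 3 => MinSq v (base Ω v n k₁ k₀ J) s ∧
                  squ v s ⊆ dyc v i.1.1 i.1.2 ∧ ∃ r ∈ base Ω v n k₁ k₀ J \ kept v n k₁ k₀ J,
                    squ v s ⊆ dyc v r.1 r.2)
                (Q' := fun s : Idx × Fin 3 => MinSq v (base Ω v n k₁ k₀ J) s ∧
                  squ v s ⊆ dyc v i.1.1 i.1.2)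
                (fun s h => ⟨h.1, h.2.1⟩) fun s => ENNReal.ofReal (1 / 2 ^ i.1.1) * sInt v s H
          _ = ENNReal.ofReal (1 / 2 ^ i.1.1) * ∑' s : {s : Idx × Fin 3 //
              MinSq v (base Ω v n k₁ k₀ J) s ∧ squ v s ⊆ dyc v i.1.1 i.1.2}, sInt v s.1 H :=
              ENNReal.tsum_mul_left
          _ ≤ ENNReal.ofReal (1 / 2 ^ i.1.1) * ENNReal.ofReal (a / 4 ^ i.1.1) := by
              gcongr
              exact (sum_minSq_le hΩ hI (hmem i.1 i.2) H).trans (hb i.1 i.2)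
          _ = _ := by
              rw [← ENNReal.ofReal_mul (by positivity), ← ENNReal.ofReal_mul ha]
              congr 1
              have : (4:ℝ) ^ i.1.1 = 2 ^ i.1.1 * 2 ^ i.1.1 := by
                rw [← mul_pow]; norm_num
              rw [this]
              field_simp
    _ = ENNReal.ofReal a * ∑' i : {i : Idx // i ∈ olay v n k₁ k₀ J},
        ENNReal.ofReal ((1 / 2 ^ i.1.1) ^ 3) := ENNReal.tsum_mul_left
    _ ≤ ENNReal.ofReal a * (ENNReal.ofReal (26 / 2 ^ (k₁ + k₀)) * volume Ω) := by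
        gcongr
        exact olay_volume fun z hz => hF.sub_Ω hz
    _ = _ := by
        rw [← mul_assoc, ← ENNReal.ofReal_mul ha]
        congr 2
        ring

variable {p : ℝ} {ε : ℝ≥0∞} {θ M κ c₀ t₀ δ₀ ε₁ : ℝ} {j : ℕ} {Ω Λ : Set V} {f : V → V}
  {F : V → Mat} {T : Set V} {v : V} {m n k₁ k₀ : ℕ}
  {C : P2Cells p ε θ M κ c₀ t₀ δ₀ j Ω Λ f F T v m} {J' : Finset (Fin 3 → ℤ)}
  {π : (Fin 3 → ℤ) → Fin 3 → ℤ}

/-- the outer layer is in the base partition -/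
theorem olay_sub_base (hF : H669.Fine Ω v n k₁ k₀ J') {i : Idx}
    (hi : i ∈ olay v n k₁ k₀ J') : i ∈ base Ω v n k₁ k₀ J' := by
  obtain ⟨i₁, i₂⟩ := i
  obtain ⟨h1, ⟨z, hz, w, hw1, hw2⟩, h3⟩ := hi
  simp only at h1
  subst h1
  exact Or.inl (Or.inl (Or.inl ⟨hF.fine z hz _ ⟨w, hw1, hw2⟩, h3⟩))

/-- **[OWN2] (iii)**: the outer faces of the outer layer -/
theorem faceSum_own (hΩ : IsOpen Ω) (hM : 0 ≤ M) (hκ : κ ≤ 1) (S : SubCells C n J' π)
    (hmn : m ≤ n) (hN : n + k₁ + k₀ ≤ m + j) (hF : H669.Fine Ω v n k₁ k₀ J') {G : V → ℝ≥0∞}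
    (hG : ∀ s, sInt v s (Ω.indicator fun x => ‖cl (F x)‖ₑ ^ (2:ℝ)) = sInt v s G) :
    faceSum Ω v n k₁ k₀ J' G ≤
      ENNReal.ofReal (312 * (M ^ 2 + 1) / 2 ^ (k₁ + k₀)) * volume Ω := by
  have h1 := faceSum_le_of hΩ hF (H := G) (a := 12 * (M ^ 2 + 1)) (by positivity)
    (fun i hi => olay_sub_base hF hi) fun i hi => by
      obtain ⟨i₁, i₂⟩ := i
      obtain ⟨h1, ⟨z, hz, hu⟩, h3⟩ := hi
      simp only at h1
      subst h1
      refine (bInt_tch hM S hmn (by omega) hN hz hu hG).trans (ENNReal.ofReal_le_ofReal ?_)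
      exact div_le_div_of_nonneg_right (by linarith) (by positivity)
  refine h1.trans (le_of_eq ?_)
  congr 2
  ring

/-- **[OWN2] (iii)**, form `cs * ofReal (1 / 2 ^ k₁)` -/
theorem faceSum_own' (hΩ : IsOpen Ω) (hM : 0 ≤ M) (hκ : κ ≤ 1) (S : SubCells C n J' π)
    (hmn : m ≤ n) (hN : n + k₁ + k₀ ≤ m + j) (hF : H669.Fine Ω v n k₁ k₀ J') {G : V → ℝ≥0∞}
    (hG : ∀ s, sInt v s (Ω.indicator fun x => ‖cl (F x)‖ₑ ^ (2:ℝ)) = sInt v s G) :
    faceSum Ω v n k₁ k₀ J' G ≤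
      (ENNReal.ofReal (312 * (M ^ 2 + 1)) * volume Ω) * ENNReal.ofReal (1 / 2 ^ k₁) := by
  refine (faceSum_own hΩ hM hκ S hmn hN hF hG).trans ?_
  have h1 : ENNReal.ofReal (312 * (M ^ 2 + 1) / 2 ^ (k₁ + k₀)) ≤
      ENNReal.ofReal (312 * (M ^ 2 + 1)) * ENNReal.ofReal (1 / 2 ^ k₁) := by
    rw [← ENNReal.ofReal_mul (by positivity)]
    apply ENNReal.ofReal_le_ofReal
    rw [mul_one_div]
    apply div_le_div_of_nonneg_left (by positivity) (by positivity)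
    exact pow_le_pow_right₀ (by norm_num) (by omega)
  calc _ ≤ (ENNReal.ofReal (312 * (M ^ 2 + 1)) * ENNReal.ofReal (1 / 2 ^ k₁)) * volume Ω := by
        gcongr
    _ = _ := by ring

end Vale.Agent.P073.H83
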