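import Vale.Agent.P073.H239.FSpec1
import Vale.Agent.P073.H83.VB
import Vale.Agent.P073.H16.BeamV

/-!
# P073, block B10, rank one: `SpecBVB`, the generic origin for the plane, the line and the boxes
-/

namespace Vale.Agent.P073.H83

open MeasureTheory Set Filter Topology Metric Vale.Agent.P073.St Vale.Agent.P073.AB
open Vale.Agent.P073.SQ (ev)
open Vale.Agent.P073.LOC (Near Q1)
open Vale.Agent.P073.H235 (Bx cmpD bm P1)
open Vale.Agent.P073.H253 (BVData)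
open Vale.Agent.P073.H16 (isHomeo_cmp isSobolev_cmp exists_slice bm_pos bm_le_one P1_ev_one
  P1_ev_two thin2 thin2_sub volume_thin2 thin2_thin)
open scoped ENNReal

/-- **(G1) [BVB]** -/
theorem specBVB : H239.SpecBVB := by
  intro p hp θ₁ θ₂ κ m₀ h1 h1' h2 h2' hκ
  obtain ⟨κ', hκ', HH⟩ := exists_boxVG (a := bm θ₁ θ₂) hp (bm_pos h1 h2) (bm_le_one h1' h2')
    (L := P1) (by
      intro j hj
      fin_cases j
      · exact absurd rfl hj
      · exact P1_ev_one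
      · exact P1_ev_two) hκ m₀ (Q := thin2 m₀) measurableSet_Icc (thin2_sub m₀) (volume_thin2 m₀)
  refine ⟨κ', hκ', fun Λ f F hN => ?_⟩
  have hhom := isHomeo_cmp (bm_pos h1 h2) hN.homeo
  have hsob := isSobolev_cmp (bm_pos h1 h2) hp hN.sob
  have hdom : St.IsBoundedDomain (Bx (bm θ₁ θ₂)) := H761.isBoundedDomain_Bx (bm_pos h1 h2)
  obtain ⟨v, hv, nn, hnn, H, H₁, N, -, g1, g2, g3, g4, g5, g6, g7, g8, g9, -, g10, gk, g11, g12,
    g13, g14, g15, g16⟩ := HH Λ f F hN (fun _ => True) (Eventually.of_forall fun _ => trivial)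
  obtain ⟨hv1, hv2⟩ := thin2_thin m₀ hv
  refine ⟨hhom, hsob, ⟨v, nn, hnn, H, H₁, N, g1, g2, g3, g4, g5, g6, g7, g8, g9, g10, gk, g11,
    g12, g13, ⌊θ₁ * 2 ^ m₀⌋, ⌊θ₂ * 2 ^ m₀⌋, exists_slice hv1, exists_slice hv2,
    fun S hS => g14 1 S fun k hk => (hS k hk).2, fun S hS => ?_⟩, g16.gen,
    ownPt_of g16 hdom.1 hnn⟩
  have hinj : Function.Injective
      fun k : ℤ => (![k, ⌊θ₁ * 2 ^ m₀⌋, ⌊θ₂ * 2 ^ m₀⌋] : Fin 3 → ℤ) := fun k k' h => congrFun h 0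
  have h3 := g15 0 (S.image fun k : ℤ => (![k, ⌊θ₁ * 2 ^ m₀⌋, ⌊θ₂ * 2 ^ m₀⌋] : Fin 3 → ℤ)) (by
    intro k hk
    rw [Finset.mem_image] at hk
    obtain ⟨k', hk', rfl⟩ := hk
    exact hS k' hk')
  rw [Finset.sum_image fun a _ b _ h => hinj h] at h3
  exact h3

end Vale.Agent.P073.H83
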