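import Vale.Agent.P073.AB.Tiles907
import Vale.Agent.P073.AB.Part86
import Vale.Agent.P073.H83.SqRel
import Vale.Agent.P073.IoD

/-!
# P073, block A15-GRID: the size function of the target

The good cells are dyadic cubes of one generation `n`, with affine maps `A z`. The target boxes
`bx w m₁ mt d` are the dyadic cubes `dyc w m₁ d` shrunk by `2^-mt`, for all `d` such that the
`3 * 2^-m₁`-neighbourhood of the cube is inside `A z '' boxR v n k z` for some `z`.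
-/

namespace Vale.Agent.P073.H83

open MeasureTheory Set Filter Topology Metric Vale.Agent.P073.St Vale.Agent.P073.AB
open Vale.Agent.P073.SQ (ev)
open Vale.Agent.P073.AB.P86
open _root_.P073.Net (dyc dyo IsTile SizeFn Adm)
open _root_.P073.Net.NC (dyA dyB fine_sub fine_sub' dyc_sub exists_mem)

/-- the image of the shrunk cube lies in the image of the open cube -/
theorem shrink_sub_image {Ω : Set V} {f : V → V} (hfc : ContinuousOn f Ω) (hfi : InjOn f Ω)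
    {v : V} {n : ℕ}
    {z : Fin 3 → ℤ} (hsub : dyc v n z ⊆ Ω) {A : V → V} {L : V →L[ℝ] V} {θ η δ : ℝ} (hθ : 0 < θ)
    (aff : ∀ x y, A y - A x = L (y - x)) (below : ∀ w, θ * ‖w‖ ≤ ‖L w‖)
    (hclose : ∀ x ∈ dyc v n z, ‖f x - A x‖ ≤ η) (hη : η < θ * δ) (hδ : 4 * δ ≤ 1 / 2 ^ n) :
    A '' shrink v n z δ ⊆ f '' dyo v n z := by
  have hη0 : 0 ≤ η := by
    have hc : pt v n z ∈ dyc v n z := fun k => by
      simp only [pt]
      have h2 : (z k : ℝ) / 2 ^ n ≤ (z k + 1) / 2 ^ n := by gcongr; linarith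
      constructor <;> linarith
    exact (norm_nonneg _).trans (hclose _ hc)
  have hδ0 : 0 < δ := by
    by_contra hcon
    have : θ * δ ≤ 0 := mul_nonpos_of_nonneg_of_nonpos hθ.le (not_lt.1 hcon)
    linarith
  have hAc : Continuous A := by
    have : A = fun y => A 0 + L y := by
      funext y
      have := aff 0 y
      rw [sub_zero] at this
      rw [← this]; abel
    rw [this]
    fun_prop
  have hnear : ∀ x y, ‖f x - A x‖ ≤ η → f x = A y → ‖y - x‖ < δ := by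
    intro x y h1 h2
    have h3 : ‖A y - A x‖ ≤ η := by rw [← h2]; exact h1
    rw [aff x y] at h3
    have h4 := below (y - x)
    have h5 : θ * ‖y - x‖ < θ * δ := by linarith
    exact lt_of_mul_lt_mul_left h5 hθ.le
  have hconv : Convex ℝ (shrink v n z δ) := by
    intro x hx y hy a b ha hb hab k
    have h1 := hx k
    have h2 := hy k
    have hb' : b = 1 - a := by linarith
    subst hb'
    simp only [Pi.add_apply, Pi.smul_apply, smul_eq_mul]
    constructor <;> nlinarith [h1.1, h1.2, h2.1, h2.2]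
  have hpre : IsPreconnected (A '' shrink v n z δ) :=
    hconv.isPreconnected.image _ hAc.continuousOn
  have hos : dyo v n z ⊆ Ω := fun x hx => hsub (dyo_sub_dyc hx)
  have hU : IsOpen (f '' dyo v n z) :=
    Sep.isOpen_image_of_injOn (isOpen_dyo' v n z) (hfc.mono hos) (hfi.mono hos)
  have hW : IsOpen (f '' dyc v n z)ᶜ :=
    ((isCompact_dyc v n z).image_of_continuousOn (hfc.mono hsub)).isClosed.isOpen_compl
  have hcov : A '' shrink v n z δ ⊆ f '' dyo v n z ∪ (f '' dyc v n z)ᶜ := by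
    rintro _ ⟨y, hy, rfl⟩
    by_cases hin : A y ∈ f '' dyc v n z
    · left
      obtain ⟨x, hx, hxy⟩ := hin
      refine ⟨x, ?_, hxy⟩
      have h1 := hnear x y (hclose x hx) hxy
      intro k
      have h2 := hy k
      have h3 : |y k - x k| < δ := by
        have := norm_le_pi_norm (y - x) k
        rw [Pi.sub_apply, Real.norm_eq_abs] at this
        linarith
      rw [abs_lt] at h3
      constructor <;> linarith [h2.1, h2.2, h3.1, h3.2]
    · exact Or.inr hin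
  refine hpre.subset_left_of_subset_union hU hW ?_ hcov ?_
  · rw [Set.disjoint_left]
    rintro _ ⟨x, hx, rfl⟩ hcon
    exact hcon ⟨x, dyo_sub_dyc hx, rfl⟩
  · -- the centre
    set c : V := cen v n z with hc
    have hn : (0:ℝ) < 1 / 2 ^ n := by positivity
    have hcd : c ∈ dyo v n z := cen_mem v n z
    have hcc : c ∈ dyc v n z := dyo_sub_dyc hcd
    have hinj : Function.Injective L := by
      intro a b hab
      have h1 := below (a - b)
      rw [map_sub, hab, sub_self, norm_zero] at h1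
      have h2 : ‖a - b‖ ≤ 0 := by
        by_contra hcon
        have := mul_pos hθ (not_le.1 hcon)
        linarith
      exact sub_eq_zero.1 (norm_le_zero_iff.1 h2)
    have hsurj : Function.Surjective L := by
      have := (LinearMap.injective_iff_surjective (f := (L : V →ₗ[ℝ] V))).1 hinj
      exact this
    obtain ⟨w, hw⟩ := hsurj (f c - A c)
    have hy : A (c + w) = f c := by
      have h1 := aff c (c + w)
      rw [add_sub_cancel_left, hw] at h1
      exact sub_left_injective h1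
    have h1 := hnear c (c + w) (hclose c hcc) hy.symm
    rw [add_sub_cancel_left] at h1
    refine ⟨f c, ⟨c + w, ?_, hy⟩, c, hcd, rfl⟩
    intro k
    have h3 : |w k| < δ := by
      have := norm_le_pi_norm w k
      rw [Real.norm_eq_abs] at this
      linarith
    rw [abs_lt] at h3
    have h4 : (0:ℝ) < 2 ^ n := by positivity
    have e3 : c k = v k + (z k + 1 / 2) / 2 ^ n := rfl
    simp only [Pi.add_apply, e3]
    have e1 : (z k + 1 / 2 : ℝ) / 2 ^ n = z k / 2 ^ n + 1 / 2 ^ n / 2 := by ring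
    have e2 : (z k + 1 : ℝ) / 2 ^ n = z k / 2 ^ n + 1 / 2 ^ n := by ring
    rw [e1, e2]
    constructor <;> linarith [h3.1, h3.2]

/-- the finite family of the good cells, of one generation `n`, as seen from the target -/
structure CellsG (θ M κ : ℝ) (m₁ n k : ℕ) (Ω Λ : Set V) (f : V → V) (v : V)
    (J : Finset (Fin 3 → ℤ)) (A : (Fin 3 → ℤ) → V → V) (L : (Fin 3 → ℤ) → V →L[ℝ] V) : Prop where
  oΩ : IsOpen Ω
  oΛ : IsOpen Λ
  bΛ : Bornology.IsBounded Λ
  hom : St.IsHomeo Ω Λ f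
  θ0 : 0 < θ
  aff : ∀ z ∈ J, ∀ x y, A z y - A z x = L z (y - x)
  below : ∀ z ∈ J, ∀ w, θ * ‖w‖ ≤ ‖L z w‖
  above : ∀ z ∈ J, ∀ w, ‖L z w‖ ≤ M * ‖w‖
  sub : ∀ z ∈ J, dyc v n z ⊆ Ω
  close : ∀ z ∈ J, ∀ x ∈ dyc v n z, ‖f x - A z x‖ ≤ κ
  small : κ < θ * (1 / 2 ^ (n + k))
  core : ∀ z ∈ J, ∀ x ∈ dyc v n z, 4 / 2 ^ m₁ ≤ infDist (A z x) Λᶜ
  three_le : 3 ≤ k

namespace CellsG

variable {θ M κ : ℝ} {m₁ n k : ℕ} {Ω Λ : Set V} {f : V → V} {v : V} {J : Finset (Fin 3 → ℤ)}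
  {A : (Fin 3 → ℤ) → V → V} {L : (Fin 3 → ℤ) → V →L[ℝ] V}

theorem le_dist (H : CellsG θ M κ m₁ n k Ω Λ f v J A L) {z : Fin 3 → ℤ} (hz : z ∈ J) (x y : V) :
    θ * ‖x - y‖ ≤ ‖A z x - A z y‖ := by
  rw [H.aff z hz]; exact H.below z hz _

theorem dist_le (H : CellsG θ M κ m₁ n k Ω Λ f v J A L) {z : Fin 3 → ℤ} (hz : z ∈ J) (x y : V) :
    ‖A z x - A z y‖ ≤ M * ‖x - y‖ := by
  rw [H.aff z hz]; exact H.above z hz _

theorem injective (H : CellsG θ M κ m₁ n k Ω Λ f v J A L) {z : Fin 3 → ℤ} (hz : z ∈ J) :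
    Function.Injective (A z) := by
  intro x y hxy
  have h1 := H.le_dist hz x y
  rw [hxy, sub_self, norm_zero] at h1
  have h2 : ‖x - y‖ ≤ 0 := by
    by_contra hcon
    have := mul_pos H.θ0 (not_le.1 hcon)
    linarith
  exact sub_eq_zero.1 (norm_le_zero_iff.1 h2)

theorem eq_add (H : CellsG θ M κ m₁ n k Ω Λ f v J A L) {z : Fin 3 → ℤ} (hz : z ∈ J) (x y : V) :
    A z (x + y) = A z x + L z y := by
  have := H.aff z hz x (x + y)
  rw [add_sub_cancel_left] at this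
  rw [← this]; abel

theorem continuous (H : CellsG θ M κ m₁ n k Ω Λ f v J A L) {z : Fin 3 → ℤ} (hz : z ∈ J) :
    Continuous (A z) := by
  have : A z = fun y => A z 0 + L z y := by
    funext y
    have := H.eq_add hz 0 y
    rwa [zero_add] at this
  rw [this]
  fun_prop

theorem surj_L (H : CellsG θ M κ m₁ n k Ω Λ f v J A L) {z : Fin 3 → ℤ} (hz : z ∈ J) :
    Function.Surjective (L z) := by
  have hinj : Function.Injective (L z) := by
    intro a b hab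
    have h1 := H.below z hz (a - b)
    rw [map_sub, hab, sub_self, norm_zero] at h1
    have h2 : ‖a - b‖ ≤ 0 := by
      by_contra hcon
      have := mul_pos H.θ0 (not_le.1 hcon)
      linarith
    exact sub_eq_zero.1 (norm_le_zero_iff.1 h2)
  exact (LinearMap.injective_iff_surjective (f := (L z : V →ₗ[ℝ] V))).1 hinj

theorem surjective (H : CellsG θ M κ m₁ n k Ω Λ f v J A L) {z : Fin 3 → ℤ} (hz : z ∈ J) :
    Function.Surjective (A z) := by
  intro y
  obtain ⟨w, hw⟩ := H.surj_L hz (y - A z 0)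
  refine ⟨0 + w, ?_⟩
  rw [H.eq_add hz, hw]; abel

theorem injOn (H : CellsG θ M κ m₁ n k Ω Λ f v J A L) : InjOn f Ω := by
  obtain ⟨g, hg, -, -⟩ := H.hom
  intro x hx y hy hxy
  rw [← (hg.1 x hx).2, hxy, (hg.1 y hy).2]

theorem cont_f (H : CellsG θ M κ m₁ n k Ω Λ f v J A L) : ContinuousOn f Ω := H.hom.choose_spec.2.1

/-- the image of the larger box -/
theorem boxB_sub (H : CellsG θ M κ m₁ n k Ω Λ f v J A L) {z : Fin 3 → ℤ} (hz : z ∈ J) :
    A z '' boxB v n k z ⊆ f '' dyo v n z := by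
  refine shrink_sub_image H.cont_f H.injOn (H.sub z hz) H.θ0 (H.aff z hz) (H.below z hz)
    (H.close z hz) H.small ?_
  have h1 : (2:ℝ) ^ (n + k) = 2 ^ n * 2 ^ k := pow_add _ _ _
  have h2 : (4:ℝ) ≤ 2 ^ k := by
    calc (4:ℝ) = 2 ^ 2 := by norm_num
      _ ≤ 2 ^ k := pow_le_pow_right₀ (by norm_num) (by have := H.three_le; omega)
  rw [h1, mul_one_div, div_le_div_iff₀ (by positivity) (by positivity)]
  have h3 : (0:ℝ) < 2 ^ n := by positivity
  nlinarith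

theorem boxR_sub_boxB (v : V) (n k : ℕ) (z : Fin 3 → ℤ) : boxR v n k z ⊆ boxB v n k z := by
  intro x hx i
  have h1 := hx i
  have h2 : (0:ℝ) < 1 / 2 ^ (n + k) := by positivity
  have h3 : (2:ℝ) / 2 ^ (n + k) = 1 / 2 ^ (n + k) + 1 / 2 ^ (n + k) := by ring
  rw [h3] at h1
  constructor <;> linarith [h1.1, h1.2]

theorem boxR_sub_dyc (v : V) (n k : ℕ) (z : Fin 3 → ℤ) : boxR v n k z ⊆ dyc v n z := by
  intro x hx i
  have h1 := hx i
  have h2 : (0:ℝ) < 2 / 2 ^ (n + k) := by positivity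
  constructor <;> linarith [h1.1, h1.2]

/-- the images of different cells are disjoint -/
theorem disj (H : CellsG θ M κ m₁ n k Ω Λ f v J A L) {z z' : Fin 3 → ℤ} (hz : z ∈ J) (hz' : z' ∈ J)
    (hne : z ≠ z') : Disjoint (A z '' dyc v n z) (A z' '' boxR v n k z') := by
  rw [Set.disjoint_left]
  rintro _ ⟨x, hx, rfl⟩ ⟨x', hx', hxx⟩
  -- `f x` is in the image of `boxB z'`
  obtain ⟨u, hu⟩ := H.surjective hz' (f x)
  have h1 : θ * ‖u - x'‖ ≤ κ := by
    refine (H.le_dist hz' u x').trans ?_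
    rw [hu, hxx]
    exact H.close z hz x hx
  have h2 : ‖u - x'‖ < 1 / 2 ^ (n + k) := by
    have := H.small
    have h3 : θ * ‖u - x'‖ < θ * (1 / 2 ^ (n + k)) := by linarith
    exact lt_of_mul_lt_mul_left h3 H.θ0.le
  have h3 : u ∈ boxB v n k z' := by
    intro i
    have h4 := hx' i
    have h5 : |u i - x' i| < 1 / 2 ^ (n + k) := by
      have := norm_le_pi_norm (u - x') i
      rw [Pi.sub_apply, Real.norm_eq_abs] at this
      linarith
    rw [abs_lt] at h5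
    have h6 : (2:ℝ) / 2 ^ (n + k) = 1 / 2 ^ (n + k) + 1 / 2 ^ (n + k) := by ring
    rw [h6] at h4
    constructor <;> linarith [h4.1, h4.2, h5.1, h5.2]
  obtain ⟨y, hy, hfy⟩ := H.boxB_sub hz' ⟨u, h3, hu⟩
  have h4 : y = x := H.injOn (H.sub z' hz' (dyo_sub_dyc hy)) (H.sub z hz hx) hfy
  subst h4
  -- the two cubes of the same generation
  apply hne
  have h5 := fine_sub' (m := n) (m' := n) le_rfl hy hx
  funext i
  have h6 := h5 i
  have h3 : (0:ℝ) < 2 ^ n := by positivity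
  have h7 : (z i : ℝ) ≤ z' i := (div_le_div_iff_of_pos_right h3).1 h6.1
  have h8 : (z' i : ℝ) + 1 ≤ z i + 1 := (div_le_div_iff_of_pos_right h3).1 h6.2
  have h7' : z i ≤ z' i := by exact_mod_cast h7
  have h8' : z' i + 1 ≤ z i + 1 := by exact_mod_cast h8
  omega

theorem image_sub (H : CellsG θ M κ m₁ n k Ω Λ f v J A L) {z : Fin 3 → ℤ} (hz : z ∈ J) :
    A z '' dyc v n z ⊆ Λ := by
  rintro _ ⟨x, hx, rfl⟩
  by_contra hcon
  have h1 := H.core z hz x hx
  rw [infDist_zero_of_mem (show A z x ∈ Λᶜ from hcon)] at h1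
  have h2 : (0:ℝ) < 4 / 2 ^ m₁ := by positivity
  linarith

end CellsG

/-! ### The boxes -/

/-- the cubes `d` such that the `3 * 2^-m₁`-neighbourhood is inside the protected box `z` -/
def Fam (w v : V) (n k m₁ : ℕ) (J : Finset (Fin 3 → ℤ)) (A : (Fin 3 → ℤ) → V → V) :
    Set ((Fin 3 → ℤ) × (Fin 3 → ℤ)) :=
  {q | q.1 ∈ J ∧ ∀ y, (∃ y' ∈ dyc w m₁ q.2, ‖y - y'‖ ≤ 3 / 2 ^ m₁) → y ∈ A q.1 '' boxR v n k q.1}

/-- the box of the cube `d` -/
def bx (w : V) (m₁ mt : ℕ) (d : Fin 3 → ℤ) : Set V := shrink w m₁ d (1 / 2 ^ mt)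

/-- the boundaries of the boxes -/
def Sf (w v : V) (n k m₁ mt : ℕ) (J : Finset (Fin 3 → ℤ)) (A : (Fin 3 → ℤ) → V → V) : Set V :=
  ⋃ q ∈ Fam w v n k m₁ J A, frontier (bx w m₁ mt q.2)

open Classical in
/-- distance to the boundaries -/
noncomputable def dSf (S : Set V) (y : V) : ℝ := if S.Nonempty then infDist y S else 1

/-- the size function of the target -/
noncomputable def grho (w v : V) (n k m₁ mt m' : ℕ) (J : Finset (Fin 3 → ℤ))
    (A : (Fin 3 → ℤ) → V → V) (Λ : Set V) (y : V) : ℝ :=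
  min (AB.rho Λ m₁ y) (1 / 2 ^ m' + dSf (Sf w v n k m₁ mt J A) y)

theorem dSf_nonneg (S : Set V) (y : V) : 0 ≤ dSf S y := by
  unfold dSf
  split_ifs
  · exact infDist_nonneg
  · exact zero_le_one

theorem dSf_lip (S : Set V) (x y : V) : dSf S x ≤ dSf S y + ‖x - y‖ := by
  unfold dSf
  split_ifs
  · have h1 : infDist x S ≤ infDist y S + dist x y := infDist_le_infDist_add_dist
    rwa [dist_eq_norm] at h1
  · linarith [norm_nonneg (x - y)]

theorem dSf_mem {S : Set V} {y : V} (hy : y ∈ S) : dSf S y = 0 := by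
  unfold dSf
  rw [if_pos ⟨y, hy⟩, infDist_zero_of_mem hy]

theorem le_dSf {S : Set V} {y : V} {r : ℝ} (hr : r ≤ 1) (h : ∀ x ∈ S, r ≤ ‖y - x‖) :
    r ≤ dSf S y := by
  unfold dSf
  split_ifs with hS
  · rw [le_infDist hS]
    intro x hx
    rw [dist_eq_norm]
    exact h x hx
  · exact hr

variable {w v : V} {θ M κ : ℝ} {m₁ n k mt m' : ℕ} {Ω Λ : Set V} {f : V → V}
  {J : Finset (Fin 3 → ℤ)} {A : (Fin 3 → ℤ) → V → V} {L : (Fin 3 → ℤ) → V →L[ℝ] V}

/-- **(G1)** -/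
theorem sizeFn_grho (w v : V) (n k m₁ mt m' : ℕ) (J : Finset (Fin 3 → ℤ))
    (A : (Fin 3 → ℤ) → V → V) (hΛ : IsOpen Λ) (hb : Bornology.IsBounded Λ) :
    SizeFn Λ (grho w v n k m₁ mt m' J A Λ) := by
  have h := sizeFn_rho hΛ hb m₁
  have hm : (0:ℝ) < 1 / 2 ^ m' := by positivity
  refine ⟨fun x y => ?_, fun x hx => ?_, fun x hx => ?_, fun x => ?_⟩
  · unfold grho
    have h1 := h.lip x y
    have h2 := dSf_lip (Sf w v n k m₁ mt J A) x y
    rw [← min_add_add_right]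
    exact min_le_min h1 (by linarith)
  · unfold grho
    have h1 := h.pos x hx
    have h2 := dSf_nonneg (Sf w v n k m₁ mt J A) x
    exact lt_min h1 (by linarith)
  · exact (min_le_left _ _).trans (h.off x hx)
  · exact (min_le_left _ _).trans (h.le_one x)

theorem gen_le_of_tile {z : Fin 3 → ℤ} {m : ℕ} (h : IsTile (grho w v n k m₁ mt m' J A Λ) w m z) :
    m₁ ≤ m := by
  have h1 := h.1 _ (dyo_sub_dyc (cen_mem w m z))
  have h2 : grho w v n k m₁ mt m' J A Λ (cen w m z) ≤ 1 / 2 ^ m₁ :=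
    (min_le_left _ _).trans (min_le_left _ _)
  have h3 := h1.trans h2
  rw [div_le_div_iff_of_pos_left one_pos (by positivity) (by positivity)] at h3
  exact (pow_le_pow_iff_right₀ (one_lt_two)).1 h3

theorem bx_eq_Icc (w : V) (m₁ mt : ℕ) (d : Fin 3 → ℤ) : bx w m₁ mt d =
    Icc (fun i => w i + d i / 2 ^ m₁ + 1 / 2 ^ mt) (fun i => w i + (d i + 1) / 2 ^ m₁ - 1 / 2 ^ mt) := by
  ext x
  exact ⟨fun h => ⟨fun i => (h i).1, fun i => (h i).2⟩, fun h i => ⟨h.1 i, h.2 i⟩⟩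

theorem isCompact_bx (w : V) (m₁ mt : ℕ) (d : Fin 3 → ℤ) : IsCompact (bx w m₁ mt d) := by
  rw [bx_eq_Icc]; exact isCompact_Icc

theorem frontier_bx_sub (w : V) (m₁ mt : ℕ) (d : Fin 3 → ℤ) :
    frontier (bx w m₁ mt d) ⊆ bx w m₁ mt d := (isCompact_bx w m₁ mt d).isClosed.frontier_subset

theorem bx_sub_dyc (w : V) (m₁ mt : ℕ) (d : Fin 3 → ℤ) : bx w m₁ mt d ⊆ dyc w m₁ d := by
  intro x hx i
  have h1 := hx i
  have h2 : (0:ℝ) < 1 / 2 ^ mt := by positivity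
  constructor <;> linarith [h1.1, h1.2]

theorem Fam_sub {q : (Fin 3 → ℤ) × (Fin 3 → ℤ)} (hq : q ∈ Fam w v n k m₁ J A) :
    dyc w m₁ q.2 ⊆ A q.1 '' boxR v n k q.1 := by
  intro y hy
  refine hq.2 y ⟨y, hy, ?_⟩
  rw [sub_self, norm_zero]; positivity

theorem bx_sub_image {q : (Fin 3 → ℤ) × (Fin 3 → ℤ)} (hq : q ∈ Fam w v n k m₁ J A) :
    bx w m₁ mt q.2 ⊆ A q.1 '' boxR v n k q.1 := (bx_sub_dyc w m₁ mt q.2).trans (Fam_sub hq)

/-- `d` determines `z` -/
theorem Fam_uniq (H : CellsG θ M κ m₁ n k Ω Λ f v J A L) {z z' d : Fin 3 → ℤ}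
    (h : (z, d) ∈ Fam w v n k m₁ J A) (h' : (z', d) ∈ Fam w v n k m₁ J A) : z = z' := by
  by_contra hne
  have h1 := Fam_sub h (dyo_sub_dyc (cen_mem w m₁ d))
  have h2 := Fam_sub h' (dyo_sub_dyc (cen_mem w m₁ d))
  refine Set.disjoint_left.1 (H.disj h.1 h'.1 hne) ?_ h2
  exact image_mono (CellsG.boxR_sub_dyc v n k z) h1

theorem finite_dyc (w : V) (m : ℕ) {K : Set V} (hK : Bornology.IsBounded K) :
    {z : Fin 3 → ℤ | (dyc w m z ∩ K).Nonempty}.Finite := by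
  obtain ⟨R, hR⟩ := hK.exists_norm_le
  obtain ⟨N, hN⟩ := exists_nat_ge (2 ^ m * (R + ‖w‖) + 1)
  refine Set.Finite.subset (Set.Finite.pi' (fun _ : Fin 3 => Set.finite_Icc (-(N:ℤ)) (N:ℤ))) ?_
  rintro z ⟨x, hx, hxK⟩
  simp only [Set.mem_ofPred_eq, Set.mem_Icc]
  intro i
  have hxk := hx i
  have hxR : |x i| ≤ R := (norm_le_pi_norm x i).trans (hR x hxK)
  have hvk : |w i| ≤ ‖w‖ := norm_le_pi_norm w i
  rw [abs_le] at hxR hvk
  have h2 : (0:ℝ) < 2 ^ m := by positivity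
  have h4 : (z i : ℝ) ≤ 2 ^ m * (x i - w i) := by
    have h5 : (z i : ℝ) / 2 ^ m ≤ x i - w i := by linarith [hxk.1]
    rw [div_le_iff₀ h2] at h5
    linarith
  have h5 : 2 ^ m * (x i - w i) ≤ (z i : ℝ) + 1 := by
    have h5 : x i - w i ≤ ((z i : ℝ) + 1) / 2 ^ m := by linarith [hxk.2]
    rw [le_div_iff₀ h2] at h5
    linarith
  have h7 : 2 ^ m * (x i - w i) ≤ 2 ^ m * (R + ‖w‖) :=
    mul_le_mul_of_nonneg_left (by linarith [hxR.2, hvk.1]) h2.le
  have h8 : -(2 ^ m * (R + ‖w‖)) ≤ 2 ^ m * (x i - w i) := by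
    rw [← mul_neg]
    exact mul_le_mul_of_nonneg_left (by linarith [hxR.1, hvk.2]) h2.le
  constructor
  · have : (-(N:ℝ)) ≤ z i := by linarith
    exact_mod_cast this
  · have : (z i : ℝ) ≤ N := by linarith
    exact_mod_cast this

theorem finite_Fam (H : CellsG θ M κ m₁ n k Ω Λ f v J A L) (w : V) :
    (Fam w v n k m₁ J A).Finite := by
  have h1 : {d : Fin 3 → ℤ | (dyc w m₁ d ∩ Λ).Nonempty}.Finite := finite_dyc w m₁ H.bΛ
  refine (J.finite_toSet.prod h1).subset ?_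
  rintro q hq
  refine ⟨hq.1, cen w m₁ q.2, dyo_sub_dyc (cen_mem w m₁ q.2), ?_⟩
  exact H.image_sub hq.1 (image_mono (CellsG.boxR_sub_dyc v n k q.1)
    (Fam_sub hq (dyo_sub_dyc (cen_mem w m₁ q.2))))

theorem isClosed_Sf (H : CellsG θ M κ m₁ n k Ω Λ f v J A L) (w : V) (mt : ℕ) :
    IsClosed (Sf w v n k m₁ mt J A) :=
  (finite_Fam H w).isClosed_biUnion fun _ _ => isClosed_frontier

theorem Sf_sub {x : V} (hx : x ∈ Sf w v n k m₁ mt J A) :
    ∃ q ∈ Fam w v n k m₁ J A, x ∈ bx w m₁ mt q.2 := by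
  obtain ⟨q, hq, hx⟩ := mem_iUnion₂.1 hx
  exact ⟨q, hq, frontier_bx_sub _ _ _ _ hx⟩

/-- the ancestor of generation `m'` -/
theorem exists_ancestor {w : V} {m m' : ℕ} (h : m' ≤ m) (z : Fin 3 → ℤ) :
    ∃ z', dyc w m z ⊆ dyc w m' z' := by
  obtain ⟨z', hz'⟩ := exists_mem w m' (cen w m z)
  exact ⟨z', dyc_sub (fine_sub' h (cen_mem w m z) hz')⟩

/-- **(G2)** the tiles at the boundaries of the boxes have generation `m'` -/
theorem gen_of_mem_Sf (H : CellsG θ M κ m₁ n k Ω Λ f v J A L) (hm : m₁ ≤ m') {m : ℕ}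
    {z : Fin 3 → ℤ} (h : IsTile (grho w v n k m₁ mt m' J A Λ) w m z) {x : V}
    (hx : x ∈ dyc w m z) (hxS : x ∈ Sf w v n k m₁ mt J A) : m = m' := by
  apply le_antisymm
  · by_contra hcon
    push Not at hcon
    obtain ⟨z', hz'⟩ := exists_ancestor (w := w) hcon.le z
    refine h.2 m' z' hcon hz' fun y hy => ?_
    have hxy := P073.Net.NC.dist_le (hz' hx) hy
    obtain ⟨q, hq, hxb⟩ := Sf_sub hxS
    obtain ⟨u, hu, hux⟩ := bx_sub_image hq hxb
    have h1 := H.core q.1 hq.1 u (CellsG.boxR_sub_dyc v n k q.1 hu)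
    rw [hux] at h1
    have h2 : infDist x Λᶜ ≤ infDist y Λᶜ + dist x y := infDist_le_infDist_add_dist
    rw [dist_eq_norm] at h2
    have h3 : (1:ℝ) / 2 ^ m' ≤ 1 / 2 ^ m₁ := by
      rw [div_le_div_iff_of_pos_left one_pos (by positivity) (by positivity)]
      exact pow_le_pow_right₀ (by norm_num) hm
    have h4 : (0:ℝ) < 1 / 2 ^ m₁ := by positivity
    have h5 : (4:ℝ) / 2 ^ m₁ = 4 * (1 / 2 ^ m₁) := by ring
    unfold grho AB.rho
    refine le_min (le_min h3 ?_) ?_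
    · rw [h5] at h1
      linarith
    · linarith [dSf_nonneg (Sf w v n k m₁ mt J A) y]
  · have h1 := h.1 x hx
    have h2 : grho w v n k m₁ mt m' J A Λ x ≤ 1 / 2 ^ m' := by
      refine (min_le_right _ _).trans ?_
      rw [dSf_mem hxS, add_zero]
    have h3 := h1.trans h2
    rw [div_le_div_iff_of_pos_left one_pos (by positivity) (by positivity)] at h3
    exact (pow_le_pow_iff_right₀ (one_lt_two)).1 h3

/-- a cube of generation `m' ≥ m₁, mt` which overlaps a box is contained in it -/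
theorem dyc_sub_bx {d z : Fin 3 → ℤ} (h1 : m₁ ≤ m') (h2 : mt ≤ m') {x : V} (hx : x ∈ dyo w m' z)
    (hx' : x ∈ bx w m₁ mt d) : dyc w m' z ⊆ bx w m₁ mt d := by
  have hpos : (0:ℝ) < 2 ^ m' := by positivity
  obtain ⟨a, ha⟩ := Nat.exists_eq_add_of_le h1
  obtain ⟨b, hb⟩ := Nat.exists_eq_add_of_le h2
  have ea : ∀ t : ℝ, t / 2 ^ m₁ = t * 2 ^ a / 2 ^ m' := by
    intro t
    rw [ha, pow_add]; field_simp
  have eb : (1:ℝ) / 2 ^ mt = 2 ^ b / 2 ^ m' := by
    rw [hb, pow_add]; field_simp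
  intro y hy i
  have h3 := hx i
  have h4 := hx' i
  have h5 := hy i
  rw [ea, ea, eb] at h4 ⊢
  have k1 : (d i : ℝ) * 2 ^ a + 2 ^ b < z i + 1 := by
    have : ((d i : ℝ) * 2 ^ a + 2 ^ b) / 2 ^ m' < (z i + 1) / 2 ^ m' := by
      rw [add_div]; linarith [h4.1, h3.2]
    exact (div_lt_div_iff_of_pos_right hpos).1 this
  have k2 : (z i : ℝ) < ((d i : ℝ) + 1) * 2 ^ a - 2 ^ b := by
    have : (z i : ℝ) / 2 ^ m' < (((d i : ℝ) + 1) * 2 ^ a - 2 ^ b) / 2 ^ m' := by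
      rw [sub_div]; linarith [h4.2, h3.1]
    exact (div_lt_div_iff_of_pos_right hpos).1 this
  have k3 : d i * 2 ^ a + 2 ^ b ≤ z i := by
    have : d i * 2 ^ a + 2 ^ b < z i + 1 := by exact_mod_cast k1
    omega
  have k4 : z i + 1 ≤ (d i + 1) * 2 ^ a - 2 ^ b := by
    have : z i < (d i + 1) * 2 ^ a - 2 ^ b := by exact_mod_cast k2
    omega
  have k5 : ((d i : ℝ) * 2 ^ a + 2 ^ b) / 2 ^ m' ≤ z i / 2 ^ m' := by
    apply div_le_div_of_nonneg_right _ hpos.le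
    exact_mod_cast k3
  have k6 : ((z i : ℝ) + 1) / 2 ^ m' ≤ (((d i : ℝ) + 1) * 2 ^ a - 2 ^ b) / 2 ^ m' := by
    apply div_le_div_of_nonneg_right _ hpos.le
    exact_mod_cast k4
  rw [add_div] at k5
  rw [sub_div] at k6
  constructor <;> linarith [h5.1, h5.2]

theorem meets_frontier {S B : Set V} (hS : IsPreconnected S) {x y : V} (hx : x ∈ S) (hxB : x ∈ B)
    (hy : y ∈ S) (hyB : y ∉ B) : (S ∩ frontier B).Nonempty := by
  by_contra hcon
  rw [not_nonempty_iff_eq_empty] at hcon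
  have hn : ∀ u ∈ S, u ∉ frontier B := fun u hu hf => by
    have : u ∈ S ∩ frontier B := ⟨hu, hf⟩
    rw [hcon] at this
    exact this
  have hcov : S ⊆ interior B ∪ (closure B)ᶜ := by
    intro u hu
    by_cases h1 : u ∈ closure B
    · left
      by_contra h2
      exact hn u hu ⟨h1, h2⟩
    · exact Or.inr h1
  have hyc : y ∈ (closure B)ᶜ := by
    rcases hcov hy with h | h
    · exact absurd (interior_subset h) hyB
    · exact h
  have hxi : x ∈ interior B := by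
    rcases hcov hx with h | h
    · exact h
    · exact absurd (subset_closure hxB) h
  obtain ⟨u, -, hu1, hu2⟩ := hS _ _ isOpen_interior isClosed_closure.isOpen_compl hcov
    ⟨x, hx, hxi⟩ ⟨y, hy, hyc⟩
  exact hu2 (subset_closure (interior_subset hu1))

/-- **(G3)** every box is a union of tiles -/
theorem tile_sub_or_disjoint (H : CellsG θ M κ m₁ n k Ω Λ f v J A L) (h1 : m₁ ≤ m')
    (h2 : mt ≤ m') {m : ℕ} {z : Fin 3 → ℤ} (h : IsTile (grho w v n k m₁ mt m' J A Λ) w m z)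
    {q : (Fin 3 → ℤ) × (Fin 3 → ℤ)} (hq : q ∈ Fam w v n k m₁ J A) :
    dyc w m z ⊆ bx w m₁ mt q.2 ∨ Disjoint (dyo w m z) (bx w m₁ mt q.2) := by
  by_cases hsub : dyc w m z ⊆ bx w m₁ mt q.2
  · exact Or.inl hsub
  right
  rw [Set.disjoint_left]
  intro x hx hxb
  obtain ⟨y, hy, hyb⟩ := not_subset.1 hsub
  have hconv : Convex ℝ (dyc w m z) := by rw [dyc_eq_Icc]; exact convex_Icc _ _
  obtain ⟨u, hu, huf⟩ := meets_frontier hconv.isPreconnected (dyo_sub_dyc hx) hxb hy hyb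
  have hm := gen_of_mem_Sf H h1 h hu (mem_biUnion hq huf)
  subst hm
  exact hsub (dyc_sub_bx h1 h2 hx hxb)

/-- **(G4)** the size function at the boundary layers of the cells -/
theorem grho_layer (H : CellsG θ M κ m₁ n k Ω Λ f v J A L) (hm₁ : 2 ≤ m₁) {z : Fin 3 → ℤ}
    (hz : z ∈ J) {x : V} (hx : x ∈ dyc v n z) (hxR : x ∉ boxR v n k z) :
    grho w v n k m₁ mt m' J A Λ (A z x) = 1 / 2 ^ m₁ := by
  have hp : (0:ℝ) < 1 / 2 ^ m₁ := by positivity
  have hp' : (0:ℝ) < 1 / 2 ^ m' := by positivity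
  have h1 := H.core z hz x hx
  have h5 : (4:ℝ) / 2 ^ m₁ = 4 * (1 / 2 ^ m₁) := by ring
  rw [h5] at h1
  have h4 : (4:ℝ) ≤ 2 ^ m₁ := by
    calc (4:ℝ) = 2 ^ 2 := by norm_num
      _ ≤ 2 ^ m₁ := pow_le_pow_right₀ (by norm_num) hm₁
  have h6 : (3:ℝ) / 2 ^ m₁ ≤ 1 := by
    rw [div_le_one (by positivity)]; linarith
  have h2 : (3:ℝ) / 2 ^ m₁ ≤ dSf (Sf w v n k m₁ mt J A) (A z x) := by
    refine le_dSf h6 fun p hp => ?_
    obtain ⟨q, hq, hpb⟩ := Sf_sub hp
    by_contra hcon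
    push Not at hcon
    have h3 := hq.2 (A z x) ⟨p, bx_sub_dyc w m₁ mt q.2 hpb, hcon.le⟩
    by_cases hzq : z = q.1
    · subst hzq
      obtain ⟨u, hu, hux⟩ := h3
      exact hxR (H.injective hz hux ▸ hu)
    · exact Set.disjoint_left.1 (H.disj hz hq.1 hzq) ⟨x, hx, rfl⟩ h3
  have h3 : (3:ℝ) / 2 ^ m₁ = 3 * (1 / 2 ^ m₁) := by ring
  rw [h3] at h2
  unfold grho AB.rho
  rw [min_eq_left (a := (1:ℝ) / 2 ^ m₁) (by linarith)]
  exact min_eq_left (by linarith)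

/-- the tiles near the boundary layers of the cells are large -/
theorem gen_near_layer (H : CellsG θ M κ m₁ n k Ω Λ f v J A L) (hm₁ : 2 ≤ m₁) {z : Fin 3 → ℤ}
    (hz : z ∈ J) {x : V} (hx : x ∈ dyc v n z) (hxR : x ∉ boxR v n k z) {r : ℝ}
    (hr : r ≤ 1 / 2 / 2 ^ m₁) {y : V} (hy : ‖y - A z x‖ ≤ r) {m : ℕ} {zz : Fin 3 → ℤ}
    (h : IsTile (grho w v n k m₁ mt m' J A Λ) w m zz) (hyt : y ∈ dyc w m zz) : m ≤ m₁ + 3 := by
  have hS := sizeFn_grho (Λ := Λ) w v n k m₁ mt m' J A H.oΛ H.bΛ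
  have h1 := hS.lip (A z x) y
  rw [grho_layer H hm₁ hz hx hxR, norm_sub_rev] at h1
  have h2 := P073.Net.NC.upper hS h hyt
  have h3 : (1:ℝ) / 2 / 2 ^ m₁ = 1 / 2 ^ m₁ / 2 := by ring
  rw [h3] at hr
  have h4 : (1:ℝ) / 2 ^ m₁ / 2 ≤ 4 / 2 ^ m := by linarith
  have h5 : (2:ℝ) ^ m ≤ 2 ^ (m₁ + 3) := by
    rw [div_div, div_le_div_iff₀ (by positivity) (by positivity)] at h4
    rw [pow_add]; linarith
  exact (pow_le_pow_iff_right₀ (one_lt_two)).1 h5

/-- **(G5)** different boxes -/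
theorem bx_dist {d d' : Fin 3 → ℤ} (hne : d ≠ d') {x y : V} (hx : x ∈ bx w m₁ mt d)
    (hy : y ∈ bx w m₁ mt d') : 2 / 2 ^ mt ≤ ‖x - y‖ := by
  have hp : (0:ℝ) < 2 ^ m₁ := by positivity
  have h2 : (2:ℝ) / 2 ^ mt = 1 / 2 ^ mt + 1 / 2 ^ mt := by ring
  have key : ∀ {d d' : Fin 3 → ℤ} {x y : V} {i : Fin 3}, d i < d' i → x ∈ bx w m₁ mt d →
      y ∈ bx w m₁ mt d' → 2 / 2 ^ mt ≤ ‖x - y‖ := by
    intro d d' x y i hi hx hy
    have h3 := (hx i).2
    have h4 := (hy i).1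
    have h5 : ((d i : ℝ) + 1) / 2 ^ m₁ ≤ d' i / 2 ^ m₁ := by
      apply div_le_div_of_nonneg_right _ hp.le
      exact_mod_cast hi
    have h6 := norm_le_pi_norm (x - y) i
    rw [Pi.sub_apply, Real.norm_eq_abs] at h6
    have h7 := neg_abs_le (x i - y i)
    rw [h2]; linarith
  obtain ⟨i, hi⟩ := Function.ne_iff.1 hne
  rcases lt_or_gt_of_ne hi with hi | hi
  · exact key hi hx hy
  · rw [norm_sub_rev]
    exact key hi hy hx

theorem bx_disj {d d' : Fin 3 → ℤ} (hne : d ≠ d') : Disjoint (bx w m₁ mt d) (bx w m₁ mt d') := by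
  rw [Set.disjoint_left]
  intro x hx hx'
  have := bx_dist hne hx hx'
  rw [sub_self, norm_zero] at this
  have h2 : (0:ℝ) < 2 / 2 ^ mt := by positivity
  linarith

end Vale.Agent.P073.H83
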