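import Vale.Agent.P073.H83.Grid1
import Mathlib.MeasureTheory.Measure.Lebesgue.EqHaar

/-!
# P073, block A15-GRID: the volume of the images of the boundary layers
-/

namespace Vale.Agent.P073.H83

open MeasureTheory Set Filter Topology Metric Vale.Agent.P073.St Vale.Agent.P073.AB
open Vale.Agent.P073.SQ (ev)
open Vale.Agent.P073.AB.P86
open _root_.P073.Net (dyc dyo IsTile SizeFn Adm)
open scoped ENNReal

/-! ### Slabs -/

theorem norm_ev' (i : Fin 3) : ‖(ev i : V)‖ = 1 := by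
  apply le_antisymm
  · rw [pi_norm_le_iff_of_nonneg zero_le_one]
    intro j
    rw [ev, Pi.single_apply]
    split_ifs <;> simp
  · have := norm_le_pi_norm (ev i : V) i
    simpa [ev] using this

/-- expansion of a functional -/
theorem clm_apply_eq (ν : V →L[ℝ] ℝ) (y : V) : ν y = ∑ j, y j * ν (ev j) := by
  have h1 : y = ∑ j, y j • ev j := by
    funext i
    simp [ev, Finset.sum_apply, Pi.single_apply]
  conv_lhs => rw [h1]
  rw [map_sum]
  simp only [map_smul, smul_eq_mul]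

/-- the matrix of the map which replaces the coordinate `k` by `ν` -/
noncomputable def repM (k : Fin 3) (ν : V →L[ℝ] ℝ) : Matrix (Fin 3) (Fin 3) ℝ :=
  Matrix.of fun i j => if i = k then ν (ev j) else if i = j then 1 else 0

theorem det_repM (k : Fin 3) (ν : V →L[ℝ] ℝ) : (repM k ν).det = ν (ev k) := by
  fin_cases k <;> simp [repM, Matrix.det_fin_three]

theorem toLin_repM (k : Fin 3) (ν : V →L[ℝ] ℝ) (y : V) :
    Matrix.toLin' (repM k ν) y = Function.update y k (ν y) := by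
  funext i
  rw [Matrix.toLin'_apply, Matrix.mulVec, dotProduct]
  by_cases hi : i = k
  · subst hi
    rw [Function.update_self, clm_apply_eq]
    refine Finset.sum_congr rfl fun j _ => ?_
    simp [repM, mul_comm]
  · rw [Function.update_of_ne hi]
    simp [repM, hi]

/-- volume of a slab in a cube -/
theorem volume_slab_le (ν : V →L[ℝ] ℝ) {k : Fin 3} {c : ℝ} (hc : 0 < c) (hk : c ≤ |ν (ev k)|)
    (a : V) {r : ℝ} (hr : 0 ≤ r) {α β : ℝ} (hαβ : α ≤ β) :
    volume {y | y ∈ closedBall a r ∧ α ≤ ν y ∧ ν y ≤ β} ≤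
      ENNReal.ofReal ((β - α) / c * (2 * r) ^ 2) := by
  set S : Set V := {y | y ∈ closedBall a r ∧ α ≤ ν y ∧ ν y ≤ β} with hS
  set T := Matrix.toLin' (repM k ν) with hT
  have hdet : LinearMap.det T = ν (ev k) := by rw [hT, LinearMap.det_toLin', det_repM]
  have h1 : volume (T '' S) = ENNReal.ofReal |ν (ev k)| * volume S := by
    rw [Measure.addHaar_image_linearMap, hdet]
  have h2 : T '' S ⊆ Icc (fun i => if i = k then α else a i - r)
      (fun i => if i = k then β else a i + r) := by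
    rintro _ ⟨y, ⟨hy1, hy2, hy3⟩, rfl⟩
    rw [hT, toLin_repM]
    have hy : ∀ i, |y i - a i| ≤ r := by
      intro i
      rw [mem_closedBall, dist_eq_norm] at hy1
      have := norm_le_pi_norm (y - a) i
      rw [Pi.sub_apply, Real.norm_eq_abs] at this
      exact this.trans hy1
    constructor
    · intro i
      by_cases hi : i = k
      · subst hi; simpa using hy2
      · simp only [if_neg hi, Function.update_of_ne hi]
        have := abs_le.1 (hy i)
        linarith [this.1]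
    · intro i
      by_cases hi : i = k
      · subst hi; simpa using hy3
      · simp only [if_neg hi, Function.update_of_ne hi]
        have := abs_le.1 (hy i)
        linarith [this.2]
  have h3 : volume (Icc (fun i => if i = k then α else a i - r : V)
      (fun i => if i = k then β else a i + r)) = ENNReal.ofReal ((β - α) * (2 * r) ^ 2) := by
    rw [Real.volume_Icc_pi, ← ENNReal.ofReal_prod_of_nonneg]
    · congr 1
      fin_cases k <;> simp [Fin.prod_univ_three] <;> ring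
    · intro i _
      split_ifs <;> linarith
  have h4 : ENNReal.ofReal c * volume S ≤ ENNReal.ofReal ((β - α) * (2 * r) ^ 2) := by
    calc ENNReal.ofReal c * volume S ≤ ENNReal.ofReal |ν (ev k)| * volume S := by gcongr
      _ = volume (T '' S) := h1.symm
      _ ≤ _ := measure_mono h2
      _ = _ := h3
  have h5 : (β - α) / c * (2 * r) ^ 2 = ((β - α) * (2 * r) ^ 2) / c := by ring
  rw [h5, ENNReal.ofReal_div_of_pos hc, ENNReal.le_div_iff_mul_le (Or.inl (by simpa using hc))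
    (Or.inl ENNReal.ofReal_ne_top), mul_comm]
  exact h4

namespace CellsG

variable {θ M κ : ℝ} {m₁ n k : ℕ} {Ω Λ : Set V} {f : V → V} {v : V} {J : Finset (Fin 3 → ℤ)}
  {A : (Fin 3 → ℤ) → V → V} {L : (Fin 3 → ℤ) → V →L[ℝ] V}

/-- the inverse of the linear part -/
theorem exists_inv (H : CellsG θ M κ m₁ n k Ω Λ f v J A L) {z : Fin 3 → ℤ} (hz : z ∈ J) :
    ∃ N : V →L[ℝ] V, (∀ y, L z (N y) = y) ∧ ∀ x, N (L z x) = x := by
  have hinj : Function.Injective (L z) := by
    intro a b hab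
    have h1 := H.below z hz (a - b)
    rw [map_sub, hab, sub_self, norm_zero] at h1
    have h2 : ‖a - b‖ ≤ 0 := by
      by_contra hcon
      have := mul_pos H.θ0 (not_le.1 hcon)
      linarith
    exact sub_eq_zero.1 (norm_le_zero_iff.1 h2)
  let e : V ≃ₗ[ℝ] V := LinearEquiv.ofBijective (L z : V →ₗ[ℝ] V) ⟨hinj, H.surj_L hz⟩
  refine ⟨LinearMap.toContinuousLinearMap (e.symm : V →ₗ[ℝ] V), fun y => ?_, fun x => ?_⟩
  · exact e.apply_symm_apply y
  · exact e.symm_apply_apply x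

theorem M_pos (H : CellsG θ M κ m₁ n k Ω Λ f v J A L) {z : Fin 3 → ℤ} (hz : z ∈ J) :
    θ ≤ M := by
  have h1 := H.below z hz (ev 0)
  have h2 := H.above z hz (ev 0)
  have h3 : ‖(ev 0 : V)‖ = 1 := norm_ev' 0
  rw [h3] at h1 h2
  linarith

/-- a functional of the inverse is large on one axis -/
theorem exists_axis (H : CellsG θ M κ m₁ n k Ω Λ f v J A L) {z : Fin 3 → ℤ} (hz : z ∈ J)
    {N : V →L[ℝ] V} (hN : ∀ x, N (L z x) = x) (i : Fin 3) :
    ∃ l : Fin 3, 1 / (3 * M) ≤ |((ContinuousLinearMap.proj (R := ℝ)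
      (φ := fun _ : Fin 3 => ℝ) i).comp N) (ev l)| := by
  have hM : 0 < M := H.θ0.trans_le (H.M_pos hz)
  set ν := (ContinuousLinearMap.proj (R := ℝ) (φ := fun _ : Fin 3 => ℝ) i).comp N with hν
  by_contra hcon
  push Not at hcon
  have h1 : ν (L z (ev i)) = 1 := by
    rw [hν, ContinuousLinearMap.comp_apply, hN]
    simp [ev]
  rw [clm_apply_eq] at h1
  have h2 : ∀ l, |(L z (ev i)) l| ≤ M := by
    intro l
    have h3 := norm_le_pi_norm (L z (ev i)) l
    have h4 := H.above z hz (ev i)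
    have h5 : ‖(ev i : V)‖ = 1 := norm_ev' i
    rw [h5, mul_one] at h4
    exact h3.trans h4
  have h3 : |∑ l, (L z (ev i)) l * ν (ev l)| < 1 := by
    calc |∑ l, (L z (ev i)) l * ν (ev l)| ≤ ∑ l, |(L z (ev i)) l * ν (ev l)| :=
          Finset.abs_sum_le_sum_abs _ _
      _ ≤ ∑ l, M * |ν (ev l)| := by
          refine Finset.sum_le_sum fun l _ => ?_
          rw [abs_mul]
          exact mul_le_mul_of_nonneg_right (h2 l) (abs_nonneg _)
      _ < ∑ _l : Fin 3, M * (1 / (3 * M)) := by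
          refine Finset.sum_lt_sum_of_nonempty Finset.univ_nonempty fun l _ => ?_
          exact mul_lt_mul_of_pos_left (hcon l) hM
      _ = 1 := by
          rw [Finset.sum_const, Finset.card_univ, Fintype.card_fin, nsmul_eq_mul]
          field_simp
          norm_num
  rw [h1, abs_one] at h3
  exact lt_irrefl _ h3

/-- volume of the image of a slab in a cube -/
theorem volume_slab (H : CellsG θ M κ m₁ n k Ω Λ f v J A L) {z : Fin 3 → ℤ} (hz : z ∈ J)
    (i : Fin 3) (a : V) {r : ℝ} (hr : 0 ≤ r) {α β : ℝ} (hαβ : α ≤ β) :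
    volume {y | y ∈ closedBall a r ∧ ∃ x, A z x = y ∧ α ≤ x i ∧ x i ≤ β} ≤
      ENNReal.ofReal (3 * M * (β - α) * (2 * r) ^ 2) := by
  have hM : 0 < M := H.θ0.trans_le (H.M_pos hz)
  obtain ⟨N, hN1, hN2⟩ := H.exists_inv hz
  obtain ⟨l, hl⟩ := H.exists_axis hz hN2 i
  set ν := (ContinuousLinearMap.proj (R := ℝ) (φ := fun _ : Fin 3 => ℝ) i).comp N with hν
  have h1 := volume_slab_le ν (c := 1 / (3 * M)) (by positivity) hl a hr
    (α := α + ν (A z 0)) (β := β + ν (A z 0)) (by linarith)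
  refine (measure_mono ?_).trans (h1.trans (le_of_eq ?_))
  · rintro y ⟨hy, x, rfl, hx1, hx2⟩
    have h2 : ν (A z x) = x i + ν (A z 0) := by
      have h3 := H.eq_add hz 0 x
      rw [zero_add] at h3
      rw [h3, map_add, hν]
      simp only [ContinuousLinearMap.comp_apply, hN2, ContinuousLinearMap.proj_apply]
      ring
    exact ⟨hy, by rw [h2]; linarith, by rw [h2]; linarith⟩
  · congr 1
    rw [add_sub_add_right_eq_sub]
    field_simp

/-- the `r₁`-neighbourhood of the image of the boundary layers -/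
def Th (v : V) (n k : ℕ) (A : (Fin 3 → ℤ) → V → V) (r₁ : ℝ) (z : Fin 3 → ℤ) : Set V :=
  {y | ∃ x ∈ dyc v n z, x ∉ boxR v n k z ∧ ‖y - A z x‖ < r₁}

/-- volume of one thin set -/
theorem volume_Th_le (H : CellsG θ M κ m₁ n k Ω Λ f v J A L) {z : Fin 3 → ℤ} (hz : z ∈ J)
    (a : V) {r r₁ : ℝ} (hr : 0 ≤ r) (hr₁ : 0 ≤ r₁) :
    volume (Th v n k A r₁ z ∩ closedBall a r) ≤
      6 * ENNReal.ofReal (3 * M * (2 / 2 ^ (n + k) + 2 * (r₁ / θ)) * (2 * r) ^ 2) := by
  have hd : (0:ℝ) < 2 / 2 ^ (n + k) := by positivity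
  have hq : 0 ≤ r₁ / θ := div_nonneg hr₁ H.θ0.le
  set lo : Fin 3 → ℝ := fun i => v i + z i / 2 ^ n with hlo
  set hi : Fin 3 → ℝ := fun i => v i + (z i + 1) / 2 ^ n with hhi
  have hcov : Th v n k A r₁ z ∩ closedBall a r ⊆
      (⋃ i ∈ (Finset.univ : Finset (Fin 3)), {y | y ∈ closedBall a r ∧ ∃ x, A z x = y ∧
        lo i - r₁ / θ ≤ x i ∧ x i ≤ lo i + 2 / 2 ^ (n + k) + r₁ / θ}) ∪
      (⋃ i ∈ (Finset.univ : Finset (Fin 3)), {y | y ∈ closedBall a r ∧ ∃ x, A z x = y ∧
        hi i - 2 / 2 ^ (n + k) - r₁ / θ ≤ x i ∧ x i ≤ hi i + r₁ / θ}) := by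
    rintro y ⟨⟨x, hx, hxR, hy⟩, hya⟩
    obtain ⟨u, hu⟩ := H.surjective hz y
    have h1 : ‖u - x‖ ≤ r₁ / θ := by
      rw [le_div_iff₀ H.θ0, mul_comm]
      refine (H.le_dist hz u x).trans ?_
      rw [hu]; exact hy.le
    have h2 : ∀ i, |u i - x i| ≤ r₁ / θ := by
      intro i
      have := norm_le_pi_norm (u - x) i
      rw [Pi.sub_apply, Real.norm_eq_abs] at this
      exact this.trans h1
    have h3 : ∃ i, x i < lo i + 2 / 2 ^ (n + k) ∨ hi i - 2 / 2 ^ (n + k) < x i := by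
      by_contra hcon
      push Not at hcon
      exact hxR fun i => ⟨(hcon i).1, (hcon i).2⟩
    obtain ⟨i, h4⟩ := h3
    have h5 := abs_le.1 (h2 i)
    have h6 := hx i
    rcases h4 with h4 | h4
    · left
      refine mem_biUnion (Finset.mem_coe.2 (Finset.mem_univ i)) ⟨hya, u, hu, ?_, ?_⟩
      · show v i + z i / 2 ^ n - r₁ / θ ≤ u i
        linarith [h5.1, h6.1]
      · linarith [h5.2]
    · right
      refine mem_biUnion (Finset.mem_coe.2 (Finset.mem_univ i)) ⟨hya, u, hu, ?_, ?_⟩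
      · linarith [h5.1]
      · show u i ≤ v i + (z i + 1) / 2 ^ n + r₁ / θ
        linarith [h5.2, h6.2]
  refine (measure_mono hcov).trans ((measure_union_le _ _).trans ?_)
  have hs : ∀ (α β : Fin 3 → ℝ), (∀ i, β i - α i = 2 / 2 ^ (n + k) + 2 * (r₁ / θ)) →
      volume (⋃ i ∈ (Finset.univ : Finset (Fin 3)), {y | y ∈ closedBall a r ∧ ∃ x, A z x = y ∧
        α i ≤ x i ∧ x i ≤ β i}) ≤
      3 * ENNReal.ofReal (3 * M * (2 / 2 ^ (n + k) + 2 * (r₁ / θ)) * (2 * r) ^ 2) := by
    intro α β hαβ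
    refine (measure_biUnion_finset_le _ _).trans ?_
    calc ∑ i, volume {y | y ∈ closedBall a r ∧ ∃ x, A z x = y ∧ α i ≤ x i ∧ x i ≤ β i}
        ≤ ∑ _i : Fin 3, ENNReal.ofReal (3 * M * (2 / 2 ^ (n + k) + 2 * (r₁ / θ)) *
            (2 * r) ^ 2) := by
          refine Finset.sum_le_sum fun i _ => ?_
          have h7 := H.volume_slab hz i a hr (α := α i) (β := β i) (by
            have := hαβ i
            linarith)
          rwa [hαβ i] at h7
      _ = _ := by
          rw [Finset.sum_const, Finset.card_univ, Fintype.card_fin, nsmul_eq_mul]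
          norm_num
  refine (add_le_add (hs _ _ fun i => by ring) (hs _ _ fun i => by ring)).trans (le_of_eq ?_)
  rw [← add_mul]; norm_num

/-- the middle ball of a cell -/
theorem ball_sub_boxR (hk : 3 ≤ k) (v : V) (n : ℕ) (z : Fin 3 → ℤ) :
    closedBall (cen v n z) (1 / 4 / 2 ^ n) ⊆ boxR v n k z := by
  intro x hx i
  rw [mem_closedBall, dist_eq_norm] at hx
  have h1 := norm_le_pi_norm (x - cen v n z) i
  rw [Pi.sub_apply, Real.norm_eq_abs] at h1
  have h2 := abs_le.1 (h1.trans hx)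
  have e1 : cen v n z i = v i + (z i + 1 / 2) / 2 ^ n := rfl
  have e2 : (z i + 1 / 2 : ℝ) / 2 ^ n = z i / 2 ^ n + 1 / 2 ^ n / 2 := by ring
  have e3 : (z i + 1 : ℝ) / 2 ^ n = z i / 2 ^ n + 1 / 2 ^ n := by ring
  have e4 : (1:ℝ) / 4 / 2 ^ n = 1 / 2 ^ n / 4 := by ring
  have e5 : (2:ℝ) / 2 ^ (n + k) ≤ 1 / 2 ^ n / 4 := by
    have h3 : (8:ℝ) ≤ 2 ^ k := by
      calc (8:ℝ) = 2 ^ 3 := by norm_num
        _ ≤ 2 ^ k := pow_le_pow_right₀ (by norm_num) hk
    rw [pow_add, div_div, div_le_div_iff₀ (by positivity) (by positivity)]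
    have h4 : (0:ℝ) < 2 ^ n := by positivity
    nlinarith
  rw [e1, e2, e4] at h2
  rw [e3]
  constructor <;> linarith [h2.1, h2.2]

/-- the ball inside of the image of a cell -/
theorem ball_sub_image (H : CellsG θ M κ m₁ n k Ω Λ f v J A L) {z : Fin 3 → ℤ} (hz : z ∈ J) :
    closedBall (A z (cen v n z)) (θ * (1 / 4 / 2 ^ n)) ⊆ A z '' boxR v n k z := by
  intro y hy
  obtain ⟨u, rfl⟩ := H.surjective hz y
  refine ⟨u, ball_sub_boxR H.three_le v n z ?_, rfl⟩
  rw [mem_closedBall, dist_eq_norm] at hy ⊢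
  have h1 := (H.le_dist hz u (cen v n z)).trans hy
  exact le_of_mul_le_mul_left h1 H.θ0

open Classical in
/-- **the number of the cells whose images meet a small ball** -/
theorem card_le (H : CellsG θ M κ m₁ n k Ω Λ f v J A L) (hne : J.Nonempty) (a : V) {r : ℝ}
    (hr : r ≤ 2 / 2 ^ n) :
    ((J.filter fun z => (A z '' dyc v n z ∩ closedBall a r).Nonempty).card : ℝ) ≤
      (8 * (1 + M) / θ) ^ 3 := by
  set J' := J.filter fun z => (A z '' dyc v n z ∩ closedBall a r).Nonempty with hJ'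
  obtain ⟨z₀, hz₀⟩ := hne
  have hθM := H.M_pos hz₀
  have hθ := H.θ0
  have hM : 0 < M := hθ.trans_le hθM
  have hp : (0:ℝ) < 1 / 2 ^ n := by positivity
  set R : ℝ := (2 + 2 * M) * (1 / 2 ^ n) with hR
  have hR0 : 0 < R := by positivity
  have hsub : (⋃ z ∈ J', closedBall (A z (cen v n z)) (θ * (1 / 4 / 2 ^ n))) ⊆ closedBall a R := by
    refine iUnion₂_subset fun z hz => ?_
    rw [hJ', Finset.mem_filter] at hz
    obtain ⟨hzJ, _, ⟨x, hx, rfl⟩, hxa⟩ := hz
    intro y hy
    rw [mem_closedBall, dist_eq_norm] at hy hxa ⊢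
    have h1 := H.dist_le hzJ (cen v n z) x
    have h2 := P073.Net.NC.dist_le (dyo_sub_dyc (cen_mem v n z)) hx
    have h3 : ‖y - a‖ ≤ ‖y - A z (cen v n z)‖ + ‖A z (cen v n z) - A z x‖ + ‖A z x - a‖ := by
      have : y - a = (y - A z (cen v n z)) + (A z (cen v n z) - A z x) + (A z x - a) := by abel
      rw [this]
      exact (norm_add_le _ _).trans (by gcongr; exact norm_add_le _ _)
    have h4 : ‖A z (cen v n z) - A z x‖ ≤ M * (1 / 2 ^ n) := h1.trans (by gcongr)
    have h5 : θ * (1 / 4 / 2 ^ n) ≤ M * (1 / 2 ^ n) := by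
      have e : (1:ℝ) / 4 / 2 ^ n = 1 / 2 ^ n / 4 := by ring
      rw [e]
      nlinarith
    have h6 : (2:ℝ) / 2 ^ n = 2 * (1 / 2 ^ n) := by ring
    rw [h6] at hr
    rw [hR]
    linarith
  have hdisj : (J' : Set (Fin 3 → ℤ)).PairwiseDisjoint
      fun z => closedBall (A z (cen v n z)) (θ * (1 / 4 / 2 ^ n)) := by
    intro z hz z' hz' hzz
    rw [Finset.mem_coe, hJ', Finset.mem_filter] at hz hz'
    refine Disjoint.mono ((H.ball_sub_image hz.1).trans
      (image_mono (boxR_sub_dyc v n k z))) (H.ball_sub_image hz'.1) (H.disj hz.1 hz'.1 hzz)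
  have hvol := measure_mono (μ := volume) hsub
  rw [measure_biUnion_finset hdisj fun _ _ => isClosed_closedBall.measurableSet] at hvol
  have hv : ∀ z ∈ J', volume (closedBall (A z (cen v n z)) (θ * (1 / 4 / 2 ^ n))) =
      ENNReal.ofReal ((2 * (θ * (1 / 4 / 2 ^ n))) ^ 3) := by
    intro z _
    rw [Real.volume_pi_closedBall _ (by positivity), Fintype.card_fin]
  rw [Finset.sum_congr rfl hv, Finset.sum_const, nsmul_eq_mul,
    Real.volume_pi_closedBall _ hR0.le, Fintype.card_fin, ← ENNReal.ofReal_natCast,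
    ← ENNReal.ofReal_mul (by positivity)] at hvol
  rw [ENNReal.ofReal_le_ofReal_iff (by positivity)] at hvol
  have e1 : (2 * R) ^ 3 = (8 * (1 + M) / θ) ^ 3 * (2 * (θ * (1 / 4 / 2 ^ n))) ^ 3 := by
    rw [← mul_pow]
    congr 1
    rw [hR]
    field_simp
    ring
  rw [e1] at hvol
  exact le_of_mul_le_mul_right hvol (by positivity)

end CellsG

end Vale.Agent.P073.H83
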