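import Vale.Agent.P073.H83.Shift
import Vale.Agent.P073.H194.MeshDefs
import Vale.Agent.P073.H739.Avg
import Vale.Agent.P073.AB.Sum293a

/-!
# P073, block GEN-B, part 2: Riemann sums over dyadic boxes, coordinate by coordinate
-/

open Set Metric Topology Filter MeasureTheory
open scoped ENNReal
open Vale.Agent.P073.AB (Idx Part pt edge eInt squ FaceOf EdgeOf EdgeOfSq MinSq)
open P073.Net (dyc dyo)
open Vale.Agent.P073.St (V)
open Vale.Agent.P073.H194

namespace Vale.Agent.P073.H83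

/-- type of a coordinate: `none` free, `some (inl s)` lattice point below (above) the coordinate,
`some (inr c)` frozen at `c` -/
abbrev Kd : Type := Option (Bool ⊕ ℚ)

/-- lattice coordinate -/
noncomputable def la (s : Bool) (n : ℕ) (t : ℝ) : ℝ := (⌊t * 2 ^ n⌋ + (if s then 1 else 0)) / 2 ^ n

noncomputable def co (k : Kd) (n : ℕ) (t : ℝ) : ℝ :=
  match k with
  | none => t
  | some (Sum.inl s) => la s n t
  | some (Sum.inr c) => c

noncomputable def li (k : Kd) (t : ℝ) : ℝ :=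
  match k with
  | none => t
  | some (Sum.inl _) => t
  | some (Sum.inr c) => c

noncomputable def ph (κ : Fin 3 → Kd) (n : ℕ) (y : V) : V := fun i => co (κ i) n (y i)

noncomputable def ps (κ : Fin 3 → Kd) (y : V) : V := fun i => li (κ i) (y i)

theorem abs_la_sub_le (s : Bool) (n : ℕ) (t : ℝ) : |la s n t - t| ≤ 1 / 2 ^ n := by
  have hp : (0:ℝ) < 2 ^ n := by positivity
  have h1 := Int.floor_le (t * 2 ^ n)
  have h2 := Int.lt_floor_add_one (t * 2 ^ n)
  have h3 : la s n t - t = (⌊t * 2 ^ n⌋ + (if s then 1 else 0) - t * 2 ^ n) / 2 ^ n := by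
    rw [la]; field_simp
  rw [h3, abs_div, abs_of_pos hp]
  gcongr
  rw [abs_le]
  cases s
  · simp only [Bool.false_eq_true, if_false]
    constructor <;> linarith
  · simp only [if_true]
    constructor <;> linarith

theorem measurable_la (s : Bool) (n : ℕ) : Measurable (la s n) := by
  unfold la; fun_prop

theorem abs_co_sub_li (k : Kd) (n : ℕ) (t : ℝ) : |co k n t - li k t| ≤ 1 / 2 ^ n := by
  match k with
  | none => simp [co, li]
  | some (Sum.inl s) => exact abs_la_sub_le s n t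
  | some (Sum.inr c) => simp [co, li]

theorem measurable_co (k : Kd) (n : ℕ) : Measurable (co k n) := by
  match k with
  | none => exact measurable_id
  | some (Sum.inl s) => exact measurable_la s n
  | some (Sum.inr c) => exact measurable_const

theorem measurable_li (k : Kd) : Measurable (li k) := by
  match k with
  | none => exact measurable_id
  | some (Sum.inl s) => exact measurable_id
  | some (Sum.inr c) => exact measurable_const

theorem measurable_ph (κ : Fin 3 → Kd) (n : ℕ) : Measurable (ph κ n) :=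
  measurable_pi_lambda _ fun i => (measurable_co (κ i) n).comp (measurable_pi_apply i)

theorem measurable_ps (κ : Fin 3 → Kd) : Measurable (ps κ) :=
  measurable_pi_lambda _ fun i => (measurable_li (κ i)).comp (measurable_pi_apply i)

theorem norm_ph_sub_ps (κ : Fin 3 → Kd) (n : ℕ) (y : V) : ‖ph κ n y - ps κ y‖ ≤ 1 / 2 ^ n := by
  rw [pi_norm_le_iff_of_nonneg (by positivity)]
  intro i
  exact abs_co_sub_li (κ i) n (y i)

/-- half-open dyadic cube with origin `0` -/
def hc (q : Idx) : Set V :=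
  Set.pi univ fun i => Ico ((q.2 i : ℝ) / 2 ^ q.1) ((q.2 i + 1) / 2 ^ q.1)

theorem mem_hc {q : Idx} {y : V} :
    y ∈ hc q ↔ ∀ i, (q.2 i : ℝ) / 2 ^ q.1 ≤ y i ∧ y i < (q.2 i + 1) / 2 ^ q.1 := by
  simp [hc, mem_Ico]

theorem measurableSet_hc (q : Idx) : MeasurableSet (hc q) :=
  MeasurableSet.univ_pi fun _ => measurableSet_Ico

theorem volume_hc (q : Idx) : volume (hc q) = ENNReal.ofReal ((1 / 2 ^ q.1) ^ 3) := by
  rw [hc, volume_pi_pi]
  have h : ∀ i : Fin 3, volume (Ico ((q.2 i : ℝ) / 2 ^ q.1) ((q.2 i + 1) / 2 ^ q.1)) =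
      ENNReal.ofReal (1 / 2 ^ q.1) := by
    intro i
    rw [Real.volume_Ico]
    congr 1
    ring
  rw [Finset.prod_congr rfl fun i _ => h i, Finset.prod_const, Finset.card_univ,
    Fintype.card_fin, ENNReal.ofReal_pow (by positivity)]

theorem volume_hc_ne_top (q : Idx) : volume (hc q) ≠ ∞ := by
  rw [volume_hc]; exact ENNReal.ofReal_ne_top

instance (q : Idx) : IsFiniteMeasure ((volume : Measure V).restrict (hc q)) :=
  ⟨by rw [Measure.restrict_apply_univ]; exact (volume_hc_ne_top q).lt_top⟩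

/-- integrals over a dyadic cube with origin `v` -/
theorem setLIntegral_dyc (v : V) (q : Idx) (G : V → ℝ≥0∞) :
    ∫⁻ x in dyc v q.1 q.2, G x = ∫⁻ y in hc q, G (v + y) := by
  have h1 : (fun y : V => v + y) ⁻¹' dyc v q.1 q.2 = Icc (fun i => (q.2 i : ℝ) / 2 ^ q.1)
      (fun i => ((q.2 i : ℝ) + 1) / 2 ^ q.1) := by
    ext y
    simp only [mem_preimage, dyc, mem_ofPred_eq, Pi.add_apply, mem_Icc, Pi.le_def]
    constructor
    · intro h
      exact ⟨fun i => by linarith [(h i).1], fun i => by linarith [(h i).2]⟩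
    · rintro ⟨ha, hb⟩ i
      exact ⟨by linarith [ha i], by linarith [hb i]⟩
  have h2 : hc q =ᵐ[volume] (fun y : V => v + y) ⁻¹' dyc v q.1 q.2 := by
    rw [h1]
    exact Measure.univ_pi_Ico_ae_eq_Icc
  rw [Measure.restrict_congr_set h2]
  exact ((measurePreserving_add_left (volume : Measure V) v).setLIntegral_comp_preimage_emb
    (measurableEmbedding_addLeft v) G _).symm

/-- the dyadic subcubes of generation `n` -/
noncomputable def subs (q : Idx) (n : ℕ) : Finset (Fin 3 → ℤ) :=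
  Fintype.piFinset fun i => Finset.Ico (2 ^ (n - q.1) * q.2 i) (2 ^ (n - q.1) * (q.2 i + 1))

theorem mem_subs {q : Idx} {n : ℕ} {w : Fin 3 → ℤ} :
    w ∈ subs q n ↔ ∀ i, 2 ^ (n - q.1) * q.2 i ≤ w i ∧ w i < 2 ^ (n - q.1) * (q.2 i + 1) := by
  simp [subs]

theorem two_pow_split {m n : ℕ} (h : m ≤ n) : (2:ℝ) ^ n = 2 ^ (n - m) * 2 ^ m := by
  rw [← pow_add, Nat.sub_add_cancel h]

/-- floor on half-open cells -/
theorem floor_of_mem {n : ℕ} {w : ℤ} {t : ℝ} (h1 : (w : ℝ) / 2 ^ n ≤ t) (h2 : t < (w + 1) / 2 ^ n) :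
    ⌊t * 2 ^ n⌋ = w := by
  have hp : (0:ℝ) < 2 ^ n := by positivity
  rw [Int.floor_eq_iff]
  rw [div_le_iff₀ hp] at h1
  rw [lt_div_iff₀ hp] at h2
  exact ⟨h1, h2⟩

theorem hc_eq_biUnion (q : Idx) {n : ℕ} (hn : q.1 ≤ n) : hc q = ⋃ w ∈ subs q n, hc (n, w) := by
  have hp : (0:ℝ) < 2 ^ n := by positivity
  have hp' : (0:ℝ) < 2 ^ q.1 := by positivity
  have hs := two_pow_split hn
  ext y
  simp only [mem_iUnion, exists_prop]
  constructor
  · intro hy
    rw [mem_hc] at hy
    refine ⟨fun i => ⌊y i * 2 ^ n⌋, ?_, ?_⟩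
    · rw [mem_subs]
      intro i
      obtain ⟨h1, h2⟩ := hy i
      rw [div_le_iff₀ hp'] at h1
      rw [lt_div_iff₀ hp'] at h2
      constructor
      · rw [Int.le_floor]
        push_cast
        rw [hs]
        nlinarith [pow_pos (show (0:ℝ) < 2 by norm_num) (n - q.1)]
      · rw [Int.floor_lt]
        push_cast
        rw [hs]
        nlinarith [pow_pos (show (0:ℝ) < 2 by norm_num) (n - q.1)]
    · rw [mem_hc]
      intro i
      show (⌊y i * 2 ^ n⌋ : ℝ) / 2 ^ n ≤ y i ∧ y i < (⌊y i * 2 ^ n⌋ + 1) / 2 ^ n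
      rw [div_le_iff₀ hp, lt_div_iff₀ hp]
      exact ⟨Int.floor_le _, Int.lt_floor_add_one _⟩
  · rintro ⟨w, hw, hy⟩
    rw [mem_subs] at hw
    rw [mem_hc] at hy ⊢
    intro i
    obtain ⟨h1, h2⟩ := hy i
    obtain ⟨h3, h4⟩ := hw i
    have h3' : (2:ℝ) ^ (n - q.1) * q.2 i ≤ w i := by exact_mod_cast h3
    have h4' : (w i : ℝ) + 1 ≤ (2:ℝ) ^ (n - q.1) * (q.2 i + 1) := by exact_mod_cast h4
    have e1 : (q.2 i : ℝ) / 2 ^ q.1 = (2 ^ (n - q.1) * q.2 i) / 2 ^ n := by
      rw [hs]; field_simp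
    have e2 : ((q.2 i : ℝ) + 1) / 2 ^ q.1 = (2 ^ (n - q.1) * (q.2 i + 1)) / 2 ^ n := by
      rw [hs]; field_simp
    rw [e1, e2]
    constructor
    · refine le_trans ?_ h1
      show _ ≤ (w i : ℝ) / 2 ^ n
      gcongr
    · refine lt_of_lt_of_le h2 ?_
      show ((w i : ℝ) + 1) / 2 ^ n ≤ _
      gcongr

theorem hc_disjoint {n : ℕ} {w w' : Fin 3 → ℤ} (h : w ≠ w') : Disjoint (hc (n, w)) (hc (n, w')) := by
  rw [Set.disjoint_left]
  intro y hy hy'
  rw [mem_hc] at hy hy'
  apply h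
  funext i
  have h1 := floor_of_mem (hy i).1 (hy i).2
  have h2 := floor_of_mem (hy' i).1 (hy' i).2
  exact h1.symm.trans h2

theorem setLIntegral_hc (q : Idx) {n : ℕ} (hn : q.1 ≤ n) (G : V → ℝ≥0∞) :
    ∫⁻ y in hc q, G y = ∑ w ∈ subs q n, ∫⁻ y in hc (n, w), G y := by
  rw [hc_eq_biUnion q hn, lintegral_biUnion_finset]
  · intro w _ w' _ h
    exact hc_disjoint h
  · intro w _
    exact measurableSet_hc _

end Vale.Agent.P073.H83
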