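import Mathlib

/-!
# P073, [MORREY-SEG]: segments with small length in a square

`ψ` is Lipschitz on the plane, `q > 2`.  From every point `x` of a square with side `h` there is a
segment to the boundary of the square on which the variation of `ψ` is at most
`C h ^ (1 - 2 / q) ‖D ψ‖_q`.
-/

namespace Vale.Agent.P073.H83

open MeasureTheory Set Filter Topology
open scoped ENNReal NNReal

/-! ### Variation of a Lipschitz curve -/

theorem edist_le_lint {c : ℝ → (Fin 3 → ℝ)} {K : ℝ≥0} {a b : ℝ} (hc : LipschitzOnWith K c (Icc a b))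
    (hab : a ≤ b) : edist (c a) (c b) ≤ ∫⁻ t in Ioc a b, ‖deriv c t‖ₑ := by
  rw [edist_pi_def]
  refine Finset.sup_le fun i _ => ?_
  have hi : LipschitzOnWith K (fun t => c t i) (Icc a b) := by
    intro x hx y hy
    exact (edist_le_pi_edist (c x) (c y) i).trans (hc hx hy)
  have h1 : LipschitzOnWith K (fun t => c t i) (uIcc a b) := by
    rwa [uIcc_of_le hab]
  have h2 := h1.absolutelyContinuousOnInterval.integral_deriv_eq_sub
  rw [edist_comm, edist_eq_enorm_sub, ← h2, intervalIntegral.integral_of_le hab]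
  refine (enorm_integral_le_lintegral_enorm _).trans ?_
  refine lintegral_mono_ae ?_
  have h3 : ∀ᵐ t ∂(volume.restrict (Ioc a b)), DifferentiableAt ℝ c t := by
    have h4 := hc.ae_differentiableWithinAt_of_mem (μ := volume)
    have h5 : ∀ᵐ t : ℝ, t ≠ b := by
      simp [ae_iff, measure_singleton]
    rw [ae_restrict_iff' measurableSet_Ioc]
    filter_upwards [h4, h5] with t h4 h5 ht
    have h6 := h4 (Ioc_subset_Icc_self ht)
    exact h6.differentiableAt (Icc_mem_nhds ht.1 (lt_of_le_of_ne ht.2 h5))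
  filter_upwards [h3] with t ht
  have h7 : deriv (fun t => c t i) t = deriv c t i := by
    have := (hasDerivAt_pi.1 ht.hasDerivAt) i
    exact this.deriv
  rw [h7, ← ofReal_norm, ← ofReal_norm]
  exact ENNReal.ofReal_le_ofReal (norm_le_pi_norm (deriv c t) i)

theorem sum_lint_Ioc {g : ℝ → ℝ≥0∞} {u : ℕ → ℝ} (hu : Monotone u) (n : ℕ) :
    ∑ i ∈ Finset.range n, ∫⁻ t in Ioc (u i) (u (i + 1)), g t = ∫⁻ t in Ioc (u 0) (u n), g t := by
  induction n with
  | zero => simp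
  | succ n ih =>
    rw [Finset.sum_range_succ, ih, ← lintegral_union measurableSet_Ioc,
      Ioc_union_Ioc_eq_Ioc (hu (Nat.zero_le n)) (hu (Nat.le_succ n))]
    rw [Set.disjoint_left]
    intro x hx hx'
    exact absurd hx.2 (not_le.2 hx'.1)

theorem var_le_lint {c : ℝ → (Fin 3 → ℝ)} {K : ℝ≥0} {a b : ℝ} (hc : LipschitzOnWith K c (Icc a b))
    {g : ℝ → ℝ≥0∞} (hg : ∀ᵐ t ∂(volume.restrict (Icc a b)), ‖deriv c t‖ₑ ≤ g t) :
    eVariationOn c (Icc a b) ≤ ∫⁻ t in Icc a b, g t := by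
  refine iSup_le ?_
  rintro ⟨n, u, hu, hus⟩
  have h1 : ∀ i, edist (c (u (i + 1))) (c (u i)) ≤ ∫⁻ t in Ioc (u i) (u (i + 1)), ‖deriv c t‖ₑ := by
    intro i
    rw [edist_comm]
    exact edist_le_lint (hc.mono (Icc_subset_Icc (hus i).1 (hus (i + 1)).2)) (hu (Nat.le_succ i))
  calc ∑ i ∈ Finset.range n, edist (c (u (i + 1))) (c (u i))
      ≤ ∑ i ∈ Finset.range n, ∫⁻ t in Ioc (u i) (u (i + 1)), ‖deriv c t‖ₑ :=
        Finset.sum_le_sum fun i _ => h1 i
    _ = ∫⁻ t in Ioc (u 0) (u n), ‖deriv c t‖ₑ := sum_lint_Ioc hu n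
    _ ≤ ∫⁻ t in Icc a b, ‖deriv c t‖ₑ := by
        refine lintegral_mono_set ?_
        exact Ioc_subset_Icc_self.trans (Icc_subset_Icc (hus 0).1 (hus n).2)
    _ ≤ _ := lintegral_mono_ae hg

/-! ### Changes of variables -/

theorem lint_aff {s : ℝ} (hs : s ≠ 0) (c : ℝ) {F : ℝ → ℝ≥0∞} (hF : Measurable F) :
    ENNReal.ofReal |s| * ∫⁻ t, F (c + s * t) = ∫⁻ u, F u := by
  have h1 : ∫⁻ u, F (c + u) = ∫⁻ u, F u := lintegral_add_left_eq_self F c
  rw [← h1]
  have h2 := Real.smul_map_volume_mul_left hs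
  calc ENNReal.ofReal |s| * ∫⁻ t, F (c + s * t)
      = ENNReal.ofReal |s| * ∫⁻ u, F (c + u) ∂(Measure.map (fun t => s * t) volume) := by
        have h3 : Measurable fun u => F (c + u) := hF.comp (measurable_const_add c)
        rw [lintegral_map h3 (measurable_const_mul s)]
    _ = ∫⁻ u, F (c + u) ∂(ENNReal.ofReal |s| • Measure.map (fun t => s * t) volume) := by
        rw [lintegral_smul_measure, smul_eq_mul]
    _ = _ := by rw [h2]

/-- contraction to the point `x` in the interval `[a, b]` -/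
theorem lint_contr {s a b x : ℝ} (hs0 : 0 < s) (hs1 : s ≤ 1) (hx : x ∈ Icc a b)
    {F : ℝ → ℝ≥0∞} (hF : Measurable F) :
    ENNReal.ofReal s * ∫⁻ t in Icc a b, F (x + s * (t - x)) ≤ ∫⁻ u in Icc a b, F u := by
  have h1 := lint_aff hs0.ne' (x - s * x) (hF.indicator (measurableSet_Icc (a := a) (b := b)))
  rw [abs_of_pos hs0, lintegral_indicator measurableSet_Icc] at h1
  rw [← h1]
  refine mul_le_mul' le_rfl ?_
  rw [← lintegral_indicator measurableSet_Icc]
  refine lintegral_mono fun t => ?_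
  by_cases ht : t ∈ Icc a b
  · have h2 : x - s * x + s * t = x + s * (t - x) := by ring
    have h3 : x + s * (t - x) ∈ Icc a b := by
      constructor
      · nlinarith [ht.1, ht.2, hx.1, hx.2]
      · nlinarith [ht.1, ht.2, hx.1, hx.2]
    rw [h2, indicator_of_mem ht, indicator_of_mem h3]
  · rw [indicator_of_notMem ht]
    exact bot_le

/-- the interval between `x` and an end point of `[a, b]` -/
theorem lint_side {a b x A : ℝ} (hx : x ∈ Icc a b) (hA : A ∈ Icc a b) (hxA : A ≠ x)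
    {F : ℝ → ℝ≥0∞} (hF : Measurable F) :
    ENNReal.ofReal |A - x| * ∫⁻ s in Icc (0:ℝ) 1, F (x + s * (A - x)) ≤ ∫⁻ u in Icc a b, F u := by
  have h1 := lint_aff (sub_ne_zero.2 hxA) x (hF.indicator (measurableSet_Icc (a := a) (b := b)))
  rw [lintegral_indicator measurableSet_Icc] at h1
  rw [← h1]
  refine mul_le_mul' le_rfl ?_
  rw [← lintegral_indicator measurableSet_Icc]
  refine lintegral_mono fun s => ?_
  by_cases hs : s ∈ Icc (0:ℝ) 1
  · have h2 : x + (A - x) * s = x + s * (A - x) := by ring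
    have h3 : x + s * (A - x) ∈ Icc a b := by
      constructor
      · nlinarith [hs.1, hs.2, hx.1, hx.2, hA.1, hA.2]
      · nlinarith [hs.1, hs.2, hx.1, hx.2, hA.1, hA.2]
    rw [h2, indicator_of_mem hs, indicator_of_mem h3]
  · rw [indicator_of_notMem hs]
    exact bot_le

/-- the curve from `x` to `(A, t)` -/
def seg2 (x : ℝ × ℝ) (A t s : ℝ) : ℝ × ℝ := (x.1 + s * (A - x.1), x.2 + s * (t - x.2))

theorem continuous_seg2 (x : ℝ × ℝ) (A : ℝ) :
    Continuous fun p : ℝ × ℝ => seg2 x A p.1 p.2 := by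
  unfold seg2
  fun_prop

/-- **polar coordinates in a triangle** -/
theorem lint_tri {a b h A : ℝ} {x : ℝ × ℝ} (hh : 0 < h)
    (hx : x ∈ Icc a (a + h) ×ˢ Icc b (b + h)) (hA : A ∈ Icc a (a + h))
    (hxA : h / 2 ≤ |A - x.1|) {H : ℝ × ℝ → ℝ≥0∞} (hH : Measurable H) :
    ∫⁻ t in Icc b (b + h), ∫⁻ s in Icc (0:ℝ) 1, ENNReal.ofReal s * H (seg2 x A t s) ≤
      ENNReal.ofReal (2 / h) * ∫⁻ z in Icc a (a + h) ×ˢ Icc b (b + h), H z := by
  have hm : Measurable fun p : ℝ × ℝ => ENNReal.ofReal p.2 * H (seg2 x A p.1 p.2) :=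
    (ENNReal.measurable_ofReal.comp measurable_snd).mul
      (hH.comp (continuous_seg2 x A).measurable)
  have hAx : A ≠ x.1 := by
    rintro rfl
    rw [sub_self, abs_zero] at hxA
    linarith
  rw [lintegral_lintegral_swap hm.aemeasurable]
  set Φ : ℝ → ℝ≥0∞ := fun r => ∫⁻ u in Icc b (b + h), H (r, u) with hΦ
  have hΦm : Measurable Φ := hH.lintegral_prod_right'
  have h1 : ∀ s ∈ Icc (0:ℝ) 1, ∫⁻ t in Icc b (b + h), ENNReal.ofReal s * H (seg2 x A t s) ≤
      Φ (x.1 + s * (A - x.1)) := by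
    intro s hs
    rcases hs.1.eq_or_lt with h0 | h0
    · subst h0
      simp
    · have h2 : Measurable fun u => H (x.1 + s * (A - x.1), u) :=
        hH.comp (measurable_const.prodMk measurable_id)
      have h3 : Measurable fun t => H (seg2 x A t s) :=
        hH.comp ((continuous_seg2 x A).measurable.comp (measurable_id.prodMk measurable_const))
      rw [lintegral_const_mul _ h3]
      exact lint_contr h0 hs.2 hx.2 h2
  calc ∫⁻ s in Icc (0:ℝ) 1, ∫⁻ t in Icc b (b + h), ENNReal.ofReal s * H (seg2 x A t s)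
      ≤ ∫⁻ s in Icc (0:ℝ) 1, Φ (x.1 + s * (A - x.1)) :=
        setLIntegral_mono' measurableSet_Icc h1
    _ ≤ ENNReal.ofReal (2 / h) * (ENNReal.ofReal |A - x.1| *
          ∫⁻ s in Icc (0:ℝ) 1, Φ (x.1 + s * (A - x.1))) := by
        rw [← mul_assoc, ← ENNReal.ofReal_mul (by positivity)]
        conv_lhs => rw [← one_mul (∫⁻ s in Icc (0:ℝ) 1, Φ (x.1 + s * (A - x.1)))]
        gcongr
        rw [← ENNReal.ofReal_one]
        apply ENNReal.ofReal_le_ofReal
        rw [div_mul_eq_mul_div, le_div_iff₀ hh]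
        linarith
    _ ≤ ENNReal.ofReal (2 / h) * ∫⁻ r in Icc a (a + h), Φ r := by
        gcongr
        exact lint_side hx.1 hA hAx hΦm
    _ = _ := by
        rw [Measure.volume_eq_prod, ← Measure.prod_restrict, lintegral_prod _ hH.aemeasurable]

/-! ### The weight -/

/-- the integral of the weight -/
noncomputable def kap (q : ℝ) : ℝ≥0∞ :=
  ∫⁻ s in Icc (0:ℝ) 1, ENNReal.ofReal s ^ (-(1 / (q - 1)))

theorem kap_ne_top {q : ℝ} (hq : 2 < q) : kap q ≠ ⊤ := by
  have h1 : -1 < -(1 / (q - 1)) := by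
    have : 1 / (q - 1) < 1 := by
      rw [div_lt_one (by linarith)]
      linarith
    linarith
  have h2 := (intervalIntegral.intervalIntegrable_rpow' (a := 0) (b := 1) h1).1
  have h3 : kap q = ∫⁻ s in Ioc (0:ℝ) 1, ‖s ^ (-(1 / (q - 1)))‖ₑ := by
    unfold kap
    rw [← Measure.restrict_congr_set (Ioc_ae_eq_Icc (α := ℝ) (μ := volume))]
    refine setLIntegral_congr_fun measurableSet_Ioc fun s hs => ?_
    rw [ENNReal.ofReal_rpow_of_pos hs.1, ← ofReal_norm, Real.norm_eq_abs,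
      abs_of_nonneg (Real.rpow_nonneg hs.1.le _)]
  rw [h3]
  exact h2.2.ne

/-- the constant -/
noncomputable def CM (q : ℝ) : ℝ := 2 ^ (1 / q) * (kap q).toReal ^ (1 - 1 / q) + 1

theorem CM_pos (q : ℝ) : 0 < CM q := by
  unfold CM
  positivity

/-- **Hölder** in the triangle -/
theorem holder_tri {q : ℝ} (hq : 2 < q) {a b h A : ℝ} {x : ℝ × ℝ} (hh : 0 < h)
    (hx : x ∈ Icc a (a + h) ×ˢ Icc b (b + h)) (hA : A ∈ Icc a (a + h))
    (hxA : h / 2 ≤ |A - x.1|) {G : ℝ × ℝ → ℝ≥0∞} (hG : Measurable G) :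
    ∫⁻ t in Icc b (b + h), ∫⁻ s in Icc (0:ℝ) 1, G (seg2 x A t s) ≤
      ENNReal.ofReal (CM q * h ^ (1 - 2 / q)) *
        (∫⁻ z in Icc a (a + h) ×ˢ Icc b (b + h), G z ^ q) ^ (1 / q) := by
  have hq0 : 0 < q := by linarith
  have hq1 : 0 < q - 1 := by linarith
  set q' : ℝ := q / (q - 1) with hq'
  have hconj : q.HolderConjugate q' := Real.HolderConjugate.conjExponent (by linarith)
  set μ : Measure (ℝ × ℝ) := (volume.restrict (Icc b (b + h))).prod
    (volume.restrict (Icc (0:ℝ) 1)) with hμ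
  have hGs : Measurable fun p : ℝ × ℝ => G (seg2 x A p.1 p.2) :=
    hG.comp (continuous_seg2 x A).measurable
  set f₁ : ℝ × ℝ → ℝ≥0∞ := fun p => G (seg2 x A p.1 p.2) * ENNReal.ofReal p.2 ^ (1 / q) with hf₁
  set f₂ : ℝ × ℝ → ℝ≥0∞ := fun p => ENNReal.ofReal p.2 ^ (-(1 / q)) with hf₂
  have hm₁ : Measurable f₁ :=
    hGs.mul ((ENNReal.measurable_ofReal.comp measurable_snd).pow_const _)
  have hm₂ : Measurable f₂ := (ENNReal.measurable_ofReal.comp measurable_snd).pow_const _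
  have e0 : ∫⁻ t in Icc b (b + h), ∫⁻ s in Icc (0:ℝ) 1, G (seg2 x A t s) =
      ∫⁻ p, G (seg2 x A p.1 p.2) ∂μ := by
    rw [hμ, lintegral_prod _ hGs.aemeasurable]
  have e1 : ∫⁻ p, G (seg2 x A p.1 p.2) ∂μ ≤ ∫⁻ p, (f₁ * f₂) p ∂μ := by
    refine lintegral_mono_ae ?_
    have h0 : ∀ᵐ p ∂μ, 0 < p.2 := by
      rw [hμ, Measure.ae_prod_iff_ae_ae (measurableSet_lt measurable_const measurable_snd)]
      refine Eventually.of_forall fun t => ?_
      rw [ae_restrict_iff' measurableSet_Icc]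
      have : ∀ᵐ s : ℝ, s ≠ 0 := by simp [ae_iff, measure_singleton]
      filter_upwards [this] with s hs hs'
      exact lt_of_le_of_ne hs'.1 (Ne.symm hs)
    filter_upwards [h0] with p hp
    simp only [hf₁, hf₂, Pi.mul_apply]
    rw [mul_assoc, ← ENNReal.rpow_add _ _ (by simpa using hp) ENNReal.ofReal_ne_top]
    simp
  have e2 := ENNReal.lintegral_mul_le_Lp_mul_Lq μ hconj hm₁.aemeasurable hm₂.aemeasurable
  have e3 : ∫⁻ p, f₁ p ^ q ∂μ ≤
      ENNReal.ofReal (2 / h) * ∫⁻ z in Icc a (a + h) ×ˢ Icc b (b + h), G z ^ q := by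
    have h1 : ∀ p, f₁ p ^ q = ENNReal.ofReal p.2 * G (seg2 x A p.1 p.2) ^ q := by
      intro p
      simp only [hf₁]
      rw [ENNReal.mul_rpow_of_nonneg _ _ hq0.le, ← ENNReal.rpow_mul, one_div,
        inv_mul_cancel₀ hq0.ne', ENNReal.rpow_one, mul_comm]
    simp_rw [h1]
    have h2 := lint_tri hh hx hA hxA (hG.pow_const q)
    refine le_trans (le_of_eq ?_) h2
    have h3 : Measurable fun p : ℝ × ℝ => ENNReal.ofReal p.2 * G (seg2 x A p.1 p.2) ^ q :=
      (ENNReal.measurable_ofReal.comp measurable_snd).mul (hGs.pow_const q)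
    rw [hμ, lintegral_prod _ h3.aemeasurable]
  have e4 : ∫⁻ p, f₂ p ^ q' ∂μ = ENNReal.ofReal h * kap q := by
    have h1 : ∀ p, f₂ p ^ q' = ENNReal.ofReal p.2 ^ (-(1 / (q - 1))) := by
      intro p
      simp only [hf₂]
      rw [← ENNReal.rpow_mul]
      congr 1
      rw [hq']
      field_simp
    simp_rw [h1]
    have h3 : Measurable fun p : ℝ × ℝ => ENNReal.ofReal p.2 ^ (-(1 / (q - 1))) :=
      (ENNReal.measurable_ofReal.comp measurable_snd).pow_const _
    rw [hμ, lintegral_prod _ h3.aemeasurable]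
    simp only [lintegral_const, Measure.restrict_apply MeasurableSet.univ, univ_inter,
      Real.volume_Icc]
    rw [kap, mul_comm]
    congr 2
    ring
  rw [e0]
  refine (e1.trans e2).trans ?_
  rw [e4]
  calc (∫⁻ p, f₁ p ^ q ∂μ) ^ (1 / q) * (ENNReal.ofReal h * kap q) ^ (1 / q')
      ≤ (ENNReal.ofReal (2 / h) * ∫⁻ z in Icc a (a + h) ×ˢ Icc b (b + h), G z ^ q) ^ (1 / q) *
        (ENNReal.ofReal h * kap q) ^ (1 / q') := by
        gcongr
    _ = (ENNReal.ofReal (2 / h) ^ (1 / q) * (ENNReal.ofReal h * kap q) ^ (1 / q')) *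
        (∫⁻ z in Icc a (a + h) ×ˢ Icc b (b + h), G z ^ q) ^ (1 / q) := by
        rw [ENNReal.mul_rpow_of_nonneg _ _ (by positivity)]
        ring
    _ ≤ _ := by
        gcongr
        have hk := kap_ne_top hq
        have hk' : kap q = ENNReal.ofReal (kap q).toReal := (ENNReal.ofReal_toReal hk).symm
        have hi : 1 / q' = 1 - 1 / q := by
          rw [hq']
          field_simp
        rw [hk', ← ENNReal.ofReal_mul hh.le, hi, ENNReal.ofReal_rpow_of_nonneg (by positivity)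
          (by positivity), ENNReal.ofReal_rpow_of_nonneg (by positivity) ?_,
          ← ENNReal.ofReal_mul (by positivity)]
        · apply ENNReal.ofReal_le_ofReal
          have e5 : (2 / h : ℝ) ^ (1 / q) * (h * (kap q).toReal) ^ (1 - 1 / q) =
              2 ^ (1 / q) * (kap q).toReal ^ (1 - 1 / q) * h ^ (1 - 2 / q) := by
            have e6 : h ^ (1 - 2 / q) = h ^ (1 - 1 / q) / h ^ (1 / q) := by
              rw [← Real.rpow_sub hh]
              congr 1
              ring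
            rw [Real.div_rpow (by norm_num) hh.le, Real.mul_rpow hh.le ENNReal.toReal_nonneg, e6]
            ring
          rw [e5]
          unfold CM
          gcongr
          linarith
        · rw [sub_nonneg, div_le_one hq0]
          linarith

/-! ### The segment -/

theorem ae_pos_Icc : ∀ᵐ s ∂(volume.restrict (Icc (0:ℝ) 1)), 0 < s := by
  rw [ae_restrict_iff' measurableSet_Icc]
  have : ∀ᵐ s : ℝ, s ≠ 0 := by simp [ae_iff, measure_singleton]
  filter_upwards [this] with s hs hs'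
  exact lt_of_le_of_ne hs'.1 (Ne.symm hs)

/-- a null set is met in a null set by almost all segments -/
theorem ae_tri {a b h A : ℝ} {x : ℝ × ℝ} (hh : 0 < h)
    (hx : x ∈ Icc a (a + h) ×ˢ Icc b (b + h)) (hA : A ∈ Icc a (a + h))
    (hxA : h / 2 ≤ |A - x.1|) {N : Set (ℝ × ℝ)} (hNm : MeasurableSet N) (hN0 : volume N = 0) :
    ∀ᵐ t ∂(volume.restrict (Icc b (b + h))), ∀ᵐ s ∂(volume.restrict (Icc (0:ℝ) 1)),
      seg2 x A t s ∉ N := by
  have hNt : ∫⁻ t in Icc b (b + h), ∫⁻ s in Icc (0:ℝ) 1,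
      ENNReal.ofReal s * N.indicator 1 (seg2 x A t s) = 0 := by
    refine le_antisymm ((lint_tri hh hx hA hxA (measurable_one.indicator hNm)).trans ?_) bot_le
    rw [lintegral_indicator_one hNm]
    have : (volume.restrict (Icc a (a + h) ×ˢ Icc b (b + h))) N = 0 :=
      le_antisymm ((Measure.restrict_apply_le _ _).trans hN0.le) bot_le
    rw [this, mul_zero]
  have hNm2 : Measurable fun p : ℝ × ℝ =>
      ENNReal.ofReal p.2 * N.indicator (1 : ℝ × ℝ → ℝ≥0∞) (seg2 x A p.1 p.2) :=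
    (ENNReal.measurable_ofReal.comp measurable_snd).mul
      ((measurable_one.indicator hNm).comp (continuous_seg2 x A).measurable)
  have h1 := (lintegral_eq_zero_iff hNm2.lintegral_prod_right').1 hNt
  filter_upwards [h1] with t ht
  have h2 : Measurable fun s : ℝ =>
      ENNReal.ofReal s * N.indicator (1 : ℝ × ℝ → ℝ≥0∞) (seg2 x A t s) :=
    hNm2.comp (measurable_const.prodMk measurable_id)
  have h3 := (lintegral_eq_zero_iff h2).1 ht
  filter_upwards [h3, ae_pos_Icc] with s hs hs0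
  intro h5
  rw [indicator_of_mem h5] at hs
  simp only [Pi.one_apply, mul_one, Pi.zero_apply, ENNReal.ofReal_eq_zero] at hs
  linarith

/-- the speed on a segment -/
theorem enorm_deriv_seg {ψ : ℝ × ℝ → (Fin 3 → ℝ)} {x w : ℝ × ℝ} {s h : ℝ} (hh : 0 ≤ h)
    (hw : ‖w‖ ≤ h)
    (hs : DifferentiableAt ℝ ψ (x + s • w)) :
    ‖deriv (fun s : ℝ => ψ (x + s • w)) s‖ₑ ≤
      ENNReal.ofReal h * (‖lineDeriv ℝ ψ (x + s • w) (1, 0)‖ₑ +
        ‖lineDeriv ℝ ψ (x + s • w) (0, 1)‖ₑ) := by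
  have h1 : HasDerivAt (fun s : ℝ => x + s • w) w s := by
    have := ((hasDerivAt_id s).smul_const w).const_add x
    simpa using this
  have h2 : HasDerivAt (fun s : ℝ => ψ (x + s • w)) (fderiv ℝ ψ (x + s • w) w) s :=
    hs.hasFDerivAt.comp_hasDerivAt s h1
  rw [h2.deriv]
  have h3 : w = w.1 • ((1, 0) : ℝ × ℝ) + w.2 • ((0, 1) : ℝ × ℝ) := by
    ext <;> simp
  have e1 : fderiv ℝ ψ (x + s • w) (1, 0) = lineDeriv ℝ ψ (x + s • w) (1, 0) :=
    (hs.lineDeriv_eq_fderiv).symm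
  have e2 : fderiv ℝ ψ (x + s • w) (0, 1) = lineDeriv ℝ ψ (x + s • w) (0, 1) :=
    (hs.lineDeriv_eq_fderiv).symm
  have h4 : ‖fderiv ℝ ψ (x + s • w) w‖ ≤ h * (‖lineDeriv ℝ ψ (x + s • w) (1, 0)‖ +
      ‖lineDeriv ℝ ψ (x + s • w) (0, 1)‖) := by
    have h7 : fderiv ℝ ψ (x + s • w) w = w.1 • fderiv ℝ ψ (x + s • w) (1, 0) +
        w.2 • fderiv ℝ ψ (x + s • w) (0, 1) := by
      rw [← map_smul, ← map_smul, ← map_add, ← h3]
    rw [h7, e1, e2]
    refine (norm_add_le _ _).trans ?_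
    rw [norm_smul, norm_smul, mul_add]
    have h5 : ‖w.1‖ ≤ h := (norm_fst_le w).trans hw
    have h6 : ‖w.2‖ ≤ h := (norm_snd_le w).trans hw
    gcongr
  rw [← ofReal_norm, ← ofReal_norm, ← ofReal_norm, ← ENNReal.ofReal_add (norm_nonneg _)
    (norm_nonneg _), ← ENNReal.ofReal_mul hh]
  exact ENNReal.ofReal_le_ofReal h4

/-- a good value of the parameter -/
theorem exists_good {b h : ℝ} (hh : 0 < h) {f : ℝ → ℝ≥0∞} (hf : Measurable f) {P : ℝ → Prop}
    (hP : ∀ᵐ t ∂(volume.restrict (Icc b (b + h))), P t) :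
    ∃ t ∈ Icc b (b + h), P t ∧ ENNReal.ofReal h * f t ≤ ∫⁻ t in Icc b (b + h), f t := by
  have hμ0 : volume.restrict (Icc b (b + h)) ≠ 0 := by
    intro h0
    have : volume.restrict (Icc b (b + h)) univ = 0 := by rw [h0]; simp
    rw [Measure.restrict_apply MeasurableSet.univ, univ_inter, Real.volume_Icc] at this
    simp at this
    linarith
  have h1 : ∀ᵐ t ∂(volume.restrict (Icc b (b + h))), t ∈ Icc b (b + h) ∧ P t :=
    (ae_restrict_mem measurableSet_Icc).and hP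
  obtain ⟨t, ht, h2⟩ := exists_notMem_null_le_laverage hμ0 hf.aemeasurable (ae_iff.1 h1)
  obtain ⟨h3, h4⟩ := not_not.1 ht
  refine ⟨t, h3, h4, ?_⟩
  rw [laverage_eq, Measure.restrict_apply MeasurableSet.univ, univ_inter, Real.volume_Icc,
    add_sub_cancel_left] at h2
  calc ENNReal.ofReal h * f t ≤ ENNReal.ofReal h *
        ((∫⁻ t in Icc b (b + h), f t) / ENNReal.ofReal h) := mul_le_mul' le_rfl h2
    _ ≤ _ := ENNReal.mul_div_le

theorem exists_side {a h x : ℝ} (hh : 0 < h) :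
    ∃ A ∈ Icc a (a + h), (A = a ∨ A = a + h) ∧ h / 2 ≤ |A - x| := by
  rcases le_total (x - a) (h / 2) with h1 | h1
  · exact ⟨a + h, ⟨by linarith, le_rfl⟩, Or.inr rfl, le_trans (by linarith) (le_abs_self _)⟩
  · exact ⟨a, ⟨le_rfl, by linarith⟩, Or.inl rfl, le_trans (by linarith) (neg_le_abs _)⟩

theorem norm_sub_le_side {a b h : ℝ} {x y : ℝ × ℝ}
    (hx : x ∈ Icc a (a + h) ×ˢ Icc b (b + h)) (hy : y ∈ Icc a (a + h) ×ˢ Icc b (b + h)) :
    ‖y - x‖ ≤ h := by
  obtain ⟨⟨h1, h2⟩, ⟨h3, h4⟩⟩ := hx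
  obtain ⟨⟨h5, h6⟩, ⟨h7, h8⟩⟩ := hy
  rw [Prod.norm_def]
  refine max_le ?_ ?_
  · show ‖y.1 - x.1‖ ≤ h
    rw [Real.norm_eq_abs, _root_.abs_le]
    exact ⟨by linarith, by linarith⟩
  · show ‖y.2 - x.2‖ ≤ h
    rw [Real.norm_eq_abs, _root_.abs_le]
    exact ⟨by linarith, by linarith⟩

theorem lip_seg {ψ : ℝ × ℝ → (Fin 3 → ℝ)} {K : ℝ≥0} (hψ : LipschitzWith K ψ) (x w : ℝ × ℝ) :
    LipschitzOnWith (K * ‖w‖₊) (fun s : ℝ => ψ (x + s • w)) (Icc 0 1) := by
  have h1 : LipschitzWith (‖w‖₊) (fun s : ℝ => x + s • w) := by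
    refine LipschitzWith.of_dist_le_mul fun s s' => ?_
    rw [dist_eq_norm, add_sub_add_left_eq_sub, ← sub_smul, norm_smul, dist_eq_norm, coe_nnnorm,
      mul_comm]
  exact (hψ.comp h1).lipschitzOnWith

/-- norm of the derivative -/
noncomputable def nD (ψ : ℝ × ℝ → (Fin 3 → ℝ)) (z : ℝ × ℝ) : ℝ≥0∞ :=
  ‖lineDeriv ℝ ψ z (1, 0)‖ₑ + ‖lineDeriv ℝ ψ z (0, 1)‖ₑ

theorem measurable_nD {ψ : ℝ × ℝ → (Fin 3 → ℝ)} (hψ : Continuous ψ) : Measurable (nD ψ) :=
  (measurable_lineDeriv hψ).enorm.add (measurable_lineDeriv hψ).enorm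

theorem var_seg_le {ψ : ℝ × ℝ → (Fin 3 → ℝ)} {K : ℝ≥0} (hψ : LipschitzWith K ψ) {x : ℝ × ℝ}
    {A t h : ℝ}
    (hh : 0 ≤ h) (hw : ‖((A, t) : ℝ × ℝ) - x‖ ≤ h)
    (hd : ∀ᵐ s ∂(volume.restrict (Icc (0:ℝ) 1)), DifferentiableAt ℝ ψ (seg2 x A t s)) :
    eVariationOn (fun s : ℝ => ψ (x + s • (((A, t) : ℝ × ℝ) - x))) (Icc 0 1) ≤
      ENNReal.ofReal h * ∫⁻ s in Icc (0:ℝ) 1, nD ψ (seg2 x A t s) := by
  have hder : ∀ᵐ s ∂(volume.restrict (Icc (0:ℝ) 1)),
      ‖deriv (fun s : ℝ => ψ (x + s • (((A, t) : ℝ × ℝ) - x))) s‖ₑ ≤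
        ENNReal.ofReal h * nD ψ (seg2 x A t s) := by
    filter_upwards [hd] with s hs
    exact enorm_deriv_seg hh hw hs
  refine (var_le_lint (lip_seg hψ x _) hder).trans ?_
  have hGt : Measurable fun s : ℝ => nD ψ (seg2 x A t s) :=
    (measurable_nD hψ.continuous).comp
      ((continuous_seg2 x A).measurable.comp (measurable_const.prodMk measurable_id))
  rw [lintegral_const_mul _ hGt]

/-- **Morrey with segments, in the plane** -/
theorem morrey2 {q : ℝ} (hq : 2 < q) {ψ : ℝ × ℝ → (Fin 3 → ℝ)} {K : ℝ≥0} (hψ : LipschitzWith K ψ)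
    {a b h : ℝ} {x : ℝ × ℝ} (hh : 0 < h) (hx : x ∈ Icc a (a + h) ×ˢ Icc b (b + h)) :
    ∃ y ∈ Icc a (a + h) ×ˢ Icc b (b + h), (y.1 = a ∨ y.1 = a + h) ∧
      eVariationOn (fun s : ℝ => ψ (x + s • (y - x))) (Icc 0 1) ≤
        ENNReal.ofReal (CM q * h ^ (1 - 2 / q)) *
        (∫⁻ z in Icc a (a + h) ×ˢ Icc b (b + h), nD ψ z ^ q) ^ (1 / q) := by
  obtain ⟨A, hAI, hA, hxA⟩ := exists_side (a := a) (x := x.1) hh
  have hGm := measurable_nD hψ.continuous
  have hGs : Measurable fun p : ℝ × ℝ => nD ψ (seg2 x A p.1 p.2) :=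
    hGm.comp (continuous_seg2 x A).measurable
  have hae : ∀ᵐ z : ℝ × ℝ, DifferentiableAt ℝ ψ z := hψ.ae_differentiableAt
  have hNae := ae_tri hh hx hAI hxA (measurableSet_of_differentiableAt ℝ ψ).compl hae
  have hm : Measurable fun t => ∫⁻ s in Icc (0:ℝ) 1, nD ψ (seg2 x A t s) :=
    hGs.lintegral_prod_right'
  obtain ⟨t, htI, htd, ht⟩ := exists_good hh hm hNae
  have hy : ((A, t) : ℝ × ℝ) ∈ Icc a (a + h) ×ˢ Icc b (b + h) := ⟨hAI, htI⟩
  refine ⟨(A, t), hy, hA, ?_⟩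
  refine (var_seg_le hψ hh.le (norm_sub_le_side hx hy) ?_).trans
    (ht.trans (holder_tri hq hh hx hAI hxA hGm))
  filter_upwards [htd] with s hs
  exact not_not.1 hs

end Vale.Agent.P073.H83
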