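import Vale.Agent.P073.H989.SubC
import Vale.Agent.P073.H333.Gener

/-!
# P073, PRE-2 (`p = 2`), [OWN2]: the edges of the tiles which touch the good cells

`fown2`: `f` is close to the affine map; `own2`: the energy.
-/

namespace Vale.Agent.P073.H83

open MeasureTheory Set Filter Topology Metric Vale.Agent.P073.St Vale.Agent.P073.AB
open Vale.Agent.P073.SQ (ev)
open _root_.P073.Net (dyc dyo)
open Vale.Agent.P073.H234
open Vale.Agent.P073.H194 (idx sInt)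
open Vale.Agent.P073.H989 (touch_sub)
open scoped ENNReal

variable {p : ℝ} {ε : ℝ≥0∞} {θ M κ c₀ t₀ δ₀ ε₁ : ℝ} {j : ℕ} {Ω Λ : Set V} {f : V → V}
  {F : V → Mat} {T : Set V} {v : V} {m n N : ℕ}
  {C : P2Cells p ε θ M κ c₀ t₀ δ₀ j Ω Λ f F T v m} {J' : Finset (Fin 3 → ℤ)}
  {π : (Fin 3 → ℤ) → Fin 3 → ℤ}

/-- the own lattice is finer than `t₀` -/
theorem lat_le (C : P2Cells p ε θ M κ c₀ t₀ δ₀ j Ω Λ f F T v m) : (1 / 2 ^ (m + j) : ℝ) ≤ t₀ := by
  have h1 := C.small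
  have h2 : (1 / 2 ^ (m + j) : ℝ) ≤ 1 / 2 ^ m := by
    apply one_div_le_one_div_of_le (by positivity)
    exact pow_le_pow_right₀ (by norm_num) (by omega)
  have h3 : (0:ℝ) < 1 / 2 ^ m := by positivity
  have h4 : (4:ℝ) / 2 ^ m = 4 * (1 / 2 ^ m) := by ring
  linarith

/-- `f` on the own edges -/
theorem own_edge_close (hT : TSet θ M κ t₀ δ₀ ε₁ Ω f F T) {Z : Fin 3 → ℤ} {e : Idx × Fin 3}
    (hZ : Z ∈ C.J) (he : e.1.1 = m + j) (hez : edge v e ⊆ dyc v m Z) {x : V} (hx : x ∈ edge v e) :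
    ‖f x - C.A Z x‖ ≤ 3 * κ * (1 / 2 ^ (m + j)) := by
  obtain ⟨t, ht0, ht1, rfl⟩ := exists_of_mem_edge hx
  have hk := kap_nonneg C hZ
  have hl := lat_le C
  have ha : pt v e.1.1 e.1.2 ∈ edge v e := left_mem_segment ℝ _ _
  have ha' : pt v (m + j) e.1.2 ∈ dyc v m Z := by
    have := hez ha
    rwa [he] at this
  obtain ⟨h1, h2, h3⟩ := C.vert Z hZ _ ha'
  rw [he] at ht1 ⊢
  set a := pt v (m + j) e.1.2 with hadef
  have hxa : a + t • ev e.2 - a = t • ev e.2 := add_sub_cancel_left _ _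
  have hn : ‖t • ev e.2‖ = t := by rw [norm_smul, S293.ev_norm, mul_one, Real.norm_eq_abs,
    abs_of_nonneg ht0]
  have hr : (0:ℝ) < 1 / 2 ^ (m + j) := by positivity
  have h4 := hT.ray a h1 e.2 t (by rw [abs_of_nonneg ht0]; linarith)
  rw [abs_of_nonneg ht0] at h4
  have h5 : ‖(cl (F a) - C.L Z) (t • ev e.2)‖ ≤ κ * t := by
    calc _ ≤ ‖cl (F a) - C.L Z‖ * ‖t • ev e.2‖ := (cl (F a) - C.L Z).le_opNorm _
      _ ≤ κ * t := by rw [hn]; gcongr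
  have h6 := C.aff Z hZ a (a + t • ev e.2)
  rw [hxa] at h6
  have e1 : f (a + t • ev e.2) - C.A Z (a + t • ev e.2) =
      (f (a + t • ev e.2) - f a - t • cl (F a) (ev e.2)) + (f a - C.A Z a) +
        (cl (F a) - C.L Z) (t • ev e.2) := by
    rw [_root_.sub_apply, ← h6, map_smul]
    abel
  rw [e1]
  have h7 : κ * t ≤ κ * (1 / 2 ^ (m + j)) := mul_le_mul_of_nonneg_left ht1 hk
  calc _ ≤ ‖f (a + t • ev e.2) - f a - t • cl (F a) (ev e.2)‖ + ‖f a - C.A Z a‖ +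
        ‖(cl (F a) - C.L Z) (t • ev e.2)‖ := norm_add₃_le
    _ ≤ κ * (1 / 2 ^ (m + j)) + κ / 2 ^ (m + j) + κ * (1 / 2 ^ (m + j)) := by
        gcongr
        · exact h4.trans h7
        · exact h5.trans h7
    _ = 3 * κ * (1 / 2 ^ (m + j)) := by ring

/-- an edge of a tile which touches a good cell -/
theorem tch_edge_sub (S : SubCells C n J' π) (hmn : m ≤ n) (hnN : n ≤ N) {z u : Fin 3 → ℤ}
    (hz : z ∈ J') (hu : Touch v n N z u) {e : Idx × Fin 3} (he : EdgeOf e (N, u)) :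
    edge v e ⊆ dyc v m (π z) :=
  (Gr.edge_subset_dyc he).trans (touch_sub S hmn hnN hz hu)

/-- **[OWN2] (i)**: the field `fown` of `PE`, for any generation `N` with `n ≤ N ≤ m + j` -/
theorem fown2 (hT : TSet θ M κ t₀ δ₀ ε₁ Ω f F T) (S : SubCells C n J' π) (hmn : m ≤ n)
    (hnN : n ≤ N) (hN : N ≤ m + j) (hκ : 3 * κ ≤ 1) :
    ∀ z ∈ J', ∀ u, Touch v n N z u → ∀ e : Idx × Fin 3, EdgeOf e (N, u) →
      ∀ x ∈ edge v e, ‖f x - C.A (π z) x‖ ≤ 1 / 2 ^ N := by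
  intro z hz u hu e he x hx
  have hsub := tch_edge_sub S hmn hnN hz hu he
  obtain ⟨i, hi, hxi⟩ := S293.mem_subEdge hx (m + j - N)
  have hg : (subEdge e (m + j - N) i).1.1 = m + j := by
    show e.1.1 + (m + j - N) = m + j
    rw [he.1]
    show N + (m + j - N) = m + j
    omega
  have h1 := own_edge_close hT (S.mem z hz) hg ((S308.subEdge_sub hi).trans hsub) hxi
  refine h1.trans ?_
  have hr : (0:ℝ) < 1 / 2 ^ (m + j) := by positivity
  have h2 : (1 / 2 ^ (m + j) : ℝ) ≤ 1 / 2 ^ N := by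
    apply one_div_le_one_div_of_le (by positivity)
    exact pow_le_pow_right₀ (by norm_num) hN
  calc 3 * κ * (1 / 2 ^ (m + j)) ≤ 1 * (1 / 2 ^ (m + j)) :=
        mul_le_mul_of_nonneg_right hκ hr.le
    _ ≤ _ := by rw [one_mul]; exact h2

/-- **[OWN2] (i')**: the field `own` of `PE`; `hq` is the clause of `Generic.own` at a point of `T`
in every big cube (free predicate of `exists_p2cells`) -/
theorem own2 {G : V → ℝ≥0∞} (S : SubCells C n J' π) (hmn : m ≤ n) (hnN : n ≤ N) (hp : 0 ≤ p)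
    (hM : 0 ≤ M) (hupp : ∀ a ∈ T, ∀ w, ‖cl (F a) w‖ ≤ M * ‖w‖)
    (hq : ∀ Z ∈ C.J, ∃ x ∈ T, idx v m x = Z ∧ ∀ e : Idx × Fin 3, e.1.1 = N →
      edge v e ⊆ dyc v m (idx v m x) →
        eInt v e G ≤ ENNReal.ofReal ((‖cl (F x)‖ ^ p + 1) / 2 ^ N)) :
    ∀ u, Tch v n N J' u → ∀ e : Idx × Fin 3, EdgeOf e (N, u) →
      eInt v e G ≤ ENNReal.ofReal ((M ^ p + 1) / 2 ^ N) := by
  rintro u ⟨z, hz, hu⟩ e he
  obtain ⟨x, hxT, hxZ, h⟩ := hq (π z) (S.mem z hz)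
  have hsub := tch_edge_sub S hmn hnN hz hu he
  refine (h e he.1 (by rw [hxZ]; exact hsub)).trans (ENNReal.ofReal_le_ofReal ?_)
  have h1 : ‖cl (F x)‖ ≤ M := ContinuousLinearMap.opNorm_le_bound _ hM (hupp x hxT)
  have h2 : ‖cl (F x)‖ ^ p ≤ M ^ p := Real.rpow_le_rpow (norm_nonneg _) h1 hp
  gcongr

end Vale.Agent.P073.H83
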