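import Vale.Agent.P073.H83.Own2a
import Vale.Agent.P073.H687.PD4a
import Vale.Agent.P073.H989.P2Asm

/-!
# P073, PRE-2 (`p = 2`), [OWN2]: squares

`sum_minSq_le`: the minimal squares in the boundary of a cube of the partition;
`sInt_own`: the squares in the big cubes.
-/

namespace Vale.Agent.P073.H83

open MeasureTheory Set Filter Topology Metric Vale.Agent.P073.St Vale.Agent.P073.AB
open Vale.Agent.P073.SQ (ev)
open Vale.Agent.P073.AB.P86 (rel sc cen)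
open _root_.P073.Net (dyc dyo)
open Vale.Agent.P073.H234
open Vale.Agent.P073.H194 (idx sInt bInt faceP off off_false off_true)
open Vale.Agent.P073.H989 (touch_sub div_int div_int1 div_int_le cast_add1)
open scoped ENNReal

section squares

variable {Ω : Set V} {v : V} {I : Set Idx}

/-- the lattice position of a minimal square in the boundary of a cube -/
theorem minSq_pos (hI : Part Ω v I) {s : Idx × Fin 3} (hs : MinSq v I s) {i : Idx} (hi : i ∈ I)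
    (hsub : squ v s ⊆ dyc v i.1 i.2) : i.1 ≤ s.1.1 ∧
      (∃ σ : Bool, s.1.2 s.2 = 2 ^ (s.1.1 - i.1) * (i.2 s.2 + off σ)) ∧
      ∀ l, l ≠ s.2 → 2 ^ (s.1.1 - i.1) * i.2 l ≤ s.1.2 l ∧
        s.1.2 l + 1 ≤ 2 ^ (s.1.1 - i.1) * (i.2 l + 1) := by
  obtain ⟨h1, h2⟩ := P86.bd_pos hI hs hi hsub
  have hgen : i.1 ≤ s.1.1 := by
    obtain ⟨l, -, -, hl, -⟩ := two_other s.2
    have h3 := h2 l hl
    have h4 : (1 / 2 / 2 ^ s.1.1 : ℝ) ≤ 1 / 2 / 2 ^ i.1 := by
      linarith [abs_nonneg (sc v s l - cen v i.1 i.2 l)]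
    have h5 : (2:ℝ) ^ i.1 ≤ 2 ^ s.1.1 :=
      (div_le_div_iff_of_pos_left (by norm_num) (by positivity) (by positivity)).1 h4
    exact (pow_le_pow_iff_right₀ (by norm_num)).1 h5
  refine ⟨hgen, ?_, fun l hl => ?_⟩
  · have h3 := P86.abseq h1
    have e0 : sc v s s.2 = v s.2 + s.1.2 s.2 / 2 ^ s.1.1 := by simp [sc]
    rw [e0] at h3
    rcases h3 with h3 | h3
    · refine ⟨false, ?_⟩
      rw [off_false, add_zero]
      rw [add_right_inj, div_int hgen] at h3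
      exact le_antisymm ((div_int_le (N := s.1.1)).1 h3.le) ((div_int_le (N := s.1.1)).1 h3.ge)
    · refine ⟨true, ?_⟩
      rw [off_true]
      rw [add_right_inj, div_int1 hgen] at h3
      exact le_antisymm ((div_int_le (N := s.1.1)).1 h3.le) ((div_int_le (N := s.1.1)).1 h3.ge)
  · -- the corners of the square are in the cube
    have hm : (0:ℝ) < 2 ^ s.1.1 := by positivity
    have g1 : pt v s.1.1 s.1.2 ∈ squ v s :=
      ⟨rfl, fun k _ => ⟨le_rfl, by show v k + _ / _ ≤ _; gcongr; linarith⟩⟩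
    have g2 : (fun k => if k = s.2 then v k + s.1.2 k / 2 ^ s.1.1 else
        v k + (s.1.2 k + 1) / 2 ^ s.1.1 : V) ∈ squ v s := by
      refine ⟨by simp, fun j hj => ?_⟩
      simp only [if_neg hj]
      exact ⟨by gcongr; linarith, le_rfl⟩
    have g3 := (hsub g1 l).1
    have g4 := (hsub g2 l).2
    simp only [if_neg hl] at g4
    simp only [pt, add_le_add_iff_left] at g3 g4
    rw [div_int hgen, div_int_le] at g3
    rw [div_int1 hgen, cast_add1, div_int_le] at g4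
    exact ⟨g3, g4⟩

/-- sub-squares -/
theorem eLow_sub {i : Idx} {s : Idx × Fin 3} {σ : Bool} {n : ℕ} (hi : i.1 ≤ s.1.1)
    (hn : s.1.1 ≤ n) (h1 : s.1.2 s.2 = 2 ^ (s.1.1 - i.1) * (i.2 s.2 + off σ))
    (h2 : ∀ l, l ≠ s.2 → 2 ^ (s.1.1 - i.1) * i.2 l ≤ s.1.2 l ∧
        s.1.2 l + 1 ≤ 2 ^ (s.1.1 - i.1) * (i.2 l + 1)) {w : Fin 3 → ℤ} (hw : w ∈ eLow s n) :
    w ∈ eLow (faceP i s.2 σ) n := by
  rw [mem_eLow] at hw ⊢
  have hp : (0:ℤ) < 2 ^ (n - s.1.1) := by positivity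
  have e : (2:ℤ) ^ (n - i.1) = 2 ^ (n - s.1.1) * 2 ^ (s.1.1 - i.1) := by
    rw [← pow_add]
    congr 1
    omega
  refine ⟨?_, fun l hl => ?_⟩
  · show w s.2 = 2 ^ (n - i.1) * (Function.update i.2 s.2 (i.2 s.2 + off σ) s.2)
    rw [Function.update_self, hw.1, h1, e, mul_assoc]
  · have hl' : l ≠ s.2 := hl
    show 2 ^ (n - i.1) * (Function.update i.2 s.2 (i.2 s.2 + off σ) l) ≤ w l ∧
      w l < 2 ^ (n - i.1) * ((Function.update i.2 s.2 (i.2 s.2 + off σ) l) + 1)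
    rw [Function.update_of_ne hl', e, mul_assoc, mul_assoc]
    obtain ⟨a1, a2⟩ := hw.2 l hl'
    obtain ⟨b1, b2⟩ := h2 l hl'
    constructor
    · exact (mul_le_mul_of_nonneg_left b1 hp.le).trans a1
    · exact lt_of_lt_of_le a2 (mul_le_mul_of_nonneg_left b2 hp.le)

theorem sc_mem_rel {s : Idx × Fin 3} {n : ℕ} (hn : s.1.1 ≤ n) {w : Fin 3 → ℤ}
    (hw : w ∈ eLow s n) : sc v ((n, w), s.2) ∈ rel v s := by
  rw [mem_eLow] at hw
  have hp : (0:ℝ) < 2 ^ n := by positivity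
  refine ⟨?_, fun k hk => ?_⟩
  · have e0 : sc v ((n, w), s.2) s.2 = v s.2 + w s.2 / 2 ^ n := by simp [sc]
    rw [e0, hw.1, div_int hn]
  · have e0 : sc v ((n, w), s.2) k = v k + (w k + 1 / 2) / 2 ^ n := by simp [sc, hk]
    rw [e0]
    obtain ⟨a1, a2⟩ := hw.2 k hk
    have a1' : ((2 ^ (n - s.1.1) * s.1.2 k : ℤ) : ℝ) ≤ w k := by exact_mod_cast a1
    have a2' : (w k : ℝ) + 1 ≤ ((2 ^ (n - s.1.1) * (s.1.2 k + 1) : ℤ) : ℝ) := by
      have : w k + 1 ≤ 2 ^ (n - s.1.1) * (s.1.2 k + 1) := by omega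
      exact_mod_cast this
    rw [div_int hn, div_int1 hn]
    constructor
    · gcongr
      linarith
    · gcongr
      linarith

/-- **the minimal squares in the boundary of a cube of the partition** -/
theorem sum_minSq_le (hΩ : IsOpen Ω) (hI : Part Ω v I) {i : Idx} (hi : i ∈ I) (H : V → ℝ≥0∞) :
    ∑' s : {s : Idx × Fin 3 // MinSq v I s ∧ squ v s ⊆ dyc v i.1 i.2}, sInt v s.1 H ≤
      bInt v i H := by
  classical
  rw [ENNReal.tsum_eq_iSup_sum]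
  refine iSup_le fun S => ?_
  obtain ⟨n, hn⟩ : ∃ n : ℕ, ∀ s ∈ S, s.1.1.1 ≤ n :=
    ⟨S.sup fun s => s.1.1.1, fun s hs => Finset.le_sup (f := fun s : {s : Idx × Fin 3 //
      MinSq v I s ∧ squ v s ⊆ dyc v i.1 i.2} => s.1.1.1) hs⟩
  set N := max n i.1 with hN
  have hnN : ∀ s ∈ S, s.1.1.1 ≤ N := fun s hs => (hn s hs).trans (le_max_left _ _)
  have hiN : i.1 ≤ N := le_max_right _ _
  have hpos := fun s : {s : Idx × Fin 3 // MinSq v I s ∧ squ v s ⊆ dyc v i.1 i.2} =>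
    minSq_pos hI s.2.1 hi s.2.2
  choose g1 g2 g3 using hpos
  choose σ hσ using g2
  set A : Finset ((s : {s : Idx × Fin 3 // MinSq v I s ∧ squ v s ⊆ dyc v i.1 i.2}) ×
    (Fin 3 → ℤ)) := S.sigma fun s => eLow s.1 N with hA
  set B : Finset ((_ : Fin 3 × Bool) × (Fin 3 → ℤ)) :=
    (Finset.univ : Finset (Fin 3 × Bool)).sigma fun b => eLow (faceP i b.1 b.2) N with hB
  set φ : ((s : {s : Idx × Fin 3 // MinSq v I s ∧ squ v s ⊆ dyc v i.1 i.2}) ×
    (Fin 3 → ℤ)) → ((_ : Fin 3 × Bool) × (Fin 3 → ℤ)) := fun a => ⟨(a.1.1.2, σ a.1), a.2⟩ with hφ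
  have hinj : Set.InjOn φ A := by
    intro a ha b hb hab
    rw [Finset.mem_coe, hA, Finset.mem_sigma] at ha hb
    obtain ⟨s, w⟩ := a
    obtain ⟨s', w'⟩ := b
    simp only [hφ, Sigma.mk.injEq, Prod.mk.injEq, heq_eq_eq] at hab
    obtain ⟨⟨h1, -⟩, rfl⟩ := hab
    have h2 := sc_mem_rel (v := v) (hnN s ha.1) ha.2
    have h3 := P86.rel_sub (sc_mem_rel (v := v) (hnN s' hb.1) hb.2)
    rw [← h1] at h3
    have h4 := P86.sq_disj hΩ hI s.2.1 s'.2.1 h2 h3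
    have h5 : s = s' := Subtype.ext h4
    rw [h5]
  have hmap : A.image φ ⊆ B := by
    intro b hb
    rw [Finset.mem_image] at hb
    obtain ⟨a, ha, rfl⟩ := hb
    rw [hA, Finset.mem_sigma] at ha
    rw [hB, Finset.mem_sigma]
    exact ⟨Finset.mem_univ _, eLow_sub (g1 a.1) (hnN _ ha.1) (hσ a.1) (g3 a.1) ha.2⟩
  calc ∑ s ∈ S, sInt v s.1 H = ∑ s ∈ S, ∑ w ∈ eLow s.1 N, sInt v ((N, w), s.1.2) H :=
        Finset.sum_congr rfl fun s hs => sInt_split v s.1 (hnN s hs) H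
    _ = ∑ a ∈ A, sInt v ((N, a.2), a.1.1.2) H := by rw [hA, Finset.sum_sigma]
    _ = ∑ b ∈ A.image φ, sInt v ((N, b.2), b.1.1) H := by
        rw [Finset.sum_image hinj]
    _ ≤ ∑ b ∈ B, sInt v ((N, b.2), b.1.1) H :=
        Finset.sum_le_sum_of_subset hmap
    _ = bInt v i H := by
        rw [hB, Finset.sum_sigma, Fintype.sum_prod_type, H194.bInt_eq]
        refine Finset.sum_congr rfl fun k _ => Finset.sum_congr rfl fun τ _ => ?_
        exact (sInt_split v (faceP i k τ) hiN H).symm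

end squares

variable {p : ℝ} {ε : ℝ≥0∞} {θ M κ c₀ t₀ δ₀ ε₁ : ℝ} {j : ℕ} {Ω Λ : Set V} {f : V → V}
  {F : V → Mat} {T : Set V} {v : V} {m n N : ℕ}
  {C : P2Cells p ε θ M κ c₀ t₀ δ₀ j Ω Λ f F T v m} {J' : Finset (Fin 3 → ℤ)}
  {π : (Fin 3 → ℤ) → Fin 3 → ℤ}

/-- **[OWN2] (ii)**: the square integrals, generations between `m` and `m + j` -/
theorem sInt_own {Z : Fin 3 → ℤ} (hZ : Z ∈ C.J) {s : Idx × Fin 3} (hs : s.1.1 ≤ m + j)
    (hsub : squ v s ⊆ dyc v m Z) :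
    sInt v s (fun x => ‖cl (F x) - C.L Z‖ₑ ^ (2:ℝ)) ≤ ENNReal.ofReal (κ / 4 ^ s.1.1) := by
  have hk := kap_nonneg C hZ
  rw [sInt_split v s hs]
  calc ∑ w ∈ eLow s (m + j), sInt v ((m + j, w), s.2) (fun x => ‖cl (F x) - C.L Z‖ₑ ^ (2:ℝ))
      ≤ ∑ w ∈ eLow s (m + j), sInt v ((m + j, w), s.2) (fun _ => ENNReal.ofReal κ) := by
        refine Finset.sum_le_sum fun w hw => ?_
        refine (C.square Z hZ ((m + j, w), s.2) rfl ((squ_sub hs hw).trans hsub)).trans ?_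
        rw [H989.sInt_const, ← ENNReal.ofReal_mul hk]
        apply ENNReal.ofReal_le_ofReal
        exact le_of_eq (by ring)
    _ = sInt v s (fun _ => ENNReal.ofReal κ) := (sInt_split v s hs _).symm
    _ = ENNReal.ofReal (κ / 4 ^ s.1.1) := by
        rw [H989.sInt_const, ← ENNReal.ofReal_mul hk]
        congr 1
        ring

/-- **[OWN2] (ii')** -/
theorem sInt_own' (hM : 0 ≤ M) {Z : Fin 3 → ℤ} (hZ : Z ∈ C.J) {s : Idx × Fin 3}
    (hs : s.1.1 ≤ m + j) (hsub : squ v s ⊆ dyc v m Z) :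
    sInt v s (Ω.indicator fun x => ‖cl (F x)‖ₑ ^ (2:ℝ)) ≤
      ENNReal.ofReal (2 * (κ + M ^ 2) / 4 ^ s.1.1) := by
  have hk := kap_nonneg C hZ
  have h1 := H989.sInt_pert (G := fun y => cl (F y)) (L' := 0) hk hM (sInt_own hZ hs hsub)
    (by rw [sub_zero]; exact ContinuousLinearMap.opNorm_le_bound _ hM (C.above Z hZ))
  refine le_trans ?_ h1
  unfold sInt
  gcongr with y
  refine (indicator_le_self' fun _ _ => zero_le) _ |>.trans (le_of_eq ?_)
  simp only [sub_zero]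

/-- the six faces of a tile which touches a good cell -/
theorem bInt_tch (hM : 0 ≤ M) (S : SubCells C n J' π) (hmn : m ≤ n) (hnN : n ≤ N)
    (hN : N ≤ m + j) {z u : Fin 3 → ℤ} (hz : z ∈ J') (hu : Touch v n N z u) {G : V → ℝ≥0∞}
    (hG : ∀ s, sInt v s (Ω.indicator fun x => ‖cl (F x)‖ₑ ^ (2:ℝ)) = sInt v s G) :
    bInt v (N, u) G ≤ ENNReal.ofReal (12 * (κ + M ^ 2) / 4 ^ N) := by
  have hZ := S.mem z hz
  have hk := kap_nonneg C hZ
  have hsub := touch_sub S hmn hnN hz hu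
  rw [H194.bInt_eq]
  calc ∑ k, ∑ σ : Bool, sInt v (faceP (N, u) k σ) G
      ≤ ∑ _k : Fin 3, ∑ _σ : Bool, ENNReal.ofReal (2 * (κ + M ^ 2) / 4 ^ N) := by
        refine Finset.sum_le_sum fun k _ => Finset.sum_le_sum fun σ _ => ?_
        rw [← hG]
        exact sInt_own' hM hZ hN ((H194.faceP_sub (N, u) k σ).trans hsub)
    _ = ENNReal.ofReal (12 * (κ + M ^ 2) / 4 ^ N) := by
        rw [Finset.sum_const, Finset.sum_const, Finset.card_univ, Finset.card_univ,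
          Fintype.card_fin, Fintype.card_bool, nsmul_eq_mul, nsmul_eq_mul, ← mul_assoc]
        rw [show ((3:ℕ):ℝ≥0∞) * ((2:ℕ):ℝ≥0∞) = ENNReal.ofReal 6 by norm_num,
          ← ENNReal.ofReal_mul (by norm_num)]
        congr 1
        ring

end Vale.Agent.P073.H83
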