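import Vale.Agent.P073.H83.RPA

/-!
# P073, rank one: the reparametrisation of the line
-/


namespace Vale.Agent.P073.H83

open MeasureTheory Set Filter Topology Metric
open scoped ContDiff ENNReal

/-- **the reparametrisation**: `σ' = r`, `φ` is the inverse of `σ` -/
theorem exists_phi {r : ℝ → ℝ} {M τ c d : ℝ} (hM : 1 ≤ M) (hr : ContDiff ℝ ∞ r)
    (hlo : ∀ u, 1 / M ≤ r u) (hoff : ∀ u, u ∉ Icc c d → r u = 1)
    (htot : ∫ u in c..d, r u = d - c) (hprim : ∀ u, |∫ t in c..u, (r t - 1)| ≤ τ) :
    ∃ σ φ : ℝ → ℝ, ContDiff ℝ ∞ σ ∧ ContDiff ℝ ∞ φ ∧ StrictMono σ ∧ StrictMono φ ∧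
      (∀ u, φ (σ u) = u) ∧ (∀ t, σ (φ t) = t) ∧ (∀ u, HasDerivAt σ (r u) u) ∧
      (∀ t, HasDerivAt φ (r (φ t))⁻¹ t) ∧ (∀ u, |σ u - u| ≤ τ) ∧ (∀ t, |φ t - t| ≤ τ) ∧
      (∀ u, u ∉ Ioo c d → σ u = u) ∧ (∀ t, t ∉ Ioo c d → φ t = t) := by
  have hM0 : (0:ℝ) < M := by linarith
  have hpos : ∀ u, 0 < r u := fun u => lt_of_lt_of_le (by positivity) (hlo u)
  have hii : ∀ x y, IntervalIntegrable r volume x y := fun x y =>
    hr.continuous.intervalIntegrable _ _
  set σ : ℝ → ℝ := fun u => c + ∫ t in c..u, r t with hσ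
  have hd : ∀ u, HasDerivAt σ (r u) u := fun u =>
    (intervalIntegral.integral_hasDerivAt_right (hii c u)
      hr.continuous.stronglyMeasurable.stronglyMeasurableAtFilter
      hr.continuous.continuousAt).const_add c
  have hsub : ∀ u, σ u - u = ∫ t in c..u, (r t - 1) := by
    intro u
    rw [intervalIntegral.integral_sub (hii c u) intervalIntegrable_const]
    simp only [hσ, intervalIntegral.integral_const, smul_eq_mul, mul_one]
    ring
  have hbd : ∀ u, |σ u - u| ≤ τ := fun u => by rw [hsub u]; exact hprim u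
  have hmono : StrictMono σ := by
    refine strictMono_of_deriv_pos fun u => ?_
    rw [(hd u).deriv]
    exact hpos u
  have hcont : Continuous σ := continuous_iff_continuousAt.2 fun u => (hd u).continuousAt
  have hτ : 0 ≤ τ := (abs_nonneg _).trans (hbd 0)
  have hsurj : Function.Surjective σ := by
    intro y
    have h1 : σ (y - τ) ≤ y := by
      have := (abs_le.1 (hbd (y - τ))).2
      linarith
    have h2 : y ≤ σ (y + τ) := by
      have := (abs_le.1 (hbd (y + τ))).1
      linarith
    obtain ⟨x, _, hx⟩ := intermediate_value_Icc (by linarith : y - τ ≤ y + τ)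
      hcont.continuousOn ⟨h1, h2⟩
    exact ⟨x, hx⟩
  have hcd' : ContDiff ℝ ∞ σ := by
    rw [contDiff_infty_iff_deriv]
    refine ⟨fun u => (hd u).differentiableAt, ?_⟩
    have : deriv σ = r := funext fun u => (hd u).deriv
    rw [this]
    exact hr
  set e : ℝ ≃ₜ ℝ := (hmono.orderIsoOfSurjective σ hsurj).toHomeomorph with he
  have hes : ∀ u, e u = σ u := fun u => rfl
  set φ : ℝ → ℝ := fun t => e.symm t with hφ
  have h1 : ∀ u, φ (σ u) = u := fun u => e.symm_apply_apply u
  have h2 : ∀ t, σ (φ t) = t := fun t => e.apply_symm_apply t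
  have hφc : ContDiff ℝ ∞ φ :=
    e.contDiff_symm_deriv (fun u => (hpos u).ne') (fun u => hd u) hcd'
  have hφm : StrictMono φ := by
    intro s t hst
    by_contra h
    have := hmono.monotone (not_lt.1 h)
    rw [h2, h2] at this
    exact absurd hst (not_lt.2 this)
  have hoff1 : ∀ u, u ∉ Ioo c d → σ u = u := by
    intro u hu
    have hu0 : σ u - u = 0 := by
      rw [hsub u]
      rcases le_or_gt u c with huc | huc
      · rw [intervalIntegral.integral_symm, neg_eq_zero, intervalIntegral.integral_of_le huc,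
          MeasureTheory.integral_Ioc_eq_integral_Ioo]
        refine setIntegral_eq_zero_of_forall_eq_zero fun t ht => ?_
        rw [hoff t fun h' => not_lt.2 h'.1 ht.2, sub_self]
      · have hud : d ≤ u := by
          by_contra h
          exact hu ⟨huc, not_le.1 h⟩
        have hi : ∀ x y, IntervalIntegrable (fun t => r t - 1) volume x y := fun x y =>
          (hii x y).sub intervalIntegrable_const
        rw [← intervalIntegral.integral_add_adjacent_intervals (hi c d) (hi d u)]
        have e1 : ∫ t in c..d, (r t - 1) = 0 := by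
          rw [intervalIntegral.integral_sub (hii c d) intervalIntegrable_const, htot]
          simp
        have e2 : ∫ t in d..u, (r t - 1) = 0 := by
          rw [intervalIntegral.integral_of_le hud]
          refine setIntegral_eq_zero_of_forall_eq_zero fun t ht => ?_
          rw [hoff t fun h' => not_lt.2 h'.2 ht.1, sub_self]
        rw [e1, e2, add_zero]
    linarith
  have hφbd : ∀ t, |φ t - t| ≤ τ := by
    intro t
    have := hbd (φ t)
    rw [h2, abs_sub_comm] at this
    exact this
  have hφd : ∀ t, HasDerivAt φ (r (φ t))⁻¹ t := by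
    intro t
    refine HasDerivAt.of_local_left_inverse hφc.continuous.continuousAt (hd (φ t))
      (hpos _).ne' (Eventually.of_forall fun y => h2 y)
  refine ⟨σ, φ, hcd', hφc, hmono, hφm, h1, h2, hd, hφd, hbd, hφbd, hoff1, fun t ht => ?_⟩
  have := h1 t
  rwa [hoff1 t ht] at this

end Vale.Agent.P073.H83
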