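import Vale.Agent.P073.H732.EnComp

/-!
# P073, rank one: a smooth map which changes only the coordinate `x 0`
-/

namespace Vale.Agent.P073.H83

open MeasureTheory Set Filter Topology Metric Vale.Agent.P073.H235
open Vale.Agent.P073.St (V Mat)
open Vale.Agent.P073.SQ (ev)
open scoped ContDiff ENNReal

/-- the push in direction `e₀` -/
noncomputable def psh (χ : V → ℝ) (φ : ℝ → ℝ) : V → V := fun x => x + (χ x * (φ (x 0) - x 0)) • ev 0

/-- the hypotheses -/
structure PshD (M B τ : ℝ) (χ : V → ℝ) (φ φ' : ℝ → ℝ) : Prop where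
  one : 1 ≤ M
  smχ : ContDiff ℝ ∞ χ
  χI : ∀ x, χ x ∈ Icc (0:ℝ) 1
  χB : ∀ x, ‖fderiv ℝ χ x‖ ≤ B
  smφ : ContDiff ℝ ∞ φ
  der : ∀ t, HasDerivAt φ (φ' t) t
  lo : ∀ t, 1 / M ≤ φ' t
  hi : ∀ t, φ' t ≤ M
  near : ∀ t, |φ t - t| ≤ τ
  small : B * τ ≤ 1 / (2 * M)

variable {M B τ : ℝ} {χ : V → ℝ} {φ φ' : ℝ → ℝ}

theorem ev_apply (i j : Fin 3) : (ev i : V) j = if j = i then 1 else 0 := by
  by_cases h : j = i
  · subst h; simp [ev]
  · simp [ev, h]

theorem norm_ev (i : Fin 3) : ‖(ev i : V)‖ = 1 := by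
  simp [ev, Pi.norm_single]

theorem psh_ne (χ : V → ℝ) (φ : ℝ → ℝ) (x : V) {i : Fin 3} (hi : i ≠ 0) : psh χ φ x i = x i := by
  simp [psh, ev_apply, hi]

theorem psh_zero (χ : V → ℝ) (φ : ℝ → ℝ) (x : V) :
    psh χ φ x 0 = x 0 + χ x * (φ (x 0) - x 0) := by
  simp [psh, ev_apply]

namespace PshD

theorem M_pos (h : PshD M B τ χ φ φ') : 0 < M := by linarith [h.one]

theorem contDiff (h : PshD M B τ χ φ φ') : ContDiff ℝ ∞ (psh χ φ) := by
  have h0 : ContDiff ℝ ∞ fun x : V => x 0 := contDiff_apply ℝ ℝ 0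
  exact contDiff_id.add ((h.smχ.mul ((h.smφ.comp h0).sub h0)).smul contDiff_const)

/-- the derivative -/
noncomputable def D (χ : V → ℝ) (φ φ' : ℝ → ℝ) (x : V) : V →L[ℝ] V :=
  ContinuousLinearMap.id ℝ V +
    ((χ x • ((φ' (x 0) - 1) • ContinuousLinearMap.proj (R := ℝ) (φ := fun _ : Fin 3 => ℝ) 0) +
      (φ (x 0) - x 0) • fderiv ℝ χ x)).smulRight (ev 0)

theorem hasFDerivAt (h : PshD M B τ χ φ φ') (x : V) :
    HasFDerivAt (psh χ φ) (D χ φ φ' x) x := by
  have hd : HasFDerivAt χ (fderiv ℝ χ x) x := (h.smχ.differentiable (by simp) x).hasFDerivAt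
  have h0 : HasFDerivAt (fun y : V => y 0)
      (ContinuousLinearMap.proj (R := ℝ) (φ := fun _ : Fin 3 => ℝ) 0) x :=
    (ContinuousLinearMap.proj (R := ℝ) (φ := fun _ : Fin 3 => ℝ) 0).hasFDerivAt
  have h1 : HasFDerivAt (fun y : V => φ (y 0) - y 0)
      ((φ' (x 0) - 1) • ContinuousLinearMap.proj (R := ℝ) (φ := fun _ : Fin 3 => ℝ) 0) x := by
    have := ((h.der (x 0)).comp_hasFDerivAt x h0).sub h0
    refine this.congr_fderiv ?_
    ext v
    simp [sub_mul]
  exact (hasFDerivAt_id x).add ((hd.mul h1).smul_const (ev 0))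

theorem D_apply (x v : V) (i : Fin 3) : D χ φ φ' x v i =
    v i + (χ x * ((φ' (x 0) - 1) * v 0) + (φ (x 0) - x 0) * fderiv ℝ χ x v) * ev 0 i := by
  simp [D]

theorem fderiv_ev (h : PshD M B τ χ φ φ') (x : V) (j : Fin 3) :
    |(φ (x 0) - x 0) * fderiv ℝ χ x (ev j)| ≤ 1 / (2 * M) := by
  have h1 : |fderiv ℝ χ x (ev j)| ≤ B := by
    have := (fderiv ℝ χ x).le_opNorm (ev j)
    rw [norm_ev, mul_one] at this
    exact this.trans (h.χB x)
  rw [abs_mul]
  calc |φ (x 0) - x 0| * |fderiv ℝ χ x (ev j)| ≤ τ * B :=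
        mul_le_mul (h.near _) h1 (abs_nonneg _) ((abs_nonneg _).trans (h.near 0))
    _ = B * τ := mul_comm _ _
    _ ≤ _ := h.small

theorem slope (h : PshD M B τ χ φ φ') (x : V) :
    1 / M ≤ 1 + χ x * (φ' (x 0) - 1) ∧ 1 + χ x * (φ' (x 0) - 1) ≤ M := by
  obtain ⟨h1, h2⟩ := h.χI x
  have h3 := h.lo (x 0)
  have h4 := h.hi (x 0)
  have h5 : 1 / M ≤ 1 := by rw [div_le_one h.M_pos]; exact h.one
  have h6 := h.one
  constructor
  · nlinarith [mul_nonneg h1 (sub_nonneg.2 h3), mul_nonneg (sub_nonneg.2 h2) (sub_nonneg.2 h5)]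
  · nlinarith [mul_nonneg h1 (sub_nonneg.2 h4), mul_nonneg (sub_nonneg.2 h2) (sub_nonneg.2 h6)]

theorem D00 (h : PshD M B τ χ φ φ') (x : V) :
    1 / (2 * M) ≤ D χ φ φ' x (ev 0) 0 ∧ D χ φ φ' x (ev 0) 0 ≤ M + 1 := by
  have h1 := _root_.abs_le.1 (h.fderiv_ev x 0)
  obtain ⟨h2, h3⟩ := h.slope x
  have e : D χ φ φ' x (ev 0) 0 = 1 + χ x * (φ' (x 0) - 1) +
      (φ (x 0) - x 0) * fderiv ℝ χ x (ev 0) := by
    rw [D_apply]
    simp only [ev_apply, if_true]
    ring
  have h4 : 1 / M = 2 * (1 / (2 * M)) := by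
    have := h.M_pos
    field_simp
  have h5 : 1 / (2 * M) ≤ 1 := by
    rw [div_le_one (by linarith [h.one])]
    linarith [h.one]
  rw [e]
  constructor <;> linarith

theorem entries (h : PshD M B τ χ φ φ') (x : V) (j i : Fin 3) :
    |D χ φ φ' x (ev j) i| ≤ M + 1 := by
  have hM := h.one
  have h5 : 1 / (2 * M) ≤ 1 := by
    rw [div_le_one (by linarith [h.one])]
    linarith [h.one]
  have h6 : 0 < 1 / (2 * M) := by
    have := h.M_pos
    positivity
  by_cases hi : i = 0
  · subst hi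
    by_cases hj : j = 0
    · subst hj
      obtain ⟨h1, h2⟩ := h.D00 x
      rw [abs_of_nonneg (h6.le.trans h1)]
      exact h2
    · have e : D χ φ φ' x (ev j) 0 = (φ (x 0) - x 0) * fderiv ℝ χ x (ev j) := by
        rw [D_apply]
        simp [ev_apply, Ne.symm hj]
      rw [e]
      linarith [h.fderiv_ev x j]
  · have e : D χ φ φ' x (ev j) i = ev j i := by
      rw [D_apply]
      simp [ev_apply, hi]
    rw [e, ev_apply]
    split_ifs <;> simp <;> linarith

theorem det (h : PshD M B τ χ φ φ') (x : V) : 1 / (2 * M) ≤ |(D χ φ φ' x).det| := by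
  have e : (D χ φ φ' x).det = D χ φ φ' x (ev 0) 0 := by
    refine H732.det_of_update _ 0 fun v i hi => ?_
    rw [D_apply]
    simp [ev_apply, hi]
  rw [e]
  exact (h.D00 x).1.trans (le_abs_self _)

/-- the map on a line -/
theorem line_mono (h : PshD M B τ χ φ φ') (x : V) :
    StrictMono fun t : ℝ => psh χ φ (Function.update x 0 t) 0 := by
  refine strictMono_of_deriv_pos fun t => ?_
  have h1 : HasDerivAt (fun t : ℝ => Function.update x 0 t) (ev 0) t := by
    have := hasDerivAt_update x 0 t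
    exact this
  have h2 := (h.hasFDerivAt (Function.update x 0 t)).comp_hasDerivAt t h1
  have h3 : HasDerivAt (fun t : ℝ => psh χ φ (Function.update x 0 t) 0)
      (D χ φ φ' (Function.update x 0 t) (ev 0) 0) t := (hasDerivAt_pi.1 h2) 0
  rw [h3.deriv]
  have := h.M_pos
  exact lt_of_lt_of_le (by positivity) (h.D00 _).1

theorem injective (h : PshD M B τ χ φ φ') : Function.Injective (psh χ φ) := by
  intro x y hxy
  have h1 : ∀ i, i ≠ 0 → x i = y i := by
    intro i hi
    have := congrFun hxy i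
    rwa [psh_ne _ _ _ hi, psh_ne _ _ _ hi] at this
  have h2 : y = Function.update x 0 (y 0) := by
    funext i
    by_cases hi : i = 0
    · subst hi; simp
    · rw [Function.update_of_ne hi, h1 i hi]
  have h3 : x = Function.update x 0 (x 0) := by simp
  have h4 : psh χ φ (Function.update x 0 (x 0)) 0 = psh χ φ (Function.update x 0 (y 0)) 0 := by
    rw [← h2, ← h3, hxy]
  have h5 := (h.line_mono x).injective h4
  rw [h2, ← h5, ← h3]

theorem norm_sub (h : PshD M B τ χ φ φ') (x : V) : ‖psh χ φ x - x‖ ≤ τ := by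
  have e : psh χ φ x - x = (χ x * (φ (x 0) - x 0)) • ev 0 := by
    simp [psh]
  have hτ : 0 ≤ τ := (abs_nonneg _).trans (h.near 0)
  rw [e, norm_smul, norm_ev, mul_one, Real.norm_eq_abs, abs_mul, abs_of_nonneg (h.χI x).1]
  calc χ x * |φ (x 0) - x 0| ≤ 1 * τ :=
        mul_le_mul (h.χI x).2 (h.near _) (abs_nonneg _) zero_le_one
    _ = τ := one_mul _

theorem surjective (h : PshD M B τ χ φ φ') : Function.Surjective (psh χ φ) := by
  intro y
  have hc : Continuous fun t : ℝ => psh χ φ (Function.update y 0 t) 0 := by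
    have h1 : Continuous (psh χ φ) := h.contDiff.continuous
    exact (continuous_apply 0).comp (h1.comp (continuous_const.update 0 continuous_id))
  have hb : ∀ t : ℝ, |psh χ φ (Function.update y 0 t) 0 - t| ≤ τ := by
    intro t
    have h1 := norm_le_pi_norm (psh χ φ (Function.update y 0 t) - Function.update y 0 t) 0
    have h2 := h1.trans (h.norm_sub _)
    simpa using h2
  have hτ : 0 ≤ τ := (abs_nonneg _).trans (h.near 0)
  obtain ⟨t, -, ht⟩ := intermediate_value_Icc (by linarith : y 0 - τ ≤ y 0 + τ)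
    hc.continuousOn (show y 0 ∈ Icc _ _ from
      ⟨by linarith [(_root_.abs_le.1 (hb (y 0 - τ))).2],
        by linarith [(_root_.abs_le.1 (hb (y 0 + τ))).1]⟩)
  refine ⟨Function.update y 0 t, ?_⟩
  funext i
  by_cases hi : i = 0
  · subst hi; exact ht
  · rw [psh_ne _ _ _ hi, Function.update_of_ne hi]

theorem fderiv_inj (h : PshD M B τ χ φ φ') (x v : V) (hv : fderiv ℝ (psh χ φ) x v = 0) :
    v = 0 := by
  rw [(h.hasFDerivAt x).fderiv] at hv
  have h1 : ∀ i, i ≠ 0 → v i = 0 := by
    intro i hi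
    have := congrFun hv i
    rw [D_apply] at this
    simpa [ev_apply, hi] using this
  have h2 : v = v 0 • ev 0 := by
    funext i
    by_cases hi : i = 0
    · subst hi; simp [ev_apply]
    · simp [ev_apply, hi, h1 i hi]
  have h3 : D χ φ φ' x v 0 = v 0 * D χ φ φ' x (ev 0) 0 := by
    conv_lhs => rw [h2]
    rw [map_smul]
    rfl
  have h4 : v 0 * D χ φ φ' x (ev 0) 0 = 0 := by
    rw [← h3, hv]
    rfl
  have h5 : 0 < D χ φ φ' x (ev 0) 0 := by
    have := h.M_pos
    exact lt_of_lt_of_le (by positivity) (h.D00 x).1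
  rw [h2, (mul_eq_zero.1 h4).resolve_right h5.ne', zero_smul]

/-- the push is a diffeomorphism of the open set `Ω` if it is the identity off `Ω` -/
theorem isDiffeo (h : PshD M B τ χ φ φ') {Ω : Set V} (hz : ∀ x, x ∉ Ω → χ x = 0) :
    St.IsDiffeo Ω Ω (psh χ φ) := by
  have hsm := h.contDiff
  obtain ⟨t, ht, ht1, ht2⟩ := H732.exists_inv hsm ⟨h.injective, h.surjective⟩ h.fderiv_inj
  have hid : ∀ x, x ∉ Ω → psh χ φ x = x := by
    intro x hx
    simp [psh, hz x hx]
  have hmem : ∀ x, psh χ φ x ∈ Ω ↔ x ∈ Ω := by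
    intro x
    constructor
    · intro h1
      by_contra hn
      rw [hid x hn] at h1
      exact hn h1
    · intro h1
      by_contra hn
      have := h.injective (hid _ hn)
      rw [this] at hn
      exact hn h1
  refine ⟨t, ⟨fun x hx => ⟨(hmem x).2 hx, ht1 x⟩, fun y hy => ⟨?_, ht2 y⟩⟩,
    fun i => (contDiff_pi.1 hsm i).contDiffOn, fun i => (contDiff_pi.1 ht i).contDiffOn⟩
  rw [← hmem, ht2]
  exact hy

/-- energy of the composition -/
theorem en_le (h : PshD M B τ χ φ φ') {p : ℝ} (hp : 1 ≤ p) {S : Set V} (hS : MeasurableSet S)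
    {g : V → V} (hg : ∀ x ∈ S, DifferentiableAt ℝ g (psh χ φ x)) :
    En p (fun x => g (psh χ φ x)) Finset.univ S ≤
      ENNReal.ofReal ((3 * (M + 1)) ^ p * (2 * M)) * En p g Finset.univ (psh χ φ '' S) := by
  have := h.M_pos
  exact H732.En_comp_le hp (by positivity) (by positivity) hS (fun x _ => h.hasFDerivAt x)
    h.injective.injOn (fun x _ j i => h.entries x j i) (fun x _ => h.det x) hg

/-- freezing the coordinate `x 1` in the cut-off function -/
theorem freeze (h : PshD M B τ χ φ φ') (c : ℝ) :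
    PshD M B τ (fun x => χ (Function.update x 1 c)) φ φ' where
  one := h.one
  smχ := h.smχ.comp (by
    refine contDiff_pi.2 fun i => ?_
    by_cases hi : i = 1
    · subst hi; simp only [Function.update_self]; exact contDiff_const
    · simp only [Function.update_of_ne hi]; exact contDiff_apply ℝ ℝ i)
  χI := fun x => h.χI _
  χB := fun x => by
    have hu : HasFDerivAt (fun x : V => Function.update x 1 c)
        (ContinuousLinearMap.id ℝ V - (ContinuousLinearMap.proj (R := ℝ)
          (φ := fun _ : Fin 3 => ℝ) 1).smulRight (ev 1)) x := by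
      refine hasFDerivAt_pi'.2 fun i => ?_
      by_cases hi : i = 1
      · subst hi
        simp only [Function.update_self]
        refine (hasFDerivAt_const c x).congr_fderiv ?_
        ext v
        simp [ev_apply]
      · simp only [Function.update_of_ne hi]
        refine ((ContinuousLinearMap.proj (R := ℝ) (φ := fun _ : Fin 3 => ℝ)
          i).hasFDerivAt (x := x)).congr_fderiv ?_
        ext v
        simp [ev_apply, hi]
    have hc := ((h.smχ.differentiable (by simp) (Function.update x 1 c)).hasFDerivAt).comp x hu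
    rw [show (fun x => χ (Function.update x 1 c)) = χ ∘ fun x : V => Function.update x 1 c from rfl,
      hc.fderiv]
    have hB : 0 ≤ B := (norm_nonneg _).trans (h.χB 0)
    refine (ContinuousLinearMap.opNorm_comp_le _ _).trans ?_
    have h1 : ‖ContinuousLinearMap.id ℝ V - (ContinuousLinearMap.proj (R := ℝ)
          (φ := fun _ : Fin 3 => ℝ) 1).smulRight (ev 1)‖ ≤ 1 := by
      refine ContinuousLinearMap.opNorm_le_bound _ zero_le_one fun v => ?_
      rw [one_mul]
      refine (pi_norm_le_iff_of_nonneg (norm_nonneg _)).2 fun i => ?_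
      by_cases hi : i = 1
      · subst hi
        simp [ev_apply]
      · have : (ContinuousLinearMap.id ℝ V - (ContinuousLinearMap.proj (R := ℝ)
          (φ := fun _ : Fin 3 => ℝ) 1).smulRight (ev 1)) v i = v i := by
          simp [ev_apply, hi]
        rw [this]
        exact norm_le_pi_norm v i
    calc ‖fderiv ℝ χ (Function.update x 1 c)‖ * _ ≤ B * 1 :=
          mul_le_mul (h.χB _) h1 (norm_nonneg _) hB
      _ = B := mul_one B
  smφ := h.smφ
  der := h.der
  lo := h.lo
  hi := h.hi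
  near := h.near
  small := h.small

theorem psh_update (χ : V → ℝ) (φ : ℝ → ℝ) (c : ℝ) (x : V) :
    psh χ φ (Function.update x 1 c) =
      Function.update (psh (fun x => χ (Function.update x 1 c)) φ x) 1 c := by
  funext i
  by_cases h0 : i = 0
  · subst h0
    rw [psh_zero, Function.update_of_ne (by decide), Function.update_of_ne (by decide), psh_zero]
  · rw [psh_ne _ _ _ h0]
    by_cases h1 : i = 1
    · subst h1; simp
    · rw [Function.update_of_ne h1, Function.update_of_ne h1, psh_ne _ _ _ h0]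

end PshD

end Vale.Agent.P073.H83
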