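import Vale.Agent.P073.H83.RP2

/-!
# P073, rank one: shift of the middle plane and of the middle line (as in H582/ConC6)
-/

namespace Vale.Agent.P073.H83

open MeasureTheory Set Filter Topology Metric Vale.Agent.P073.H235 Vale.Agent.P073.LOC
open Vale.Agent.P073.St (V Mat)
open Vale.Agent.P073.SQ (ev)
open Vale.Agent.P073.H253 (BeamT LineOK lpt)
open scoped ContDiff ENNReal

/-- as `fr_shift` of H582, general widths -/
theorem fr_shift' {a x y : V} {ν ν' t : ℝ} {J : Finset (Fin 3)} (hx : x ∈ Fr a ν J)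
    (h : ‖y - x‖ ≤ t) (ht : ∀ i ∈ J, t ≤ (ν' - ν) * a i) : y ∈ Fr a ν' J := by
  obtain ⟨i, hi, h1⟩ := hx
  refine ⟨i, hi, ?_⟩
  have h2 : |y i - x i| ≤ t := (norm_le_pi_norm (y - x) i).trans h
  have h3 := _root_.abs_le.1 h2
  have h4 := ht i hi
  rcases h1 with h1 | h1
  · left; linarith
  · right; linarith

/-- **the shift** -/
theorem shift_step {p θ₁ θ₂ ν₁ ν : ℝ} (hp : 1 ≤ p) (hθ₁ : 0 < θ₁) (hθ₂ : 0 < θ₂)
    (hν₁ : 0 < ν₁) (hν₁ν : ν₁ ≤ ν / 4) (hν4 : ν ≤ 1 / 4) :
    ∃ τ₀ > 0, ∀ τ, 0 ≤ τ → τ ≤ τ₀ → ∀ (C ε c₁ c₂ : ℝ) (L : V →L[ℝ] V) (Λ : Set V) (f g : V → V),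
      0 < C → |c₁ - θ₁| ≤ τ → |c₂ - θ₂| ≤ τ →
      Mid p C θ₁ θ₂ ν₁ ν ε c₁ c₂ L Λ f g →
      ∃ g', Beam2 p (8 ^ p * 8 * C) θ₁ θ₂ ν₁ ν ε L Λ f g' := by
  have hν : 0 < ν := by linarith
  have hE : 0 < (8 : ℝ) ^ p * 8 := by positivity
  have hE1 : (1 : ℝ) ≤ 8 ^ p * 8 := by
    have := Real.one_le_rpow (by norm_num : (1:ℝ) ≤ 8) (by linarith : 0 ≤ p)
    linarith
  have ha : ∀ i, 0 < bm θ₁ θ₂ i := by
    intro i
    fin_cases i <;> simp [bm, hθ₁, hθ₂]
  set lo : V := ![ν₁ / 4, θ₁, ν₁ / 4 * (2 * θ₂)] with hlo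
  set hi : V := ![1 - ν₁ / 4, θ₁, (1 - ν₁ / 4) * (2 * θ₂)] with hhi
  set K₀ : Set V := {x : V | ∀ i, lo i ≤ x i ∧ x i ≤ hi i} with hK₀
  have hK₀c : IsCompact K₀ := isCompact_rect _ _
  have hνθ : 0 < ν₁ * θ₂ := by positivity
  have hK₀s : K₀ ⊆ Bx (bm θ₁ θ₂) := by
    intro x hx i
    have h0 := hx 0
    have h1 := hx 1
    have h2 := hx 2
    simp [hlo, hhi] at h0 h1 h2
    fin_cases i
    · simp [bm]; constructor <;> linarith
    · simp [bm]; constructor <;> linarith
    · simp [bm]; constructor <;> nlinarith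
  obtain ⟨K, hKs, hK, τ₀, hτ₀, hψ⟩ := H732.specC3 (bm θ₁ θ₂) ha K₀ hK₀s hK₀c
  refine ⟨min (min τ₀ (ν₁ / 2)) (ν₁ * θ₂ / 8), by positivity,
    fun τ hτ0 hτ C ε c₁ c₂ L Λ f g hC hc₁ hc₂ H => ?_⟩
  have hτ1 : τ ≤ τ₀ := hτ.trans ((min_le_left _ _).trans (min_le_left _ _))
  have hτ5 : τ ≤ ν₁ / 2 := hτ.trans ((min_le_left _ _).trans (min_le_right _ _))
  have hτ4 : τ ≤ ν₁ * θ₂ / 8 := hτ.trans (min_le_right _ _)
  set w : V := (c₁ - θ₁) • ev 1 + (c₂ - θ₂) • ev 2 with hw
  have hwn : ‖w‖ ≤ τ := by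
    refine (pi_norm_le_iff_of_nonneg hτ0).2 fun k => ?_
    fin_cases k
    · simp [hw, ev, hτ0]
    · simpa [hw, ev] using hc₁
    · simpa [hw, ev] using hc₂
  obtain ⟨ψ, hψd, ⟨U, hU, hKU, hψU⟩, hψK, hψn, hψE⟩ := hψ w (hwn.trans hτ1)
  have hψm : ∀ S : Set V, S ⊆ Bx (bm θ₁ θ₂) → ψ '' S ⊆ Bx (bm θ₁ θ₂) := by
    rintro S hS _ ⟨x, hx, rfl⟩
    exact AB.diffeo_maps hψd (hS hx)
  have hgs : ContDiffOn ℝ ∞ g (Bx (bm θ₁ θ₂)) := AB.diffeo_smooth H.diffeo
  -- the shift on the middle plane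
  have hpl : ∀ x ∈ Co (fl θ₂) ν₁ {0, 2}, ∀ j, fderiv ℝ (fun x => g (ψ x))
      (Function.update x 1 θ₁) (ev j) =
        fderiv ℝ g (Function.update (x + (c₂ - θ₂) • ev 2) 1 c₁) (ev j) := by
    intro x hx j
    have hx0 := hx 0 (by simp)
    have hx2 := hx 2 (by simp)
    simp [fl] at hx0 hx2
    have hxK : Function.update x 1 θ₁ ∈ K₀ := by
      intro i
      fin_cases i
      · simpa [hlo, hhi] using hx0
      · simp [hlo, hhi]
      · simpa [hlo, hhi] using hx2
    have e1 : Function.update x 1 θ₁ + w = Function.update (x + (c₂ - θ₂) • ev 2) 1 c₁ := by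
      funext i
      fin_cases i <;> simp [hw, ev]
    rw [fderiv_shift hU hψU (hKU hxK), e1]
  have hshift : ∀ x : V, x ∈ Bx (fl θ₂) ∩ Co (fl θ₂) ν₁ {0, 2} →
      x + (c₂ - θ₂) • ev 2 ∈ Bx (fl θ₂) ∩ Co (fl θ₂) (3 / 4 * ν₁) {0, 2} := by
    intro x hx
    have h0 := hx.1 0
    have h1 := hx.1 1
    have hx0 := hx.2 0 (by simp)
    have hx2 := hx.2 2 (by simp)
    simp [fl] at hx0 hx2 h0 h1
    have h3 := _root_.abs_le.1 (hc₂.trans hτ4)
    constructor
    · intro i
      fin_cases i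
      · simpa [fl, ev] using h0
      · simpa [fl, ev] using h1
      · simp [fl, ev]
        constructor <;> nlinarith
    · intro i hi
      simp only [Finset.mem_insert, Finset.mem_singleton] at hi
      rcases hi with rfl | rfl
      · simp [fl, ev]
        constructor <;> linarith
      · simp [fl, ev]
        constructor <;> nlinarith
  have hmC : MeasurableSet (Bx (fl θ₂) ∩ Co (fl θ₂) ν₁ {0, 2}) :=
    (measurableSet_bx _).inter (measurableSet_co _ _ _)
  refine ⟨fun x => g (ψ x), AB.isDiffeo_comp hψd H.diffeo, bdClose_shift hK hKs hψK H.close,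
    ?_, ?_, ?_, ?_, ?_⟩
  · refine (hψE p g _ hp (measurableSet_bx _) subset_rfl hgs).trans ?_
    calc ENNReal.ofReal (8 ^ p * 8) * En p g Finset.univ (ψ '' Bx (bm θ₁ θ₂))
        ≤ ENNReal.ofReal (8 ^ p * 8) * ENNReal.ofReal (C * θ₁ * θ₂) := by
          gcongr
          exact (en_mono (hψm _ subset_rfl)).trans H.bulk
      _ = _ := by
          rw [← ENNReal.ofReal_mul hE.le]
          congr 1
          ring
  · refine (hψE p g _ hp ((measurableSet_bx _).inter (measurableSet_fr _ _ _))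
      inter_subset_left hgs).trans ?_
    have hsub : ψ '' (Bx (bm θ₁ θ₂) ∩ Fr (bm θ₁ θ₂) ν₁ {0, 2}) ⊆
        Bx (bm θ₁ θ₂) ∩ Fr (bm θ₁ θ₂) (3 / 2 * ν₁) {0, 2} := by
      refine subset_inter (hψm _ inter_subset_left) ?_
      rintro _ ⟨x, hx, rfl⟩
      refine fr_shift' hx.2 ((hψn x).trans hwn) fun i hi => ?_
      simp only [Finset.mem_insert, Finset.mem_singleton] at hi
      rcases hi with rfl | rfl
      · simp [bm]
        linarith
      · simp [bm]
        nlinarith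
    calc ENNReal.ofReal (8 ^ p * 8) *
          En p g Finset.univ (ψ '' (Bx (bm θ₁ θ₂) ∩ Fr (bm θ₁ θ₂) ν₁ {0, 2}))
        ≤ ENNReal.ofReal (8 ^ p * 8) * ENNReal.ofReal (C * ν₁ * θ₁ * θ₂) := by
          gcongr
          exact (en_mono hsub).trans H.frame
      _ = _ := by
          rw [← ENNReal.ofReal_mul hE.le]
          congr 1
          ring
  · refine le_trans (Finset.sum_le_sum fun j _ => ?_) (H.pl.trans (ENNReal.ofReal_le_ofReal ?_))
    · calc _ = ∫⁻ x in Bx (fl θ₂) ∩ Co (fl θ₂) ν₁ {0, 2}, ENNReal.ofReal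
            (‖fderiv ℝ g (Function.update (x + (c₂ - θ₂) • ev 2) 1 c₁) (ev j)‖ ^ p) := by
            refine setLIntegral_congr_fun hmC fun x hx => ?_
            show ENNReal.ofReal (‖fderiv ℝ (fun x => g (ψ x)) (Function.update x 1 θ₁) (ev j)‖ ^ p)
              = _
            rw [hpl x hx.2 j]
        _ ≤ _ := setLIntegral_shift (fun x => ENNReal.ofReal
            (‖fderiv ℝ g (Function.update x 1 c₁) (ev j)‖ ^ p)) _ hshift
    · have : 0 ≤ C * θ₂ := by positivity
      calc C * θ₂ = 1 * (C * θ₂) := by ring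
        _ ≤ (8 ^ p * 8) * (C * θ₂) := by gcongr
        _ = _ := by ring
  · refine le_trans (Finset.sum_le_sum fun j _ => ?_)
      (H.plFrame.trans (ENNReal.ofReal_le_ofReal ?_))
    · calc _ = ∫⁻ x in Bx (fl θ₂) ∩ Co (fl θ₂) ν₁ {0, 2} ∩ Fr (fl θ₂) ν {0}, ENNReal.ofReal
            (‖fderiv ℝ g (Function.update (x + (c₂ - θ₂) • ev 2) 1 c₁) (ev j)‖ ^ p) := by
            refine setLIntegral_congr_fun (hmC.inter (measurableSet_fr _ _ _)) fun x hx => ?_
            show ENNReal.ofReal (‖fderiv ℝ (fun x => g (ψ x)) (Function.update x 1 θ₁) (ev j)‖ ^ p)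
              = _
            rw [hpl x hx.1.2 j]
        _ ≤ _ := by
            refine setLIntegral_shift (fun x => ENNReal.ofReal
              (‖fderiv ℝ g (Function.update x 1 c₁) (ev j)‖ ^ p)) _ fun x hx => ?_
            refine ⟨hshift x hx.1, ?_⟩
            obtain ⟨i, hi, h1⟩ := hx.2
            rw [Finset.mem_singleton] at hi
            subst hi
            refine ⟨0, by simp, ?_⟩
            simp [fl, ev] at h1 ⊢
            rcases h1 with h1 | h1
            · left; linarith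
            · right; linarith
    · have : 0 ≤ C * ν * θ₂ := by positivity
      calc C * ν * θ₂ = 1 * (C * ν * θ₂) := by ring
        _ ≤ (8 ^ p * 8) * (C * ν * θ₂) := by gcongr
        _ = _ := by ring
  · have hmeas : MeasurableSet (Bx 1 ∩ Co 1 ν {0}) :=
      (measurableSet_bx _).inter (measurableSet_co _ _ _)
    refine le_trans ?_ H.line
    calc ∫⁻ x in Bx 1 ∩ Co 1 ν {0}, ENNReal.ofReal
          (‖fderiv ℝ (fun x => g (ψ x)) (Function.update (Function.update x 1 θ₁) 2 θ₂) (ev 0) -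
            L (ev 0)‖ ^ p)
        = ∫⁻ x in Bx 1 ∩ Co 1 ν {0}, ENNReal.ofReal
          (‖fderiv ℝ g (Function.update (Function.update x 1 c₁) 2 c₂) (ev 0) -
            L (ev 0)‖ ^ p) := by
          refine setLIntegral_congr_fun hmeas fun x hx => ?_
          have hx0 := hx.2 0 (by simp)
          simp at hx0
          have hxK : Function.update (Function.update x 1 θ₁) 2 θ₂ ∈ K₀ := by
            intro i
            fin_cases i
            · simp [hlo, hhi]
              constructor <;> linarith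
            · simp [hlo, hhi]
            · simp [hlo, hhi]
              constructor <;> nlinarith
          have e1 : Function.update (Function.update x 1 θ₁) 2 θ₂ + w =
              Function.update (Function.update x 1 c₁) 2 c₂ := by
            funext i
            fin_cases i <;> simp [hw, ev]
          show ENNReal.ofReal (‖fderiv ℝ (fun x => g (ψ x))
            (Function.update (Function.update x 1 θ₁) 2 θ₂) (ev 0) - L (ev 0)‖ ^ p) = _
          rw [fderiv_shift hU hψU (hKU hxK), e1]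
      _ ≤ _ := by
          refine lintegral_mono_set fun x hx => ⟨hx.1, fun i hi => ?_⟩
          have := hx.2 i hi
          simp only [Pi.one_apply, mul_one] at this ⊢
          constructor <;> linarith

end Vale.Agent.P073.H83
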