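import Vale.Agent.P073.H83.RP3
import Vale.Agent.P073.H83.RP4

/-!
# P073, rank one: `[RP]`
-/

namespace Vale.Agent.P073.H83

open MeasureTheory Set Filter Topology Metric Vale.Agent.P073.H235 Vale.Agent.P073.LOC
open Vale.Agent.P073.St (V Mat)
open Vale.Agent.P073.H253 (BeamT LineOK lpt)
open scoped ContDiff ENNReal

/-- **[RP]** -/
theorem specRP : H253.SpecRP := by
  intro p M hp hM
  have hM0 : 0 < M := by linarith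
  refine ⟨8 ^ p * 8 * ((3 * (M + 1)) ^ p * (2 * M)), by positivity,
    fun C θ₁ θ₂ ν₁ ν ε hC hθ₁ hθ₂ _ hν₁ hν₁ν hν4 hε => ?_⟩
  obtain ⟨τ₁, hτ₁, h1⟩ := rp_step (p := p) (M := M) hp hM hθ₁ hθ₂ hν₁ hν₁ν hν4
  obtain ⟨τ₂, hτ₂, h2⟩ := shift_step (p := p) hp hθ₁ hθ₂ hν₁ hν₁ν hν4
  refine ⟨min τ₁ τ₂, by positivity, fun c₁ c₂ L Λ f g hc₁ hc₂ _ H => ?_⟩
  obtain ⟨g₁, h3⟩ := h1 _ (min_le_left _ _) C ε c₁ c₂ L Λ f g hC hε hc₁ hc₂ H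
  have hK : 0 < (3 * (M + 1)) ^ p * (2 * M) * C := by positivity
  obtain ⟨g', h4⟩ := h2 _ (by positivity) (min_le_right _ _) _ _ c₁ c₂ L Λ f g₁ hK hc₁ hc₂ h3
  refine ⟨g', ?_⟩
  rw [mul_assoc]
  exact h4

end Vale.Agent.P073.H83
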