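import Vale.Agent.P073.H83.BxLem
import Vale.Agent.P073.H83.Phi

/-!
# P073, rank one: reparametrisation of the middle line
-/

namespace Vale.Agent.P073.H83

open MeasureTheory Set Filter Topology Metric Vale.Agent.P073.H235 Vale.Agent.P073.LOC
open Vale.Agent.P073.St (V Mat)
open Vale.Agent.P073.SQ (ev)
open Vale.Agent.P073.H253 (BeamT LineOK lpt)
open scoped ContDiff ENNReal

/-- integral of a function of the coordinate `x 0` -/
theorem lintegral_coord {F : ℝ → ℝ≥0∞} (hF : Measurable F) (s : Set ℝ) :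
    ∫⁻ x in Set.pi univ (fun i : Fin 3 => if i = 0 then s else Ioo (0:ℝ) 1), F (x 0) =
      ∫⁻ t in s, F t := by
  rw [volume_pi, Measure.restrict_pi_pi]
  have h1 := Measure.pi_map_eval (μ := fun i : Fin 3 => (volume : Measure ℝ).restrict
    (if i = 0 then s else Ioo (0:ℝ) 1)) 0
  have h2 : ∏ j ∈ Finset.univ.erase (0 : Fin 3), ((volume : Measure ℝ).restrict
      (if j = 0 then s else Ioo (0:ℝ) 1)) univ = 1 := by
    refine Finset.prod_eq_one fun j hj => ?_
    have hj0 : j ≠ 0 := Finset.ne_of_mem_erase hj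
    simp [hj0]
  rw [h2, one_smul] at h1
  simp only [if_true] at h1
  rw [← h1, lintegral_map hF (measurable_pi_apply 0)]

variable {M B τ : ℝ} {χ : V → ℝ} {φ φ' : ℝ → ℝ}

/-- energy of the composition on the slice `x 1 = c` -/
theorem PshD.en2_le (h : PshD M B τ χ φ φ') {p : ℝ} (hp : 1 ≤ p) {S : Set V}
    (hS : MeasurableSet S) {g : V → V} {c : ℝ}
    (hg : ∀ x ∈ S, DifferentiableAt ℝ g (psh χ φ (Function.update x 1 c))) :
    En2 p (fun x => g (psh χ φ x)) (Finset.univ.erase 1) 1 c S ≤
      ENNReal.ofReal ((3 * (M + 1)) ^ p * (2 * M)) *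
        En2 p g (Finset.univ.erase 1) 1 c
          (psh (fun x => χ (Function.update x 1 c)) φ '' S) := by
  have hM := h.M_pos
  set H : V → ℝ≥0∞ := fun z => ∑ i ∈ Finset.univ.erase (1 : Fin 3),
    ENNReal.ofReal (‖fderiv ℝ g (Function.update z 1 c) (ev i)‖ ^ p) with hH
  have hpt : ∀ x ∈ S, ∀ j ∈ Finset.univ.erase (1 : Fin 3),
      ENNReal.ofReal (‖fderiv ℝ (fun x => g (psh χ φ x)) (Function.update x 1 c) (ev j)‖ ^ p) ≤
        ENNReal.ofReal ((3 * (M + 1)) ^ p / 3) *
          H (psh (fun x => χ (Function.update x 1 c)) φ x) := by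
    intro x hx j hj
    have hj1 : j ≠ 1 := Finset.ne_of_mem_erase hj
    set y := Function.update x 1 c with hy
    have hc : HasFDerivAt (fun x => g (psh χ φ x))
        ((fderiv ℝ g (psh χ φ y)).comp (PshD.D χ φ φ' y)) y :=
      (hg x hx).hasFDerivAt.comp y (h.hasFDerivAt y)
    rw [hc.fderiv, ContinuousLinearMap.comp_apply]
    set E := fderiv ℝ g (psh χ φ y) with hE
    set E' : V →L[ℝ] V := E.comp (ContinuousLinearMap.id ℝ V -
      (ContinuousLinearMap.proj (R := ℝ) (φ := fun _ : Fin 3 => ℝ) 1).smulRight (ev 1)) with hE'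
    have e1 : E' (ev 1) = 0 := by
      simp [hE', ev_apply]
    have e2 : ∀ i, i ≠ 1 → E' (ev i) = E (ev i) := by
      intro i hi
      simp [hE', ev_apply, Ne.symm hi]
    have hv1 : PshD.D χ φ φ' y (ev j) 1 = 0 := by
      rw [PshD.D_apply]
      simp [ev_apply, Ne.symm hj1]
    have e3 : E (PshD.D χ φ φ' y (ev j)) = E' (PshD.D χ φ φ' y (ev j)) := by
      simp [hE', hv1]
    have key := H732.rpow_est_gen (p := p) hp (by linarith : 0 ≤ M + 1) E'
      (PshD.D χ φ φ' y (ev j)) fun i => h.entries y j i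
    have hsum : ∑ i, ‖E' (ev i)‖ ^ p = ∑ i ∈ Finset.univ.erase (1 : Fin 3), ‖E (ev i)‖ ^ p := by
      rw [← Finset.add_sum_erase Finset.univ _ (Finset.mem_univ (1 : Fin 3)), e1, norm_zero,
        Real.zero_rpow (by linarith), zero_add]
      refine Finset.sum_congr rfl fun i hi => ?_
      rw [e2 i (Finset.ne_of_mem_erase hi)]
    rw [e3]
    rw [hsum] at key
    have hHx : H (psh (fun x => χ (Function.update x 1 c)) φ x) =
        ENNReal.ofReal (∑ i ∈ Finset.univ.erase (1 : Fin 3), ‖E (ev i)‖ ^ p) := by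
      rw [ENNReal.ofReal_sum_of_nonneg fun i _ => by positivity]
      simp only [hH, hE, hy, PshD.psh_update]
    rw [hHx, ← ENNReal.ofReal_mul (by positivity)]
    exact ENNReal.ofReal_le_ofReal key
  have hmeas : ∀ i : Fin 3, Measurable fun z : V =>
      ENNReal.ofReal (‖fderiv ℝ g (Function.update z 1 c) (ev i)‖ ^ p) := by
    intro i
    have hu : Measurable fun z : V => Function.update z 1 c := by
      refine measurable_pi_lambda _ fun k => ?_
      by_cases hk : k = 1
      · subst hk; simp only [Function.update_self]; exact measurable_const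
      · simp only [Function.update_of_ne hk]; exact measurable_pi_apply k
    exact ENNReal.measurable_ofReal.comp
      ((((measurable_fderiv_apply_const ℝ g (ev i)).comp hu).norm).pow_const p)
  unfold En2
  calc ∑ j ∈ Finset.univ.erase (1 : Fin 3), ∫⁻ x in S,
        ENNReal.ofReal (‖fderiv ℝ (fun x => g (psh χ φ x)) (Function.update x 1 c) (ev j)‖ ^ p)
      ≤ ∑ j ∈ Finset.univ.erase (1 : Fin 3), ∫⁻ x in S,
          ENNReal.ofReal ((3 * (M + 1)) ^ p / 3) *
          H (psh (fun x => χ (Function.update x 1 c)) φ x) :=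
        Finset.sum_le_sum fun j hj => setLIntegral_mono' hS fun x hx => hpt x hx j hj
    _ ≤ ∑ j ∈ Finset.univ.erase (1 : Fin 3), ENNReal.ofReal ((3 * (M + 1)) ^ p / 3) *
          (ENNReal.ofReal (2 * M) *
            ∫⁻ z in psh (fun x => χ (Function.update x 1 c)) φ '' S, H z) := by
        refine Finset.sum_le_sum fun j _ => ?_
        rw [lintegral_const_mul' _ _ ENNReal.ofReal_ne_top]
        gcongr
        exact H732.lintegral_comp_le_det (by positivity) hS
          (fun x _ => ((h.freeze c).hasFDerivAt x).hasFDerivWithinAt)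
          (h.freeze c).injective.injOn (fun x _ => (h.freeze c).det x) H
    _ ≤ ENNReal.ofReal ((3 * (M + 1)) ^ p * (2 * M)) *
          ∫⁻ z in psh (fun x => χ (Function.update x 1 c)) φ '' S, H z := by
        rw [Finset.sum_const, nsmul_eq_mul, ← mul_assoc, ← mul_assoc]
        gcongr
        have hc : (((Finset.univ.erase (1 : Fin 3)).card : ℕ) : ℝ≥0∞) ≤ ENNReal.ofReal 3 := by
          rw [Finset.card_erase_of_mem (Finset.mem_univ _), Finset.card_univ, Fintype.card_fin]
          norm_num
        calc (((Finset.univ.erase (1 : Fin 3)).card : ℕ) : ℝ≥0∞) *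
              ENNReal.ofReal ((3 * (M + 1)) ^ p / 3) * ENNReal.ofReal (2 * M)
            ≤ ENNReal.ofReal 3 * ENNReal.ofReal ((3 * (M + 1)) ^ p / 3) *
              ENNReal.ofReal (2 * M) := by gcongr
          _ = _ := by
              rw [← ENNReal.ofReal_mul (by norm_num), ← ENNReal.ofReal_mul (by positivity)]
              congr 1
              ring
    _ = _ := by
        rw [lintegral_finsetSum]
        exact fun i _ => hmeas i

end Vale.Agent.P073.H83
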