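import Vale.Agent.P073.H83.RP1

/-!
# P073, rank one: reparametrisation of the middle line, `[RP]`
-/

namespace Vale.Agent.P073.H83

open MeasureTheory Set Filter Topology Metric Vale.Agent.P073.H235 Vale.Agent.P073.LOC
open Vale.Agent.P073.St (V Mat)
open Vale.Agent.P073.SQ (ev)
open Vale.Agent.P073.H253 (BeamT LineOK lpt)
open scoped ContDiff ENNReal

variable {M B τ : ℝ} {χ : V → ℝ} {φ φ' : ℝ → ℝ}

theorem update_lpt (x : V) (c₁ c₂ : ℝ) :
    Function.update (Function.update x 1 c₁) 2 c₂ = lpt c₁ c₂ (x 0) := by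
  funext i
  fin_cases i <;> simp [lpt]

theorem continuous_lpt (c₁ c₂ : ℝ) : Continuous (lpt c₁ c₂) := by
  refine continuous_pi fun i => ?_
  fin_cases i
  · simpa [lpt] using continuous_id'
  · simpa [lpt] using continuous_const
  · simpa [lpt] using continuous_const

/-- the derivative on the line -/
theorem PshD.fderiv_line (h : PshD M B τ χ φ φ') {U : Set V} (hU : IsOpen U)
    (hχU : ∀ x ∈ U, χ x = 1) {c₁ c₂ t : ℝ} (ht : lpt c₁ c₂ t ∈ U) {g : V → V}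
    (hg : DifferentiableAt ℝ g (lpt c₁ c₂ (φ t))) :
    fderiv ℝ (fun x => g (psh χ φ x)) (lpt c₁ c₂ t) (ev 0) =
      φ' t • fderiv ℝ g (lpt c₁ c₂ (φ t)) (ev 0) := by
  have e1 : psh χ φ (lpt c₁ c₂ t) = lpt c₁ c₂ (φ t) := by
    funext i
    by_cases hi : i = 0
    · subst hi
      rw [psh_zero, hχU _ ht]
      simp [lpt]
    · rw [psh_ne _ _ _ hi]
      fin_cases i
      · exact absurd rfl hi
      · simp [lpt]
      · simp [lpt]
  have hz : fderiv ℝ χ (lpt c₁ c₂ t) = 0 := by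
    have : χ =ᶠ[𝓝 (lpt c₁ c₂ t)] fun _ => 1 := by
      filter_upwards [hU.mem_nhds ht] with y hy
      exact hχU y hy
    rw [this.fderiv_eq]
    simp
  have hg' : DifferentiableAt ℝ g (psh χ φ (lpt c₁ c₂ t)) := by rw [e1]; exact hg
  have hc : HasFDerivAt (fun x => g (psh χ φ x))
      ((fderiv ℝ g (psh χ φ (lpt c₁ c₂ t))).comp (PshD.D χ φ φ' (lpt c₁ c₂ t)))
      (lpt c₁ c₂ t) := hg'.hasFDerivAt.comp _ (h.hasFDerivAt _)
  rw [hc.fderiv, ContinuousLinearMap.comp_apply, e1, ← map_smul]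
  congr 1
  funext i
  rw [PshD.D_apply, hz, hχU _ ht]
  simp [ev_apply, lpt]
  split_ifs <;> ring

/-- the error on the line -/
theorem PshD.line_le (h : PshD M B τ χ φ φ') {p : ℝ} {U : Set V} (hU : IsOpen U)
    (hχU : ∀ x ∈ U, χ x = 1) {c₁ c₂ a' b' a b : ℝ} (hline : ∀ t ∈ Icc a' b', lpt c₁ c₂ t ∈ U)
    (hmap : ∀ t ∈ Icc a' b', φ t ∈ Icc a b) {r : ℝ → ℝ} (hr : ∀ t, φ' t = (r (φ t))⁻¹)
    (hr0 : ∀ u, 0 < r u) (hrc : Continuous r) {g : V → V}
    (hg : ∀ t ∈ Icc a' b', DifferentiableAt ℝ g (lpt c₁ c₂ (φ t))) (w : V) :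
    ∫⁻ x in Set.pi univ (fun i : Fin 3 => if i = 0 then Icc a' b' else Ioo (0:ℝ) 1),
      ENNReal.ofReal (‖fderiv ℝ (fun x => g (psh χ φ x))
        (Function.update (Function.update x 1 c₁) 2 c₂) (ev 0) - w‖ ^ p) ≤
      ∫⁻ u in Icc a b,
        ENNReal.ofReal (‖(r u)⁻¹ • fderiv ℝ g (lpt c₁ c₂ u) (ev 0) - w‖ ^ p * r u) := by
  have hφc : Continuous φ := h.smφ.continuous
  set F₂ : ℝ → ℝ≥0∞ := fun u =>
    ENNReal.ofReal (‖(r u)⁻¹ • fderiv ℝ g (lpt c₁ c₂ u) (ev 0) - w‖ ^ p * r u) with hF₂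
  set F₁ : ℝ → ℝ≥0∞ := fun t =>
    ENNReal.ofReal (‖(r (φ t))⁻¹ • fderiv ℝ g (lpt c₁ c₂ (φ t)) (ev 0) - w‖ ^ p) with hF₁
  have hF₁m : Measurable F₁ := by
    have hm1 : Measurable fun t => (r (φ t))⁻¹ := (hrc.comp hφc).measurable.inv
    have hm2 : Measurable fun t => fderiv ℝ g (lpt c₁ c₂ (φ t)) (ev 0) :=
      (measurable_fderiv_apply_const ℝ g (ev 0)).comp
        ((continuous_lpt c₁ c₂).comp hφc).measurable
    exact ENNReal.measurable_ofReal.comp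
      ((((hm1.smul hm2).sub measurable_const).norm).pow_const p)
  have hF12 : ∀ t, F₁ t = ENNReal.ofReal |φ' t| * F₂ (φ t) := by
    intro t
    have h0 := hr0 (φ t)
    simp only [hF₁, hF₂]
    rw [← ENNReal.ofReal_mul (abs_nonneg _), hr t, abs_of_pos (inv_pos.2 h0)]
    congr 1
    field_simp
  calc ∫⁻ x in Set.pi univ (fun i : Fin 3 => if i = 0 then Icc a' b' else Ioo (0:ℝ) 1),
      ENNReal.ofReal (‖fderiv ℝ (fun x => g (psh χ φ x))
        (Function.update (Function.update x 1 c₁) 2 c₂) (ev 0) - w‖ ^ p)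
      = ∫⁻ x in Set.pi univ (fun i : Fin 3 => if i = 0 then Icc a' b' else Ioo (0:ℝ) 1),
          F₁ (x 0) := by
        refine setLIntegral_congr_fun (MeasurableSet.univ_pi fun i => ?_) fun x hx => ?_
        · split_ifs
          · exact measurableSet_Icc
          · exact measurableSet_Ioo
        · have hx0 : x 0 ∈ Icc a' b' := by simpa using hx 0 (mem_univ _)
          show ENNReal.ofReal (‖fderiv ℝ (fun x => g (psh χ φ x))
            (Function.update (Function.update x 1 c₁) 2 c₂) (ev 0) - w‖ ^ p) = F₁ (x 0)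
          rw [update_lpt, h.fderiv_line hU hχU (hline _ hx0) (hg _ hx0), hr]
    _ = ∫⁻ t in Icc a' b', F₁ t := lintegral_coord hF₁m _
    _ = ∫⁻ t in Icc a' b', ENNReal.ofReal |φ' t| * F₂ (φ t) :=
        lintegral_congr fun t => hF12 t
    _ = ∫⁻ u in φ '' Icc a' b', F₂ u := by
        refine (lintegral_image_eq_lintegral_abs_deriv_mul measurableSet_Icc
          (fun t _ => (h.der t).hasDerivWithinAt) ?_ F₂).symm
        have : StrictMono φ := strictMono_of_deriv_pos fun t => by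
          rw [(h.der t).deriv, hr]
          exact inv_pos.2 (hr0 _)
        exact this.injective.injOn
    _ ≤ _ := by
        refine lintegral_mono_set ?_
        rintro _ ⟨t, ht, rfl⟩
        exact hmap t ht

/-- the output of the reparametrisation, before the shift -/
structure Mid (p C θ₁ θ₂ ν₁ ν ε c₁ c₂ : ℝ) (L : V →L[ℝ] V) (Λ : Set V) (f g : V → V) : Prop where
  diffeo : St.IsDiffeo (Bx (bm θ₁ θ₂)) Λ g
  close : BdClose (Bx (bm θ₁ θ₂)) (cmp (bm θ₁ θ₂) f) g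
  bulk : En p g Finset.univ (Bx (bm θ₁ θ₂)) ≤ ENNReal.ofReal (C * θ₁ * θ₂)
  frame : En p g Finset.univ (Bx (bm θ₁ θ₂) ∩ Fr (bm θ₁ θ₂) (3 / 2 * ν₁) {0, 2}) ≤
    ENNReal.ofReal (C * ν₁ * θ₁ * θ₂)
  pl : En2 p g (Finset.univ.erase 1) 1 c₁ (Bx (fl θ₂) ∩ Co (fl θ₂) (3 / 4 * ν₁) {0, 2}) ≤
    ENNReal.ofReal (C * θ₂)
  plFrame : En2 p g (Finset.univ.erase 1) 1 c₁
    (Bx (fl θ₂) ∩ Co (fl θ₂) (3 / 4 * ν₁) {0, 2} ∩ Fr (fl θ₂) (3 / 2 * ν) {0}) ≤
      ENNReal.ofReal (C * ν * θ₂)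
  line : ∫⁻ x in Bx 1 ∩ Co 1 (3 / 4 * ν) {0},
    ENNReal.ofReal (‖fderiv ℝ g (Function.update (Function.update x 1 c₁) 2 c₂) (ev 0) -
      L (ev 0)‖ ^ p) ≤ ENNReal.ofReal ε

end Vale.Agent.P073.H83
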