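import Vale.Agent.P073.H83.RP2

/-!
# P073, rank one: reparametrisation of the middle line, the step
-/

namespace Vale.Agent.P073.H83

open MeasureTheory Set Filter Topology Metric Vale.Agent.P073.H235 Vale.Agent.P073.LOC
open Vale.Agent.P073.St (V Mat)
open Vale.Agent.P073.SQ (ev)
open Vale.Agent.P073.H253 (BeamT LineOK lpt)
open scoped ContDiff ENNReal

/-- **reparametrisation** -/
theorem rp_step {p M θ₁ θ₂ ν₁ ν : ℝ} (hp : 1 ≤ p) (hM : 1 ≤ M) (hθ₁ : 0 < θ₁) (hθ₂ : 0 < θ₂)
    (hν₁ : 0 < ν₁) (hν₁ν : ν₁ ≤ ν / 4) (hν4 : ν ≤ 1 / 4) :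
    ∃ τ₀ > 0, ∀ τ ≤ τ₀, ∀ (C ε c₁ c₂ : ℝ) (L : V →L[ℝ] V) (Λ : Set V) (f g : V → V), 0 < C →
      0 < ε → |c₁ - θ₁| ≤ τ → |c₂ - θ₂| ≤ τ →
      BeamT p C M θ₁ θ₂ ν₁ ν (2 * ν₁) (2 * ν) τ ε c₁ c₂ L Λ f g →
      ∃ g₁, Mid p ((3 * (M + 1)) ^ p * (2 * M) * C) θ₁ θ₂ ν₁ ν (2 * ε) c₁ c₂ L Λ f g₁ := by
  have hM0 : 0 < M := by linarith
  have hν : 0 < ν := by linarith
  have hK0 : 0 < (3 * (M + 1)) ^ p * (2 * M) := by positivity
  -- the cut-off function
  set lo : V := ![ν / 16, θ₁ / 2, θ₂ / 2] with hlo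
  set hi : V := ![1 - ν / 16, 3 / 2 * θ₁, 3 / 2 * θ₂] with hhi
  set K₀ : Set V := {x : V | ∀ i, lo i ≤ x i ∧ x i ≤ hi i} with hK₀
  have hK₀c : IsCompact K₀ := isCompact_rect _ _
  have hK₀s : K₀ ⊆ Bx (bm θ₁ θ₂) := by
    intro x hx i
    have h0 := hx 0
    have h1 := hx 1
    have h2 := hx 2
    simp [hlo, hhi] at h0 h1 h2
    fin_cases i
    · simp [bm]; constructor <;> linarith
    · simp [bm]; constructor <;> linarith
    · simp [bm]; constructor <;> linarith
  obtain ⟨χ, K, U, B, hK, hKB, hU, hKU, hχ, hχ1, hχU, hχK, hB0, hB⟩ :=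
    H732.exists_bump (isOpen_bx (bm θ₁ θ₂)) hK₀c hK₀s
  refine ⟨min (min (θ₁ / 2) (θ₂ / 2)) (min (1 / (2 * M * B)) (ν₁ / 16)), by positivity,
    fun τ hτ C ε c₁ c₂ L Λ f g hC hε hc₁ hc₂ H => ?_⟩
  have hτ1 : τ ≤ θ₁ / 2 := hτ.trans ((min_le_left _ _).trans (min_le_left _ _))
  have hτ2 : τ ≤ θ₂ / 2 := hτ.trans ((min_le_left _ _).trans (min_le_right _ _))
  have hτ3 : τ ≤ 1 / (2 * M * B) := hτ.trans ((min_le_right _ _).trans (min_le_left _ _))
  have hτ4 : τ ≤ ν₁ / 16 := hτ.trans ((min_le_right _ _).trans (min_le_right _ _))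
  have hc₁' := _root_.abs_le.1 hc₁
  have hc₂' := _root_.abs_le.1 hc₂
  have hgs : ContDiffOn ℝ ∞ g (Bx (bm θ₁ θ₂)) := AB.diffeo_smooth H.diffeo
  have hgd : ∀ x ∈ Bx (bm θ₁ θ₂), DifferentiableAt ℝ g x := fun x hx =>
    (hgs.contDiffAt ((isOpen_bx _).mem_nhds hx)).differentiableAt (by simp)
  have hlpt : ∀ t ∈ Ioo (0:ℝ) 1, lpt c₁ c₂ t ∈ Bx (bm θ₁ θ₂) := by
    intro t ht i
    fin_cases i
    · simpa [lpt, bm] using ht
    · simp [lpt, bm]; constructor <;> linarith
    · simp [lpt, bm]; constructor <;> linarith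
  -- the density
  have hGc : ContinuousOn (fun u => fderiv ℝ g (lpt c₁ c₂ u) (ev 0)) (Icc (ν / 8) (1 - ν / 8)) := by
    have h1 : ContinuousOn (fderiv ℝ g) (Bx (bm θ₁ θ₂)) :=
      hgs.continuousOn_fderiv_of_isOpen (isOpen_bx _) (by simp)
    have h2 : ContinuousOn (fun u => fderiv ℝ g (lpt c₁ c₂ u)) (Icc (ν / 8) (1 - ν / 8)) :=
      h1.comp (continuous_lpt c₁ c₂).continuousOn fun u hu =>
        hlpt u ⟨by linarith [hu.1], by linarith [hu.2]⟩
    exact h2.clm_apply continuousOn_const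
  obtain ⟨r, hr1, hr2, hr3, hr4, hr5, hr6⟩ := specRPA p ε M τ (ν / 8) (1 - ν / 8) (L (ev 0))
    (fun u => fderiv ℝ g (lpt c₁ c₂ u) (ev 0)) hp hM (by linarith) hε hGc H.line (ν / 16)
    (by positivity)
  obtain ⟨σ, φ, -, hφs, -, hφm, -, -, -, hφd, -, hφn, -, hφo⟩ := exists_phi hM hr1
    (fun u => (hr2 u).1) hr3 hr4 hr5
  have hr0 : ∀ u, 0 < r u := fun u => lt_of_lt_of_le (by positivity) (hr2 u).1
  have hD : PshD M B τ χ φ (fun t => (r (φ t))⁻¹) :=
    { one := hM
      smχ := hχ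
      χI := hχ1
      χB := hB
      smφ := hφs
      der := hφd
      lo := fun t => by
        rw [one_div]
        exact inv_anti₀ (hr0 _) (hr2 _).2
      hi := fun t => by
        rw [inv_le_comm₀ (hr0 _) hM0, ← one_div]
        exact (hr2 _).1
      near := hφn
      small := by
        calc B * τ ≤ B * (1 / (2 * M * B)) := by gcongr
          _ = 1 / (2 * M) := by field_simp }
  have hdf : St.IsDiffeo (Bx (bm θ₁ θ₂)) (Bx (bm θ₁ θ₂)) (psh χ φ) :=
    hD.isDiffeo fun x hx => hχK x fun h => hx (hKB h)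
  have hmaps : ∀ x ∈ Bx (bm θ₁ θ₂), psh χ φ x ∈ Bx (bm θ₁ θ₂) := fun x hx =>
    AB.diffeo_maps hdf hx
  have hmv : ∀ (x : V), |psh χ φ x 0 - x 0| ≤ τ := fun x => by
    have h1 := norm_le_pi_norm (psh χ φ x - x) 0
    exact h1.trans (hD.norm_sub x)
  have hmv' : ∀ (x : V), |psh (fun x => χ (Function.update x 1 c₁)) φ x 0 - x 0| ≤ τ := fun x => by
    have h1 := norm_le_pi_norm (psh (fun x => χ (Function.update x 1 c₁)) φ x - x) 0
    exact h1.trans ((hD.freeze c₁).norm_sub x)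
  -- the plane
  have hpl0 : ∀ x ∈ Bx (fl θ₂) ∩ Co (fl θ₂) (3 / 4 * ν₁) {0, 2},
      Function.update x 1 c₁ ∈ Bx (bm θ₁ θ₂) := by
    intro x hx i
    have h0 := hx.1 0
    have h2 := hx.1 2
    simp [fl] at h0 h2
    fin_cases i
    · simpa [bm] using h0
    · simp [bm]; constructor <;> linarith
    · simpa [bm] using h2
  have hpl1 : ∀ x ∈ Bx (fl θ₂) ∩ Co (fl θ₂) (3 / 4 * ν₁) {0, 2},
      psh (fun x => χ (Function.update x 1 c₁)) φ x ∈
        Bx (fl θ₂) ∩ Co (fl θ₂) (ν₁ / 2) {0, 2} := by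
    intro x hx
    have h0 := hx.1 0
    have h1 := hx.1 1
    have h2 := hx.1 2
    have k0 := hx.2 0 (by simp)
    have k2 := hx.2 2 (by simp)
    have m := _root_.abs_le.1 (hmv' x)
    have e1 := psh_ne (fun x => χ (Function.update x 1 c₁)) φ x (i := 1) (by decide)
    have e2 := psh_ne (fun x => χ (Function.update x 1 c₁)) φ x (i := 2) (by decide)
    simp [fl] at h0 h1 h2 k0 k2
    have hθν : 0 < ν₁ * θ₂ := by positivity
    constructor
    · intro i
      fin_cases i
      · simp [fl]; constructor <;> linarith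
      · simp [fl, e1]; exact h1
      · simp [fl, e2]; exact h2
    · intro i hi
      simp only [Finset.mem_insert, Finset.mem_singleton] at hi
      rcases hi with rfl | rfl
      · simp [fl]; constructor <;> linarith
      · simp [fl, e2]; constructor <;> nlinarith
  have hmCo : MeasurableSet (Bx (fl θ₂) ∩ Co (fl θ₂) (3 / 4 * ν₁) {0, 2}) :=
    (measurableSet_bx _).inter (measurableSet_co _ _ _)
  refine ⟨fun x => g (psh χ φ x), ⟨AB.isDiffeo_comp hdf H.diffeo,
    bdClose_shift hK hKB (fun x hx => by simp [psh, hχK x hx]) H.close, ?_, ?_, ?_, ?_, ?_⟩⟩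
  · refine (hD.en_le hp (measurableSet_bx _) fun x hx => hgd _ (hmaps x hx)).trans ?_
    calc ENNReal.ofReal ((3 * (M + 1)) ^ p * (2 * M)) *
          En p g Finset.univ (psh χ φ '' Bx (bm θ₁ θ₂))
        ≤ ENNReal.ofReal ((3 * (M + 1)) ^ p * (2 * M)) * ENNReal.ofReal (C * θ₁ * θ₂) := by
          gcongr
          refine (en_mono ?_).trans H.bulk
          rintro _ ⟨x, hx, rfl⟩
          exact hmaps x hx
      _ = _ := by
          rw [← ENNReal.ofReal_mul hK0.le]
          congr 1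
          ring
  · refine (hD.en_le hp ((measurableSet_bx _).inter (measurableSet_fr _ _ _))
      fun x hx => hgd _ (hmaps x hx.1)).trans ?_
    calc ENNReal.ofReal ((3 * (M + 1)) ^ p * (2 * M)) * En p g Finset.univ
          (psh χ φ '' (Bx (bm θ₁ θ₂) ∩ Fr (bm θ₁ θ₂) (3 / 2 * ν₁) {0, 2}))
        ≤ ENNReal.ofReal ((3 * (M + 1)) ^ p * (2 * M)) *
          ENNReal.ofReal (C * ν₁ * θ₁ * θ₂) := by
          gcongr
          refine (en_mono ?_).trans H.frame
          rintro _ ⟨x, hx, rfl⟩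
          refine ⟨hmaps x hx.1, ?_⟩
          obtain ⟨i, hi, h1⟩ := hx.2
          refine ⟨i, hi, ?_⟩
          simp only [Finset.mem_insert, Finset.mem_singleton] at hi
          rcases hi with rfl | rfl
          · have m := _root_.abs_le.1 (hmv x)
            simp [bm] at h1 ⊢
            rcases h1 with h1 | h1
            · left; linarith
            · right; linarith
          · rw [psh_ne _ _ _ (by decide)]
            have hθν : 0 < ν₁ * θ₂ := by positivity
            simp [bm] at h1 ⊢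
            rcases h1 with h1 | h1
            · left; nlinarith
            · right; nlinarith
      _ = _ := by
          rw [← ENNReal.ofReal_mul hK0.le]
          congr 1
          ring
  · refine (hD.en2_le hp hmCo fun x hx => hgd _ (hmaps _ (hpl0 x hx))).trans ?_
    calc ENNReal.ofReal ((3 * (M + 1)) ^ p * (2 * M)) * En2 p g (Finset.univ.erase 1) 1 c₁
          (psh (fun x => χ (Function.update x 1 c₁)) φ ''
            (Bx (fl θ₂) ∩ Co (fl θ₂) (3 / 4 * ν₁) {0, 2}))
        ≤ ENNReal.ofReal ((3 * (M + 1)) ^ p * (2 * M)) * ENNReal.ofReal (C * θ₂) := by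
          gcongr
          refine (en2_mono ?_).trans H.pl
          rintro _ ⟨x, hx, rfl⟩
          exact hpl1 x hx
      _ = _ := by
          rw [← ENNReal.ofReal_mul hK0.le]
          congr 1
          ring
  · refine (hD.en2_le hp (hmCo.inter (measurableSet_fr _ _ _))
      fun x hx => hgd _ (hmaps _ (hpl0 x hx.1))).trans ?_
    calc ENNReal.ofReal ((3 * (M + 1)) ^ p * (2 * M)) * En2 p g (Finset.univ.erase 1) 1 c₁
          (psh (fun x => χ (Function.update x 1 c₁)) φ ''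
            (Bx (fl θ₂) ∩ Co (fl θ₂) (3 / 4 * ν₁) {0, 2} ∩ Fr (fl θ₂) (3 / 2 * ν) {0}))
        ≤ ENNReal.ofReal ((3 * (M + 1)) ^ p * (2 * M)) * ENNReal.ofReal (C * ν * θ₂) := by
          gcongr
          refine (en2_mono ?_).trans H.plFrame
          rintro _ ⟨x, hx, rfl⟩
          refine ⟨hpl1 x hx.1, ?_⟩
          obtain ⟨i, hi, h1⟩ := hx.2
          rw [Finset.mem_singleton] at hi
          subst hi
          refine ⟨0, by simp, ?_⟩
          have m := _root_.abs_le.1 (hmv' x)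
          simp [fl] at h1 ⊢
          rcases h1 with h1 | h1
          · left; linarith
          · right; linarith
      _ = _ := by
          rw [← ENNReal.ofReal_mul hK0.le]
          congr 1
          ring
  · have hsub : Bx 1 ∩ Co 1 (3 / 4 * ν) {0} ⊆ Set.pi univ (fun i : Fin 3 =>
        if i = 0 then Icc (3 / 16 * ν) (1 - 3 / 16 * ν) else Ioo (0:ℝ) 1) := by
      intro x hx i _
      have h1 := hx.1 i
      simp only [Pi.one_apply] at h1
      by_cases hi : i = 0
      · subst hi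
        have h2 := hx.2 0 (by simp)
        simp only [Pi.one_apply, mul_one] at h2
        simp only [if_true]
        exact ⟨by linarith, by linarith⟩
      · simp only [hi, if_false]
        exact h1
    refine (lintegral_mono_set hsub).trans ?_
    refine (hD.line_le (p := p) hU hχU (a := ν / 8) (b := 1 - ν / 8) (fun t ht => hKU ?_)
      (fun t ht => ?_) (fun t => rfl) hr0 hr1.continuous (fun t ht => hgd _ (hlpt _ ?_))
      (L (ev 0))).trans hr6
    · intro i
      fin_cases i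
      · simp [lpt, hlo, hhi]; constructor <;> linarith [ht.1, ht.2]
      · simp [lpt, hlo, hhi]; constructor <;> linarith
      · simp [lpt, hlo, hhi]; constructor <;> linarith
    · have := _root_.abs_le.1 (hφn t)
      exact ⟨by linarith [ht.1], by linarith [ht.2]⟩
    · have := _root_.abs_le.1 (hφn t)
      exact ⟨by linarith [ht.1], by linarith [ht.2]⟩

end Vale.Agent.P073.H83
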