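import Vale.Agent.P073.H83.Kd

/-!
# P073, block GEN-B, part 3: the functionals
-/

open Set Metric Topology Filter MeasureTheory
open scoped ENNReal
open Vale.Agent.P073.AB (Idx Part pt edge eInt squ FaceOf EdgeOf EdgeOfSq MinSq)
open P073.Net (dyc dyo)
open Vale.Agent.P073.St (V)
open Vale.Agent.P073.H194
open Vale.Agent.P073.SQ (ev)

namespace Vale.Agent.P073.H83

/-- truncated error of the Riemann sum of type `κ` over the cube `q` -/
noncomputable def Er (H : V → ℝ≥0∞) (κ : Fin 3 → Kd) (q : Idx) (n : ℕ) (v : V) : ℝ≥0∞ :=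
  (∫⁻ y in hc q, H (v + ph κ n y)) - ∫⁻ y in hc q, H (v + ps κ y)

theorem measurable_lint (H : V → ℝ≥0∞) (hH : Measurable H) {φ : V → V} (hφ : Measurable φ)
    (q : Idx) : Measurable fun v : V => ∫⁻ y in hc q, H (v + φ y) := by
  have h : Measurable fun p : V × V => H (p.1 + φ p.2) :=
    hH.comp (measurable_fst.add (hφ.comp measurable_snd))
  exact h.lintegral_prod_right'

theorem measurable_Er {H : V → ℝ≥0∞} (hH : Measurable H) (κ : Fin 3 → Kd) (q : Idx) (n : ℕ) :
    Measurable (Er H κ q n) :=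
  (measurable_lint H hH (measurable_ph κ n) q).sub (measurable_lint H hH (measurable_ps κ) q)

theorem tendsto_Er {H : V → ℝ≥0∞} (hH : Measurable H) (hfin : ∫⁻ x, H x ≠ ∞) (κ : Fin 3 → Kd)
    (q : Idx) : Tendsto (fun n => ∫⁻ v, Er H κ q n v) atTop (𝓝 0) := by
  rw [ENNReal.tendsto_nhds_zero]
  intro ε hε
  obtain ⟨m₀, hm₀⟩ := exists_riemann (volume : Measure V) hH hfin (volume.restrict (hc q))
    (fun n => ph κ n) (ps κ) (measurable_ph κ) (measurable_ps κ) (by
      intro δ hδ
      obtain ⟨m₀, hm₀⟩ := exists_pow_lt_of_lt_one hδ (show (1 / 2 : ℝ) < 1 by norm_num)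
      refine ⟨m₀, fun m hm y => (norm_ph_sub_ps κ m y).trans_lt (lt_of_le_of_lt ?_ hm₀)⟩
      rw [one_div_pow]
      exact one_div_le_one_div_of_le (by positivity) (pow_le_pow_right₀ (by norm_num) hm)) hε
  exact eventually_atTop.2 ⟨m₀, hm₀⟩

/-- integrals against `v` of the limit functional -/
theorem lintegral_ps {H : V → ℝ≥0∞} (hH : Measurable H) {φ : V → V} (hφ : Measurable φ) (q : Idx) :
    ∫⁻ v : V, ∫⁻ y in hc q, H (v + φ y) = volume (hc q) * ∫⁻ x, H x := by
  have h : Measurable fun p : V × V => H (p.1 + φ p.2) :=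
    hH.comp (measurable_fst.add (hφ.comp measurable_snd))
  rw [lintegral_lintegral_swap h.aemeasurable]
  have h1 : ∀ y : V, ∫⁻ v : V, H (v + φ y) = ∫⁻ x, H x := fun y =>
    lintegral_add_right_eq_self H (φ y)
  simp only [h1]
  rw [lintegral_const, Measure.restrict_apply_univ, mul_comm]

/-! ### Functions of one coordinate -/

theorem lintegral_hc_coord (q : Idx) (k : Fin 3) {G : ℝ → ℝ≥0∞} (hG : Measurable G) :
    ∫⁻ y in hc q, G (y k) = ENNReal.ofReal ((1 / 2 ^ q.1) ^ 2) *
      ∫⁻ t in Ico ((q.2 k : ℝ) / 2 ^ q.1) ((q.2 k + 1) / 2 ^ q.1), G t := by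
  set s : Fin 3 → Set ℝ := fun i => Ico ((q.2 i : ℝ) / 2 ^ q.1) ((q.2 i + 1) / 2 ^ q.1) with hs
  have h1 : (volume : Measure V).restrict (hc q) =
      Measure.pi fun i => (volume : Measure ℝ).restrict (s i) := by
    rw [volume_pi, hc]
    exact Measure.restrict_pi_pi _ _
  have h2 : ∫⁻ y in hc q, G (y k) =
      ∫⁻ t, G t ∂(Measure.map (Function.eval k) ((volume : Measure V).restrict (hc q))) := by
    rw [lintegral_map hG (measurable_pi_apply k)]
  rw [h2, h1, Measure.pi_map_eval, lintegral_smul_measure, smul_eq_mul]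
  congr 1
  have h3 : ∀ i : Fin 3, ((volume : Measure ℝ).restrict (s i)) univ =
      ENNReal.ofReal (1 / 2 ^ q.1) := by
    intro i
    rw [Measure.restrict_apply_univ, hs, Real.volume_Ico]
    congr 1
    ring
  rw [Finset.prod_congr rfl fun i _ => h3 i, Finset.prod_const,
    Finset.card_erase_of_mem (Finset.mem_univ _), Finset.card_univ, Fintype.card_fin,
    ENNReal.ofReal_pow (by positivity)]

/-! ### Edges -/

theorem eInt_hc (v : V) (n : ℕ) (w : Fin 3 → ℤ) (k : Fin 3) {H : V → ℝ≥0∞} (hH : Measurable H) :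
    eInt v ((n, w), k) H = ∫⁻ t in Ico ((w k : ℝ) / 2 ^ n) ((w k + 1) / 2 ^ n),
      H (Function.update (pt v n w) k (v k + t)) := by
  rw [AB.S293.eInt_eq v _ hH]
  show ∫⁻ t in Icc (v k + (w k : ℝ) / 2 ^ n) (v k + ((w k : ℝ) + 1) / 2 ^ n),
    H (Function.update (pt v n w) k t) = _
  have h1 : (fun t : ℝ => v k + t) ⁻¹' Icc (v k + (w k : ℝ) / 2 ^ n) (v k + ((w k : ℝ) + 1) / 2 ^ n) =
      Icc ((w k : ℝ) / 2 ^ n) ((w k + 1) / 2 ^ n) := by
    ext t
    simp [mem_Icc]
  rw [setLIntegral_congr (Ico_ae_eq_Icc (a := (w k : ℝ) / 2 ^ n) (b := (w k + 1) / 2 ^ n)), ← h1]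
  exact ((measurePreserving_add_left (volume : Measure ℝ) (v k)).setLIntegral_comp_preimage_emb
    (measurableEmbedding_addLeft (v k))
    (fun t => H (Function.update (pt v n w) k t)) _).symm

/-! ### Squares -/

theorem sInt_hc (v : V) (s : Idx × Fin 3) (H : V → ℝ≥0∞) :
    sInt v s H = 2 ^ s.1.1 *
      ∫⁻ y in hc s.1, H (v + Function.update y s.2 ((s.1.2 s.2 : ℝ) / 2 ^ s.1.1)) := by
  unfold sInt
  congr 1
  have h := setLIntegral_dyc v s.1 (fun x => H (Function.update x s.2 (pt v s.1.1 s.1.2 s.2)))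
  rw [h]
  refine lintegral_congr fun y => ?_
  congr 1
  funext i
  by_cases hi : i = s.2
  · subst hi; simp [pt]
  · simp [Function.update_of_ne hi]

theorem hc_shift (n : ℕ) (w : Fin 3 → ℤ) (k : Fin 3) (G : V → ℝ≥0∞)
    (hG : ∀ y t, G (Function.update y k t) = G y) :
    ∫⁻ y in hc (n, Function.update w k (w k + 1)), G y = ∫⁻ y in hc (n, w), G y := by
  set a : V := Function.update 0 k (1 / 2 ^ n : ℝ) with ha
  have h1 : (fun y : V => a + y) ⁻¹' hc (n, Function.update w k (w k + 1)) = hc (n, w) := by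
    ext y
    rw [mem_preimage, mem_hc, mem_hc]
    refine forall_congr' fun i => ?_
    by_cases hi : i = k
    · subst hi
      simp only [Function.update_self, Pi.add_apply, ha]
      push_cast
      simp only [add_div]
      constructor
      · rintro ⟨h, h'⟩; constructor <;> linarith
      · rintro ⟨h, h'⟩; constructor <;> linarith
    · simp [ha, Function.update_of_ne hi]
  have h2 := (measurePreserving_add_left (volume : Measure V) a).setLIntegral_comp_preimage_emb
    (measurableEmbedding_addLeft a) G (hc (n, Function.update w k (w k + 1)))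
  rw [← h2, h1]
  refine lintegral_congr fun y => ?_
  have h3 : a + y = Function.update y k (1 / 2 ^ n + y k) := by
    funext i
    by_cases hi : i = k
    · subst hi; simp [ha]
    · simp [ha, Function.update_of_ne hi]
  rw [h3, hG]

/-- the two faces of the cube `(n, w)` orthogonal to `k` -/
theorem sInt_two (v : V) (n : ℕ) (w : Fin 3 → ℤ) (k : Fin 3) (H : V → ℝ≥0∞) (s : Bool) :
    sInt v ((n, Function.update w k (w k + (if s then 1 else 0))), k) H = 2 ^ n *
      ∫⁻ y in hc (n, w), H (v + Function.update y k (la s n (y k))) := by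
  have h0 : ∀ y ∈ hc (n, w), la s n (y k) = ((w k + (if s then 1 else 0) : ℤ) : ℝ) / 2 ^ n := by
    intro y hy
    rw [mem_hc] at hy
    have := floor_of_mem (hy k).1 (hy k).2
    rw [la, this]
    push_cast
    cases s <;> simp
  have h1 : ∫⁻ y in hc (n, w), H (v + Function.update y k (la s n (y k))) =
      ∫⁻ y in hc (n, w),
        H (v + Function.update y k (((w k + (if s then 1 else 0) : ℤ) : ℝ) / 2 ^ n)) := by
    refine setLIntegral_congr_fun (measurableSet_hc _) fun y hy => ?_
    show H (v + Function.update y k (la s n (y k))) = _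
    rw [h0 y hy]
  rw [h1, sInt_hc]
  show 2 ^ n * ∫⁻ y in hc (n, Function.update w k (w k + (if s then 1 else 0))),
    H (v + Function.update y k
      (((Function.update w k (w k + (if s then 1 else 0))) k : ℤ) / 2 ^ n)) = _
  rw [Function.update_self]
  congr 1
  cases s
  · simp
  · simp only [if_true]
    exact hc_shift n w k
      (fun y => H (v + Function.update y k (((w k + 1 : ℤ) : ℝ) / 2 ^ n))) fun y t => by
        rw [Function.update_idem]

/-! ### The surface of a cube -/

/-- `2^(-n)` times the surface integral -/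
theorem bInt_eq (v : V) (n : ℕ) (w : Fin 3 → ℤ) (H : V → ℝ≥0∞) :
    ENNReal.ofReal (1 / 2 ^ n) * bInt v (n, w) H = ∑ k : Fin 3, ∑ s : Bool,
      ∫⁻ y in hc (n, w), H (v + Function.update y k (la s n (y k))) := by
  have h2 : ENNReal.ofReal (1 / 2 ^ n) * 2 ^ n = 1 := by
    have : (2 : ℝ≥0∞) ^ n = ENNReal.ofReal (2 ^ n) := by
      rw [ENNReal.ofReal_pow (by norm_num)]; norm_num
    rw [this, ← ENNReal.ofReal_mul (by positivity)]
    rw [one_div, inv_mul_cancel₀ (by positivity), ENNReal.ofReal_one]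
  unfold bInt
  rw [Finset.mul_sum]
  refine Finset.sum_congr rfl fun k _ => ?_
  have hf := sInt_two v n w k H false
  have ht := sInt_two v n w k H true
  simp only [Bool.false_eq_true, if_false, add_zero, Function.update_eq_self] at hf
  simp only [if_true] at ht
  rw [Fintype.sum_bool, hf, ht, mul_add, ← mul_assoc, ← mul_assoc, h2, one_mul, one_mul, add_comm]

/-- type of a square orthogonal to `k` -/
def kf (k : Fin 3) (s : Bool) : Fin 3 → Kd := Function.update (fun _ => none) k (some (Sum.inl s))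

theorem ph_kf (k : Fin 3) (s : Bool) (n : ℕ) (y : V) :
    ph (kf k s) n y = Function.update y k (la s n (y k)) := by
  funext i
  by_cases hi : i = k
  · subst hi; simp [ph, kf, co]
  · simp [ph, kf, co, Function.update_of_ne hi]

theorem ps_kf (k : Fin 3) (s : Bool) (y : V) : ps (kf k s) y = y := by
  funext i
  by_cases hi : i = k
  · subst hi; simp [ps, kf, li]
  · simp [ps, kf, li, Function.update_of_ne hi]

/-- sum of the surface integrals of the subcubes -/
theorem sum_bInt (v : V) (q : Idx) {n : ℕ} (hn : q.1 ≤ n) (H : V → ℝ≥0∞) :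
    ∑ w ∈ subs q n, ENNReal.ofReal (1 / 2 ^ n) * bInt v (n, w) H = ∑ k : Fin 3, ∑ s : Bool,
      ∫⁻ y in hc q, H (v + ph (kf k s) n y) := by
  simp_rw [bInt_eq, ph_kf, setLIntegral_hc q hn]
  rw [Finset.sum_comm]
  refine Finset.sum_congr rfl fun k _ => ?_
  rw [Finset.sum_comm]

/-- the faces of the subcubes: from the errors -/
theorem sum_bInt_le {v : V} {q : Idx} {n : ℕ} (hn : q.1 ≤ n) (H : V → ℝ≥0∞) :
    ∑ w ∈ subs q n, ENNReal.ofReal (1 / 2 ^ n) * bInt v (n, w) H ≤
      6 * (∫⁻ x in dyc v q.1 q.2, H x) + ∑ k : Fin 3, ∑ s : Bool, Er H (kf k s) q n v := by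
  rw [sum_bInt v q hn]
  have h1 : (6 : ℝ≥0∞) * (∫⁻ x in dyc v q.1 q.2, H x) =
      ∑ _k : Fin 3, ∑ _s : Bool, ∫⁻ x in dyc v q.1 q.2, H x := by
    simp only [Finset.sum_const, Finset.card_univ, Fintype.card_bool, Fintype.card_fin,
      nsmul_eq_mul]
    rw [← mul_assoc]
    norm_num
  rw [h1, ← Finset.sum_add_distrib]
  refine Finset.sum_le_sum fun k _ => ?_
  rw [← Finset.sum_add_distrib]
  refine Finset.sum_le_sum fun s _ => ?_
  have h2 : ∫⁻ x in dyc v q.1 q.2, H x = ∫⁻ y in hc q, H (v + ps (kf k s) y) := by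
    rw [setLIntegral_dyc]
    simp_rw [ps_kf]
  rw [h2]
  exact le_add_tsub

/-! ### The cube containing a point -/

theorem lintegral_eval (k : Fin 3) {G : ℝ → ℝ≥0∞} (hG : Measurable G) :
    ∫⁻ v in Icc (0:V) 1, G (v k) = ∫⁻ t in Icc (0:ℝ) 1, G t := by
  have h1 : (volume : Measure V).restrict (Icc 0 1) =
      Measure.pi fun _ => (volume : Measure ℝ).restrict (Icc 0 1) := by
    have : (Icc (0:V) 1) = Set.pi univ fun _ => Icc (0:ℝ) 1 := by
      ext x; simp [Pi.le_def, mem_Icc]
    rw [this, volume_pi]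
    exact Measure.restrict_pi_pi _ _
  have h2 : ∫⁻ v in Icc (0:V) 1, G (v k) =
      ∫⁻ t, G t ∂(Measure.map (Function.eval k) ((volume : Measure V).restrict (Icc 0 1))) := by
    rw [lintegral_map hG (measurable_pi_apply k)]
  rw [h2, h1, Measure.pi_map_eval]
  have h3 : ((volume : Measure ℝ).restrict (Icc 0 1)) univ = 1 := by
    rw [Measure.restrict_apply_univ, Real.volume_Icc]; simp
  simp [h3]

/-- in the half-open cube around `x` -/
theorem idx_mem (v : V) (n : ℕ) (x : V) : x - v ∈ hc (n, idx v n x) := by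
  have hp : (0:ℝ) < 2 ^ n := by positivity
  rw [mem_hc]
  intro i
  have h1 := Int.floor_le (2 ^ n * (x i - v i))
  have h2 := Int.lt_floor_add_one (2 ^ n * (x i - v i))
  show ((idx v n x i : ℤ) : ℝ) / 2 ^ n ≤ x i - v i ∧ x i - v i < ((idx v n x i : ℤ) + 1) / 2 ^ n
  rw [div_le_iff₀ hp, lt_div_iff₀ hp, idx]
  constructor <;> linarith

theorem mem_closedBall_of_mem_hc {v : V} {n : ℕ} {x y : V} (hy : y ∈ hc (n, idx v n x)) :
    v + y ∈ closedBall x (1 / 2 ^ n) := by
  have h1 := mem_hc.1 (idx_mem v n x)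
  rw [mem_hc] at hy
  rw [mem_closedBall, dist_pi_le_iff (by positivity)]
  intro i
  obtain ⟨a, b⟩ := hy i
  obtain ⟨c, d⟩ := h1 i
  simp only [add_div, Pi.sub_apply] at a b c d
  rw [Real.dist_eq, abs_le, Pi.add_apply]
  constructor <;> linarith

theorem update_mem_closedBall {v : V} {n : ℕ} {x y : V} (hy : y ∈ hc (n, idx v n x)) (k : Fin 3)
    (s : Bool) : v + Function.update y k (la s n (y k)) ∈ closedBall x (1 / 2 ^ n) := by
  have h0 := mem_hc.1 (idx_mem v n x)
  have h1 := mem_closedBall_of_mem_hc hy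
  rw [mem_closedBall, dist_pi_le_iff (by positivity)] at h1 ⊢
  intro i
  by_cases hi : i = k
  · subst hi
    have h2 := floor_of_mem (mem_hc.1 hy i).1 (mem_hc.1 hy i).2
    obtain ⟨c, d⟩ := h0 i
    simp only [Pi.sub_apply] at c d
    rw [Pi.add_apply, Function.update_self, la, h2, Real.dist_eq, abs_le]
    show _ ∧ v i + ((idx v n x i : ℝ) + (if s then 1 else 0)) / 2 ^ n - x i ≤ 1 / 2 ^ n
    simp only [add_div] at c d ⊢
    cases s
    · simp only [Bool.false_eq_true, if_false, zero_div]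
      constructor
      · show _ ≤ v i + ((idx v n x i : ℝ) / 2 ^ n + 0) - x i
        linarith
      · linarith [show (0:ℝ) ≤ 1 / 2 ^ n by positivity]
    · simp only [if_true]
      constructor
      · show _ ≤ v i + ((idx v n x i : ℝ) / 2 ^ n + 1 / 2 ^ n) - x i
        linarith [show (0:ℝ) ≤ 1 / 2 ^ n by positivity]
      · linarith
  · have := h1 i
    rwa [Pi.add_apply, Function.update_of_ne hi]

end Vale.Agent.P073.H83
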