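import Vale.Agent.P073.H83.MorreyS
import Vale.Agent.P073.H761.GenFam
import Vale.Agent.P073.H696.BSpec

/-!
# P073, block H83, [SEG-B]: short segments for approximations in `W^{1,q}`, `2 < q`

For `φ j → f` with convergence of the derivatives in `L^q` on all dyadic squares, and squares with
small scaled integrals of `‖F‖^p`, `p ≥ 3`, every point of such a square can be joined with the
boundary of the square by a segment whose image under `φ j` is short.
-/

open Set Metric Topology Filter MeasureTheory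
open scoped ENNReal NNReal

namespace Vale.Agent.P073.H83

open Vale.Agent.P073
open Vale.Agent.P073.AB (Idx pt edge eInt squ cl)
open Vale.Agent.P073.St (V Mat)
open _root_.P073.Net (dyc dyo len)
open Vale.Agent.P073.H73 (onSeg)
open Vale.Agent.P073.H194
open Vale.Agent.P073.H761
open Vale.Agent.P073.H696 (HF)
open Vale.Agent.P073.SQ (ev)

theorem sInt_mono_ae {v : V} {s : Idx × Fin 3} {f g : V → ℝ≥0∞}
    (h : ∀ᵐ x : V, Function.update x s.2 (pt v s.1.1 s.1.2 s.2) ∈ squ v s →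
      f (Function.update x s.2 (pt v s.1.1 s.1.2 s.2)) ≤
        g (Function.update x s.2 (pt v s.1.1 s.1.2 s.2))) : sInt v s f ≤ sInt v s g := by
  unfold sInt
  refine mul_le_mul_right (lintegral_mono_ae ?_) _
  have h1 : MeasurableSet (dyc v s.1.1 s.1.2) := by
    rw [dyc_eq_Icc]; exact measurableSet_Icc
  filter_upwards [ae_restrict_mem h1, ae_restrict_of_ae h] with x hx hx2
  refine hx2 ⟨by simp [pt], fun k hk => ?_⟩
  rw [Function.update_of_ne hk]
  exact hx k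

theorem two_pow_mul (n : ℕ) : (2 : ℝ≥0∞) ^ n * ENNReal.ofReal ((1 / 2 ^ n) ^ 3) =
    ENNReal.ofReal ((1 / 2 ^ n) ^ 2) := by
  have h2 : (2 : ℝ≥0∞) ^ n = ENNReal.ofReal (2 ^ n) := by
    rw [ENNReal.ofReal_pow (by norm_num)]; simp
  rw [h2, ← ENNReal.ofReal_mul (by positivity)]
  congr 1
  field_simp

theorem sInt_const (v : V) (s : Idx × Fin 3) (c : ℝ≥0∞) :
    sInt v s (fun _ => c) = ENNReal.ofReal ((1 / 2 ^ s.1.1) ^ 2) * c := by
  unfold sInt
  rw [lintegral_const, Measure.restrict_apply MeasurableSet.univ, univ_inter, dyc_eq_Icc,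
    Real.volume_Icc_pi]
  have h1 : ∀ i : Fin 3, ENNReal.ofReal ((fun k => v k + ((s.1.2 k : ℝ) + 1) / 2 ^ s.1.1) i -
      (fun k => v k + (s.1.2 k : ℝ) / 2 ^ s.1.1) i) = ENNReal.ofReal (1 / 2 ^ s.1.1) := by
    intro i
    congr 1
    ring
  rw [Finset.prod_congr rfl fun i _ => h1 i, Finset.prod_const, Finset.card_univ, Fintype.card_fin,
    ← ENNReal.ofReal_pow (by positivity), mul_comm c, ← mul_assoc, two_pow_mul]

theorem sInt_const_add (v : V) (s : Idx × Fin 3) (c : ℝ≥0∞) (H : V → ℝ≥0∞) :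
    sInt v s (fun x => c + H x) = ENNReal.ofReal ((1 / 2 ^ s.1.1) ^ 2) * c + sInt v s H := by
  rw [← sInt_const v s c]
  unfold sInt
  rw [← mul_add, lintegral_add_left measurable_const]

theorem sInt_const_mul (v : V) (s : Idx × Fin 3) {c : ℝ≥0∞} (hc : c ≠ ⊤) (H : V → ℝ≥0∞) :
    sInt v s (fun x => c * H x) = c * sInt v s H := by
  unfold sInt
  rw [lintegral_const_mul' _ _ hc]
  ring

theorem rpow_young {a : ℝ≥0∞} {T p q : ℝ} (hT : 0 < T) (hq : 0 < q) (hqp : q ≤ p) :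
    a ^ q ≤ ENNReal.ofReal (T ^ q) + ENNReal.ofReal (T ^ (q - p)) * a ^ p := by
  rcases le_total a (ENNReal.ofReal T) with h | h
  · refine le_trans ?_ le_self_add
    rw [← ENNReal.ofReal_rpow_of_pos hT]
    exact ENNReal.rpow_le_rpow h hq.le
  · refine le_trans ?_ le_add_self
    have hp : 0 < p := hq.trans_le hqp
    rcases eq_or_ne a ⊤ with rfl | ha
    · rw [ENNReal.top_rpow_of_pos hp, ENNReal.mul_top]
      · exact le_top
      · simp only [ne_eq, ENNReal.ofReal_eq_zero, not_le]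
        positivity
    · have ha0 : a ≠ 0 := fun h0 => by
        rw [h0] at h
        simp only [nonpos_iff_eq_zero, ENNReal.ofReal_eq_zero] at h
        linarith
      have e : a ^ q = a ^ (q - p) * a ^ p := by
        rw [← ENNReal.rpow_add _ _ ha0 ha]; congr 1; ring
      rw [e]
      refine mul_le_mul_left ?_ _
      rw [← ENNReal.ofReal_rpow_of_pos hT, ← neg_sub p q, ENNReal.rpow_neg, ENNReal.rpow_neg]
      exact ENNReal.inv_le_inv.2 (ENNReal.rpow_le_rpow h (by linarith))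

/-- from the exponent `q` to the exponent `p`, with scaling -/
theorem sInt_young {v : V} {s : Idx × Fin 3} {p q : ℝ} (hq : 0 < q) (hqp : q ≤ p) {η : ℝ}
    (hη : 0 < η) (H : V → ℝ≥0∞) :
    ENNReal.ofReal ((1 / 2 ^ s.1.1) ^ (q - 2)) * sInt v s (fun x => H x ^ q) ≤
      ENNReal.ofReal (η ^ q) + ENNReal.ofReal (η ^ (q - p)) *
        (ENNReal.ofReal ((1 / 2 ^ s.1.1) ^ (p - 2)) * sInt v s (fun x => H x ^ p)) := by
  set σ : ℝ := 1 / 2 ^ s.1.1 with hσ
  have hσ0 : 0 < σ := by positivity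
  have hT : 0 < η / σ := by positivity
  have h1 : sInt v s (fun x => H x ^ q) ≤ sInt v s (fun x => ENNReal.ofReal ((η / σ) ^ q) +
      ENNReal.ofReal ((η / σ) ^ (q - p)) * H x ^ p) :=
    sInt_mono_ae (Filter.Eventually.of_forall fun x _ => rpow_young hT hq hqp)
  rw [sInt_const_add, sInt_const_mul v s ENNReal.ofReal_ne_top] at h1
  refine (mul_le_mul_right h1 _).trans (le_of_eq ?_)
  rw [mul_add, ← mul_assoc, ← mul_assoc, ← mul_assoc, ← ENNReal.ofReal_mul (by positivity),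
    ← ENNReal.ofReal_mul (by positivity), ← ENNReal.ofReal_mul (by positivity),
    ← ENNReal.ofReal_mul (by positivity)]
  have e1 : σ ^ (q - 2) * σ ^ 2 * (η / σ) ^ q = η ^ q := by
    rw [Real.div_rpow hη.le hσ0.le, ← Real.rpow_natCast σ 2, ← Real.rpow_add hσ0]
    have : q - 2 + ((2 : ℕ) : ℝ) = q := by push_cast; ring
    rw [this]
    field_simp
  have e2 : σ ^ (q - 2) * (η / σ) ^ (q - p) = η ^ (q - p) * σ ^ (p - 2) := by
    rw [Real.div_rpow hη.le hσ0.le, mul_div_assoc', mul_comm, mul_div_assoc, ← Real.rpow_sub hσ0]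
    congr 2
    ring
  rw [e1, e2]

/-- the line derivatives by the derivative -/
theorem sInt_line_le {v : V} {s : Idx × Fin 3} {q : ℝ} (hq : 0 < q) {φ : V → V}
    (hd : ∀ᵐ x : V, Function.update x s.2 (pt v s.1.1 s.1.2 s.2) ∈ squ v s →
      DifferentiableAt ℝ φ (Function.update x s.2 (pt v s.1.1 s.1.2 s.2))) :
    sInt v s (fun z => ∑ j ∈ Finset.univ.erase s.2, ‖lineDeriv ℝ φ z (ev j)‖ₑ ^ q) ≤
      2 * sInt v s (fun z => ‖fderiv ℝ φ z‖ₑ ^ q) := by
  rw [← sInt_const_mul v s (by simp)]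
  refine sInt_mono_ae ?_
  filter_upwards [hd] with x hx hxs
  have h1 := hx hxs
  generalize Function.update x s.2 (pt v s.1.1 s.1.2 s.2) = z at h1
  have h2 : ∀ j ∈ Finset.univ.erase s.2, ‖lineDeriv ℝ φ z (ev j)‖ₑ ^ q ≤ ‖fderiv ℝ φ z‖ₑ ^ q := by
    intro j _
    refine ENNReal.rpow_le_rpow ?_ hq.le
    rw [h1.lineDeriv_eq_fderiv]
    refine ((fderiv ℝ φ z).le_opENorm _).trans ?_
    have h3 : ‖(ev j : V)‖ₑ = 1 := by
      rw [← ofReal_norm]
      simp [ev, Pi.norm_single]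
    rw [h3, mul_one]
  refine (Finset.sum_le_card_nsmul _ _ _ h2).trans ?_
  rw [Finset.card_erase_of_mem (Finset.mem_univ _)]
  simp

/-- **[SEG-B]**, one square: the length of the segment, with the field `G` and the difference -/
theorem seg_one {p q : ℝ} (hq : 2 < q) (hqp : q ≤ p) {v : V} {s : Idx × Fin 3} {φ : V → V}
    {K : ℝ≥0} (hφ : LipschitzOnWith K φ (squ v s))
    (hd : ∀ᵐ x : V, Function.update x s.2 (pt v s.1.1 s.1.2 s.2) ∈ squ v s →
      DifferentiableAt ℝ φ (Function.update x s.2 (pt v s.1.1 s.1.2 s.2)))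
    {G : V → V →L[ℝ] V} (htri : (sInt v s fun x => ‖fderiv ℝ φ x‖ₑ ^ q) ≤ 2 ^ (q - 1) *
      ((sInt v s fun x => ‖G x‖ₑ ^ q) + sInt v s fun x => ‖fderiv ℝ φ x - G x‖ₑ ^ q))
    {η : ℝ} (hη : 0 < η) {x : V} (hx : x ∈ squ v s) :
    ∃ y ∈ intrinsicFrontier ℝ (squ v s), len (onSeg φ (x, y)) (Icc 0 1) ≤
      ENNReal.ofReal (2 * CS q) * ((ENNReal.ofReal (η ^ q) + ENNReal.ofReal (η ^ (q - p)) *
        (ENNReal.ofReal ((1 / 2 ^ s.1.1) ^ (p - 2)) * sInt v s (fun x => ‖G x‖ₑ ^ p))) +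
          sInt v s fun x => ‖fderiv ℝ φ x - G x‖ₑ ^ q) ^ (1 / q) := by
  have hq0 : 0 < q := by linarith
  set σ : ℝ := 1 / 2 ^ s.1.1 with hσ
  have hσ0 : 0 < σ := by positivity
  have hσ1 : σ ≤ 1 := by
    rw [hσ]
    exact div_le_one_of_le₀ (one_le_pow₀ (by norm_num)) (by positivity)
  obtain ⟨y, hy, h1⟩ := morrey_seg hq hφ hx
  refine ⟨y, hy, h1.trans ?_⟩
  rw [← hσ]
  set A := sInt v s fun z => ∑ j ∈ Finset.univ.erase s.2, ‖lineDeriv ℝ φ z (ev j)‖ₑ ^ q with hA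
  set D := sInt v s fun x => ‖fderiv ℝ φ x - G x‖ₑ ^ q with hD
  set X := sInt v s fun x => ‖G x‖ₑ ^ q with hX
  have h2 : A ≤ 2 * (2 ^ (q - 1) * (X + D)) :=
    (sInt_line_le hq0 hd).trans (mul_le_mul_right htri _)
  have e2 : (2 : ℝ≥0∞) * (2 ^ (q - 1) * (X + D)) = 2 ^ q * (X + D) := by
    rw [← mul_assoc]
    congr 1
    have : (2 : ℝ≥0∞) * 2 ^ (q - 1) = 2 ^ (1 : ℝ) * 2 ^ (q - 1) := by rw [ENNReal.rpow_one]
    rw [this, ← ENNReal.rpow_add _ _ (by norm_num) (by norm_num)]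
    congr 1
    ring
  rw [e2] at h2
  have e3 : ENNReal.ofReal (CS q * σ ^ (1 - 2 / q)) * (2 ^ q * (X + D)) ^ (1 / q) =
      ENNReal.ofReal (2 * CS q) * (ENNReal.ofReal (σ ^ (q - 2)) * (X + D)) ^ (1 / q) := by
    rw [ENNReal.mul_rpow_of_nonneg _ _ (by positivity),
      ENNReal.mul_rpow_of_nonneg _ _ (by positivity), ← ENNReal.rpow_mul,
      mul_one_div_cancel hq0.ne', ENNReal.rpow_one,
      ENNReal.ofReal_rpow_of_pos (by positivity), ← Real.rpow_mul hσ0.le]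
    have e4 : (q - 2) * (1 / q) = 1 - 2 / q := by field_simp
    rw [e4, ENNReal.ofReal_mul (CS_pos q).le, ENNReal.ofReal_mul (by norm_num : (0:ℝ) ≤ 2)]
    simp only [ENNReal.ofReal_ofNat]
    ring
  calc ENNReal.ofReal (CS q * σ ^ (1 - 2 / q)) * A ^ (1 / q) ≤
      ENNReal.ofReal (CS q * σ ^ (1 - 2 / q)) * (2 ^ q * (X + D)) ^ (1 / q) := by gcongr
    _ = _ := e3
    _ ≤ _ := by
      refine mul_le_mul_right (ENNReal.rpow_le_rpow ?_ (by positivity)) _
      rw [mul_add]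
      refine add_le_add (sInt_young hq0 hqp hη _) ?_
      refine mul_le_of_le_one_left' ?_
      rw [ENNReal.ofReal_le_one]
      exact Real.rpow_le_one hσ0.le hσ1 (by linarith)

theorem finite_squ (v : V) {R : Set V} (hR : Bornology.IsBounded R) (n : ℕ) :
    {s : Idx × Fin 3 | s.1.1 = n ∧ squ v s ⊆ R}.Finite := by
  obtain ⟨M, hM⟩ := hR.exists_norm_le
  obtain ⟨N, hN⟩ := exists_nat_ge (2 ^ n * (M + ‖v‖))
  have h1 : ({z : Fin 3 → ℤ | z ∈ Icc (fun _ => -(N : ℤ)) (fun _ => (N : ℤ))} ×ˢ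
      (univ : Set (Fin 3))).Finite := (Set.finite_Icc _ _).prod finite_univ
  refine (h1.image fun a : (Fin 3 → ℤ) × Fin 3 => (((n, a.1), a.2) : Idx × Fin 3)).subset ?_
  rintro ⟨⟨m, z⟩, k⟩ ⟨hm, hs⟩
  simp only at hm
  subst hm
  refine ⟨(z, k), ⟨?_, mem_univ _⟩, rfl⟩
  have h2 : pt v m z ∈ squ v ((m, z), k) := by
    refine ⟨rfl, fun j _ => ⟨le_rfl, ?_⟩⟩
    simp only [pt]
    gcongr
    linarith
  have h3 := hM _ (hs h2)
  have h4 : ∀ j, |(z j : ℝ)| ≤ N := fun j => by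
    have h5 : |pt v m z j| ≤ M := (norm_le_pi_norm (pt v m z) j).trans h3
    have h6 : |v j| ≤ ‖v‖ := norm_le_pi_norm v j
    have h7 : (z j : ℝ) = 2 ^ m * (pt v m z j - v j) := by
      simp only [pt]; field_simp; ring
    rw [h7, abs_mul, abs_of_pos (by positivity : (0:ℝ) < 2 ^ m)]
    refine le_trans ?_ hN
    gcongr
    exact (abs_sub _ _).trans (add_le_add h5 h6)
  simp only [mem_ofPred_eq, mem_Icc, Pi.le_def]
  refine ⟨fun j => ?_, fun j => ?_⟩
  · have := (_root_.abs_le.1 (h4 j)).1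
    exact_mod_cast this
  · have := (_root_.abs_le.1 (h4 j)).2
    exact_mod_cast this

/-- **[SEG-B]** -/
theorem seg_B {p q : ℝ} (hq : 2 < q) (hqp : q ≤ p) (hp : 3 ≤ p) {Ω R : Set V} (hR : R ⊆ Ω)
    (hRb : Bornology.IsBounded R) {F : V → Mat} {v : V} {nn : ℕ → ℕ}
    (hsup : Tendsto (fun l => supS (nn l) (HF p Ω F) v) atTop (𝓝 0)) {φ : ℕ → V → V}
    (hN : NetConv q v R (fun j => fderiv ℝ (φ j)) (fun x => cl (F x)))
    (hLip : ∀ j s, squ v s ⊆ R → ∃ K, LipschitzOnWith K (φ j) (squ v s))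
    (hder : ∀ j s, squ v s ⊆ R → ∀ᵐ x : V, Function.update x s.2 (pt v s.1.1 s.1.2 s.2) ∈ squ v s →
      DifferentiableAt ℝ (φ j) (Function.update x s.2 (pt v s.1.1 s.1.2 s.2))) :
    ∀ B > 0, ∀ᶠ l in atTop, ∀ᶠ j in atTop, ∀ s, s.1.1 = nn l → squ v s ⊆ R → ∀ a ∈ squ v s,
      ∃ b ∈ intrinsicFrontier ℝ (squ v s), len (onSeg (φ j) (a, b)) (Icc 0 1) ≤
        ENNReal.ofReal B := by
  intro B hB
  have hq0 : 0 < q := by linarith
  have hC := CS_pos q
  set β : ℝ := (B / (2 * CS q)) ^ q with hβ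
  have hβ0 : 0 < β := by positivity
  set η : ℝ := (β / 3) ^ (1 / q) with hη
  have hη0 : 0 < η := by positivity
  have hηq : η ^ q = β / 3 := by
    rw [hη, ← Real.rpow_mul (by positivity), one_div_mul_cancel hq0.ne', Real.rpow_one]
  have h1 : ∀ᶠ l in atTop, ENNReal.ofReal (η ^ (q - p)) * supS (nn l) (HF p Ω F) v ≤
      ENNReal.ofReal (β / 3) := by
    have h2 := ENNReal.Tendsto.const_mul (a := ENNReal.ofReal (η ^ (q - p))) hsup
      (Or.inr ENNReal.ofReal_ne_top)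
    rw [mul_zero] at h2
    exact h2.eventually_le_const (by simpa using hβ0)
  filter_upwards [h1] with l hl
  have h3 : ∀ᶠ j in atTop, ∀ s ∈ (finite_squ v hRb (nn l)).toFinset,
      (sInt v s fun x => ‖fderiv ℝ (φ j) x - cl (F x)‖ₑ ^ q) ≤ ENNReal.ofReal (β / 3) := by
    rw [Filter.eventually_all_finset]
    intro s hs
    have hs' := (finite_squ v hRb (nn l)).mem_toFinset.1 hs
    exact (hN.squ_in hs'.2).eventually_le_const (by simpa using hβ0)
  filter_upwards [h3] with j hj s hsl hsR a ha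
  obtain ⟨K, hK⟩ := hLip j s hsR
  obtain ⟨b, hb, h4⟩ := seg_one hq hqp hK (hder j s hsR) (hN.tri_in hsR j) hη0 ha
  refine ⟨b, hb, h4.trans ?_⟩
  have h5 := hj s ((finite_squ v hRb (nn l)).mem_toFinset.2 ⟨hsl, hsR⟩)
  have h6 : ENNReal.ofReal ((1 / 2 ^ s.1.1) ^ (p - 2)) * sInt v s (fun x => ‖cl (F x)‖ₑ ^ p) ≤
      supS (nn l) (HF p Ω F) v := by
    refine le_trans ?_ (le_supS hsl (HF p Ω F) v)
    have e1 : sInt v s (HF p Ω F) = sInt v s (fun x => ‖cl (F x)‖ₑ ^ p) :=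
      sInt_indicator (q := p) (fun x => cl (F x)) (hsR.trans hR)
    rw [e1]
    refine mul_le_mul_left (ENNReal.ofReal_le_ofReal ?_) _
    rw [← hsl]
    calc ((1:ℝ) / 2 ^ s.1.1) ^ (p - 2) ≤ (1 / 2 ^ s.1.1) ^ (1 : ℝ) := by
          refine Real.rpow_le_rpow_of_exponent_ge (by positivity) ?_ (by linarith)
          exact div_le_one_of_le₀ (one_le_pow₀ (by norm_num)) (by positivity)
      _ = _ := Real.rpow_one _
  have h7 : (ENNReal.ofReal (η ^ q) + ENNReal.ofReal (η ^ (q - p)) *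
        (ENNReal.ofReal ((1 / 2 ^ s.1.1) ^ (p - 2)) * sInt v s (fun x => ‖cl (F x)‖ₑ ^ p))) +
          (sInt v s fun x => ‖fderiv ℝ (φ j) x - cl (F x)‖ₑ ^ q) ≤ ENNReal.ofReal β := by
    calc _ ≤ (ENNReal.ofReal (β / 3) + ENNReal.ofReal (β / 3)) + ENNReal.ofReal (β / 3) := by
          refine add_le_add (add_le_add (by rw [hηq]) ?_) h5
          exact (mul_le_mul_right h6 _).trans hl
      _ = ENNReal.ofReal β := by
          rw [← ENNReal.ofReal_add (by positivity) (by positivity),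
            ← ENNReal.ofReal_add (by positivity) (by positivity)]
          congr 1
          ring
  calc _ ≤ ENNReal.ofReal (2 * CS q) * (ENNReal.ofReal β) ^ (1 / q) :=
        mul_le_mul_right (ENNReal.rpow_le_rpow h7 (by positivity)) _
    _ = ENNReal.ofReal B := by
        rw [ENNReal.ofReal_rpow_of_pos hβ0, hβ, ← Real.rpow_mul (by positivity),
          mul_one_div_cancel hq0.ne', Real.rpow_one, ← ENNReal.ofReal_mul (by positivity)]
        congr 1
        field_simp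

end Vale.Agent.P073.H83
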