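import Mathlib.MeasureTheory.Function.LpSpace.DomAct.Continuous
import Mathlib.MeasureTheory.Measure.Lebesgue.EqHaar
import Mathlib.MeasureTheory.Integral.Lebesgue.Map
import Mathlib.MeasureTheory.Measure.Haar.Unique

/-!
# P073, block GENS, part 1: `L¹`-convergence of generalised Riemann sums, and one sequence of
generations for countably many of them.
-/

open Set Metric Topology Filter MeasureTheory
open scoped ENNReal

namespace Vale.Agent.P073.H83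

variable {E : Type*} [NormedAddCommGroup E] [NormedSpace ℝ E] [FiniteDimensional ℝ E]
  [MeasurableSpace E] [BorelSpace E] (μ : Measure E) [μ.IsAddHaarMeasure]

/-- continuity of translations in `L¹`, one-sided form with values in `ℝ≥0∞` -/
theorem exists_shift {g : E → ℝ≥0∞} (hg : AEMeasurable g μ) (hfin : ∫⁻ x, g x ∂μ ≠ ∞)
    {ε : ℝ≥0∞} (hε : 0 < ε) :
    ∃ δ > 0, ∀ h : E, ‖h‖ < δ → ∫⁻ x, (g (x + h) - g x) ∂μ ≤ ε := by
  have : ProperSpace E := FiniteDimensional.proper_real E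
  have : Fact ((1 : ℝ≥0∞) ≠ ∞) := ⟨ENNReal.one_ne_top⟩
  set G : E → ℝ := fun x => (g x).toReal with hG
  have hGm : AEStronglyMeasurable G μ := hg.ennreal_toReal.aestronglyMeasurable
  have hfa : ∀ᵐ x ∂μ, g x < ∞ := ae_lt_top' hg hfin
  have hGi : Integrable G μ := integrable_toReal_of_lintegral_ne_top hg hfin
  have hGp : MemLp G 1 μ := memLp_one_iff_integrable.2 hGi
  set L : Lp ℝ 1 μ := hGp.toLp G with hL
  have hcont : Continuous fun c : E => (DomAddAct.mk c +ᵥ L : Lp ℝ 1 μ) := by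
    have h1 : Continuous fun c : E => DomAddAct.mk c := DomAddAct.continuous_mk
    exact h1.vadd continuous_const
  have h0 : (DomAddAct.mk (0:E) +ᵥ L : Lp ℝ 1 μ) = L := by
    have : (DomAddAct.mk (0:E)) = 0 := rfl
    rw [this, zero_vadd]
  obtain ⟨r, hr0, hr⟩ : ∃ r : ℝ, 0 < r ∧ ENNReal.ofReal r ≤ ε := by
    by_cases hε' : ε = ∞
    · exact ⟨1, one_pos, by rw [hε']; exact le_top⟩
    · exact ⟨ε.toReal, ENNReal.toReal_pos hε.ne' hε', by rw [ENNReal.ofReal_toReal hε']⟩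
  have h2 := Metric.continuous_iff.1 hcont 0 r hr0
  obtain ⟨δ, hδ, H⟩ := h2
  refine ⟨δ, hδ, fun h hh => ?_⟩
  have h3 := H h (by simpa using hh)
  rw [h0, Lp.dist_def] at h3
  have h4 : (⇑(DomAddAct.mk h +ᵥ L : Lp ℝ 1 μ)) =ᵐ[μ] fun x => G (h + x) := by
    have h5 := DomAddAct.vadd_Lp_ae_eq (DomAddAct.mk h) L
    have h6 : (⇑L) =ᵐ[μ] G := hGp.coeFn_toLp
    refine h5.trans ?_
    have h7 := (measurePreserving_vadd h μ).quasiMeasurePreserving.ae_eq_comp h6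
    exact h7
  have h8 : eLpNorm (⇑(DomAddAct.mk h +ᵥ L : Lp ℝ 1 μ) - ⇑L) 1 μ =
      ∫⁻ x, ‖G (h + x) - G x‖ₑ ∂μ := by
    rw [eLpNorm_one_eq_lintegral_enorm]
    refine lintegral_congr_ae ?_
    filter_upwards [h4, hGp.coeFn_toLp] with x hx hx'
    rw [Pi.sub_apply, hx, hx']
  have h9 : eLpNorm (⇑(DomAddAct.mk h +ᵥ L : Lp ℝ 1 μ) - ⇑L) 1 μ ≤ ENNReal.ofReal r := by
    have hne : eLpNorm (⇑(DomAddAct.mk h +ᵥ L : Lp ℝ 1 μ) - ⇑L) 1 μ ≠ ∞ := by
      have := ((Lp.memLp (DomAddAct.mk h +ᵥ L : Lp ℝ 1 μ)).sub (Lp.memLp L)).eLpNorm_ne_top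
      exact this
    rw [← ENNReal.ofReal_toReal hne]
    exact ENNReal.ofReal_le_ofReal h3.le
  refine le_trans ?_ ((h8 ▸ h9).trans hr)
  have hfa' : ∀ᵐ x ∂μ, g (x + h) < ∞ := by
    have := (measurePreserving_add_right μ h).quasiMeasurePreserving.ae hfa
    exact this
  refine lintegral_mono_ae ?_
  filter_upwards [hfa, hfa'] with x hx hx'
  have e1 : g x = ENNReal.ofReal (G x) := (ENNReal.ofReal_toReal hx.ne).symm
  have e2 : g (x + h) = ENNReal.ofReal (G (x + h)) := (ENNReal.ofReal_toReal hx'.ne).symm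
  rw [e1, e2, ← ENNReal.ofReal_sub _ ENNReal.toReal_nonneg, add_comm h x, ← ofReal_norm]
  exact ENNReal.ofReal_le_ofReal (le_abs_self _)

/-- `L¹`-convergence of generalised Riemann sums -/
theorem exists_riemann {g : E → ℝ≥0∞} (hg : Measurable g) (hfin : ∫⁻ x, g x ∂μ ≠ ∞)
    {Y : Type*} [MeasurableSpace Y] (ν : Measure Y) [IsFiniteMeasure ν]
    (φ : ℕ → Y → E) (ψ : Y → E) (hφ : ∀ m, Measurable (φ m)) (hψ : Measurable ψ)
    (hc : ∀ δ > 0, ∃ m₀, ∀ m ≥ m₀, ∀ y, ‖φ m y - ψ y‖ < δ)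
    {ε : ℝ≥0∞} (hε : 0 < ε) :
    ∃ m₀, ∀ m ≥ m₀,
      ∫⁻ v, ((∫⁻ y, g (v + φ m y) ∂ν) - ∫⁻ y, g (v + ψ y) ∂ν) ∂μ ≤ ε := by
  obtain ⟨η, hη0, hη⟩ : ∃ η : ℝ≥0∞, 0 < η ∧ η * ν univ ≤ ε := by
    by_cases h : ν univ = 0
    · exact ⟨1, one_pos, by rw [h, mul_zero]; exact zero_le⟩
    · refine ⟨ε / ν univ, ENNReal.div_pos hε.ne' (measure_ne_top _ _), ?_⟩
      rw [ENNReal.div_mul_cancel h (measure_ne_top _ _)]
  obtain ⟨δ, hδ, hs⟩ := exists_shift μ hg.aemeasurable hfin hη0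
  obtain ⟨m₀, hm₀⟩ := hc δ hδ
  refine ⟨m₀, fun m hm => ?_⟩
  have hm1 : Measurable fun p : E × Y => g (p.1 + φ m p.2) :=
    hg.comp (measurable_fst.add ((hφ m).comp measurable_snd))
  have hm2 : Measurable fun p : E × Y => g (p.1 + ψ p.2) :=
    hg.comp (measurable_fst.add (hψ.comp measurable_snd))
  calc ∫⁻ v, ((∫⁻ y, g (v + φ m y) ∂ν) - ∫⁻ y, g (v + ψ y) ∂ν) ∂μ
      ≤ ∫⁻ v, ∫⁻ y, (g (v + φ m y) - g (v + ψ y)) ∂ν ∂μ := by
        refine lintegral_mono fun v => ?_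
        exact lintegral_sub_le _ _ (hm2.comp (measurable_const.prodMk measurable_id))
    _ = ∫⁻ y, ∫⁻ v, (g (v + φ m y) - g (v + ψ y)) ∂μ ∂ν := by
        rw [lintegral_lintegral_swap]
        exact (hm1.sub hm2).aemeasurable
    _ ≤ ∫⁻ _, η ∂ν := by
        refine lintegral_mono fun y => ?_
        have h1 := lintegral_add_right_eq_self (μ := μ)
          (fun v => g (v + (φ m y - ψ y)) - g v) (ψ y)
        have h2 : ∀ v, v + ψ y + (φ m y - ψ y) = v + φ m y := fun v => by abel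
        simp only [h2] at h1
        rw [h1]
        exact hs _ (hm₀ m hm y)
    _ = η * ν univ := by rw [lintegral_const]
    _ ≤ ε := hη

/-- one sequence of generations for countably many tests -/
theorem exists_generations {E : Type*} [MeasurableSpace E] {μ : Measure E}
    {T : Type*} [Countable T] (X : T → ℕ → E → ℝ≥0∞) (hX : ∀ τ m, AEMeasurable (X τ m) μ)
    (h : ∀ τ, ∀ ε : ℝ≥0∞, 0 < ε → ∃ m₀, ∀ m ≥ m₀, ∫⁻ v, X τ m v ∂μ ≤ ε) :
    ∃ M : ℕ → ℕ, StrictMono M ∧ ∀ᵐ v ∂μ, ∀ τ, Tendsto (fun l => X τ (M l) v) atTop (𝓝 0) := by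
  classical
  rcases isEmpty_or_nonempty T with hT | hT
  · exact ⟨id, strictMono_id, Eventually.of_forall fun v τ => hT.elim τ⟩
  obtain ⟨t, ht⟩ := exists_surjective_nat T
  have key : ∀ l : ℕ, ∃ m₀ : ℕ, ∀ m ≥ m₀, ∀ k ≤ l,
      ∫⁻ v, X (t k) m v ∂μ ≤ (1 / 2 : ℝ≥0∞) ^ l := by
    intro l
    have h1 : ∀ k : ℕ, ∃ m₀ : ℕ, ∀ m ≥ m₀, ∫⁻ v, X (t k) m v ∂μ ≤ (1 / 2 : ℝ≥0∞) ^ l :=
      fun k => h (t k) _ (ENNReal.pow_pos (by norm_num) l)
    choose m₀ hm₀ using h1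
    refine ⟨(Finset.range (l + 1)).sup m₀, fun m hm k hk => hm₀ k m (le_trans ?_ hm)⟩
    exact Finset.le_sup (f := m₀) (Finset.mem_range.2 (Nat.lt_succ_of_le hk))
  choose m₀ hm₀ using key
  set M : ℕ → ℕ := fun l => Nat.rec (m₀ 0) (fun l r => max (r + 1) (m₀ (l + 1))) l with hM
  have hMs : ∀ l, M (l + 1) = max (M l + 1) (m₀ (l + 1)) := fun l => rfl
  have hM1 : StrictMono M := strictMono_nat_of_lt_succ fun l => by
    rw [hMs]; exact lt_of_lt_of_le (Nat.lt_succ_self _) (le_max_left _ _)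
  have hM2 : ∀ l, m₀ l ≤ M l := by
    intro l
    cases l with
    | zero => exact le_refl _
    | succ l => rw [hMs]; exact le_max_right _ _
  refine ⟨M, hM1, ?_⟩
  rw [ae_all_iff]
  intro τ
  obtain ⟨k, rfl⟩ := ht τ
  have hsum : ∫⁻ v, ∑' l, X (t k) (M (l + k)) v ∂μ ≠ ∞ := by
    rw [lintegral_tsum fun l => hX _ _]
    refine ne_of_lt (lt_of_le_of_lt (b := ∑' l : ℕ, (1 / 2 : ℝ≥0∞) ^ l) ?_ ?_)
    · refine ENNReal.tsum_le_tsum fun l => ?_
      refine (hm₀ (l + k) _ (hM2 _) k (Nat.le_add_left _ _)).trans ?_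
      exact pow_le_pow_of_le_one zero_le (by simp) (Nat.le_add_right _ _)
    · rw [ENNReal.tsum_geometric]
      rw [ENNReal.inv_lt_top]
      norm_num
  have h2 : ∀ᵐ v ∂μ, ∑' l, X (t k) (M (l + k)) v < ∞ :=
    ae_lt_top' (AEMeasurable.tsum fun l => hX _ _) hsum
  filter_upwards [h2] with v hv
  have h3 := ENNReal.tendsto_atTop_zero_of_tsum_ne_top hv.ne
  exact (tendsto_add_atTop_iff_nat (f := fun l => X (t k) (M l) v) k).1 h3

/-- the same, along a subsequence of a given sequence -/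
theorem exists_generations' {E : Type*} [MeasurableSpace E] {μ : Measure E}
    {T : Type*} [Countable T] (X : T → ℕ → E → ℝ≥0∞) (hX : ∀ τ m, AEMeasurable (X τ m) μ)
    (h : ∀ τ, Tendsto (fun m => ∫⁻ v, X τ m v ∂μ) atTop (𝓝 0)) {M₀ : ℕ → ℕ}
    (hM₀ : StrictMono M₀) :
    ∃ φ : ℕ → ℕ, StrictMono φ ∧
      ∀ᵐ v ∂μ, ∀ τ, Tendsto (fun l => X τ (M₀ (φ l)) v) atTop (𝓝 0) := by
  obtain ⟨φ, hφ, H⟩ := exists_generations (fun τ m => X τ (M₀ m)) (fun τ m => hX τ _)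
    (μ := μ) (by
      intro τ ε hε
      have h1 := (h τ).comp hM₀.tendsto_atTop
      obtain ⟨m₀, hm₀⟩ := eventually_atTop.1 (h1.eventually (ge_mem_nhds hε))
      exact ⟨m₀, hm₀⟩)
  exact ⟨φ, hφ, H⟩

end Vale.Agent.P073.H83
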